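import Vale.Agent.P199.Main
import Mathlib.RingTheory.Algebraic.Basic

/-!
Algebraic subalgebras of division algebras, and passing from a central subfield to the centre.
-/

noncomputable section

universe u

namespace Vale.Agent.P199.Full

variable {k D : Type u} [Field k] [DivisionRing D] [Algebra k D]

theorem inv_mem_of_algebraic (A : Subalgebra k D) {a : D} (ha : a ∈ A) (h : IsAlgebraic k a) :
    a⁻¹ ∈ A := by
  rcases eq_or_ne a 0 with rfl | h0
  · simp
  set S := Algebra.adjoin k ({a} : Set D) with hS
  have hfin : Module.Finite k S :=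
    Module.Finite.iff_fg.2 h.isIntegral.fg_adjoin_singleton
  have hinj : Function.Injective (LinearMap.mulLeft k (⟨a, Algebra.subset_adjoin rfl⟩ : S)) :=
    fun x y hxy => Subtype.ext (mul_left_cancel₀ h0 (congrArg Subtype.val hxy))
  obtain ⟨b, hb⟩ := LinearMap.injective_iff_surjective.1 hinj 1
  have hb' : a * (b : D) = 1 := congrArg Subtype.val hb
  rw [← eq_inv_of_mul_eq_one_right hb']
  exact Algebra.adjoin_le (Set.singleton_subset_iff.2 ha) b.2

theorem isUnit_or_eq_zero_of_algebraic (A : Subalgebra k D) (h : ∀ a ∈ A, IsAlgebraic k a)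
    (x : A) : IsUnit x ∨ x = 0 := by
  rcases eq_or_ne x 0 with rfl | h0
  · exact Or.inr rfl
  · have hx : (x : D) ≠ 0 := fun e => h0 (Subtype.ext e)
    exact Or.inl ⟨⟨x, ⟨(x : D)⁻¹, inv_mem_of_algebraic A x.2 (h x x.2)⟩,
      Subtype.ext (mul_inv_cancel₀ hx), Subtype.ext (inv_mul_cancel₀ hx)⟩, rfl⟩

/-- An algebraic, finitely generated, infinite-dimensional division algebra over a central
subfield is infinite-dimensional over its centre. -/
theorem infinite_over_center [Algebra.IsAlgebraic k D] {s : Set D} (hs : s.Finite)
    (hgen : Algebra.adjoin k s = ⊤) (hinf : ¬ FiniteDimensional k D) :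
    ¬ FiniteDimensional (Subring.center D) D := by
  intro hfin
  let j : k →+* Subring.center D := (algebraMap k D).codRestrict (Subring.center D) fun a =>
    Subring.mem_center_iff.2 fun d => (Algebra.commutes a d).symm
  let _ : Algebra k (Subring.center D) := j.toAlgebra
  have : IsScalarTower k (Subring.center D) D := IsScalarTower.of_algebraMap_eq fun _ => rfl
  have : Algebra.IsAlgebraic k (Subring.center D) :=
    Algebra.IsAlgebraic.tower_bot k (Subring.center D) D
  have := finite_adjoin (F := k) (Z := Subring.center D) (B := D) hs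
  rw [hgen] at this
  exact hinf (Module.Finite.equiv (Subalgebra.topEquiv (R := k) (A := D)).toLinearEquiv)

theorem adjoin_center_eq_top {s : Set D} (hgen : Algebra.adjoin k s = ⊤) :
    Algebra.adjoin (Subring.center D) s = ⊤ := by
  suffices h : ∀ x ∈ Algebra.adjoin k s, x ∈ Algebra.adjoin (Subring.center D) s from
    eq_top_iff.2 fun x _ => h x (hgen ▸ Algebra.mem_top)
  intro x hx
  induction hx using Algebra.adjoin_induction with
  | mem x hx => exact Algebra.subset_adjoin hx
  | algebraMap r =>
    exact (Algebra.adjoin (Subring.center D) s).algebraMap_mem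
      (⟨algebraMap k D r, Subring.mem_center_iff.2 fun d => (Algebra.commutes r d).symm⟩ :
        Subring.center D)
  | add x y _ _ hx hy => exact add_mem hx hy
  | mul x y _ _ hx hy => exact mul_mem hx hy

theorem isAlgebraic_center [Algebra.IsAlgebraic k D] : Algebra.IsAlgebraic (Subring.center D) D := by
  let j : k →+* Subring.center D := (algebraMap k D).codRestrict (Subring.center D) fun a =>
    Subring.mem_center_iff.2 fun d => (Algebra.commutes a d).symm
  let _ : Algebra k (Subring.center D) := j.toAlgebra
  have : IsScalarTower k (Subring.center D) D := IsScalarTower.of_algebraMap_eq fun _ => rfl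
  exact Algebra.IsAlgebraic.tower_top (K := k) _

end Vale.Agent.P199.Full
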