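import Vale.Agent.P199.Full.QHom

/-!
Kurosh's problem for division rings, full disproof: the rational point used in the block lemma.
At it the general element becomes `∑ 2^j E(e_j)`, with `e_j` the class of the second generator of
the `j`-th factor, `j < i`; it has `2 ^ i` distinct eigenvalues.
-/

noncomputable section

namespace Vale.Agent.P199.Full

open MvPolynomial

/-- Classes of the second generators of the first `i` factors. -/
abbrev Rg (i : ℕ) : Type := Fin i → ZMod 2

/-- The sign attached to a class mod `2`. -/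
def sg (a : ZMod 2) : ℤ := if a = 1 then -1 else 1

theorem zmod2_cases : ∀ a : ZMod 2, a = 0 ∨ a = 1 := by decide

theorem sg_add (a b : ZMod 2) : sg (a + b) = sg a * sg b := by
  rcases zmod2_cases a with rfl | rfl <;> rcases zmod2_cases b with rfl | rfl <;>
    simp [sg, show (1 + 1 : ZMod 2) = 0 from rfl]

theorem sum_two_pow_eq_zero : ∀ {i : ℕ} (c : Fin i → ℤ),
    (∀ j, c j = -1 ∨ c j = 0 ∨ c j = 1) → ∑ j, c j * 2 ^ (j : ℕ) = 0 → c = 0
  | 0, c, _, _ => funext fun j => j.elim0
  | i + 1, c, h, hs => by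
    have e : ∑ j, c j * 2 ^ (j : ℕ) = c 0 + 2 * ∑ j : Fin i, c j.succ * 2 ^ (j : ℕ) := by
      rw [Fin.sum_univ_succ, Finset.mul_sum]
      simp only [Fin.val_zero, pow_zero, mul_one, Fin.val_succ, pow_succ]
      congr 1
      exact Finset.sum_congr rfl fun j _ => by ring
    rw [e] at hs
    have h0 : c 0 = 0 := by rcases h 0 with h0 | h0 | h0 <;> omega
    have ht := sum_two_pow_eq_zero (fun j : Fin i => c j.succ) (fun j => h _) (by omega)
    funext j
    refine Fin.cases h0 (fun j => congrFun ht j) j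

/-- The characters. -/
def chi {i : ℕ} (s r : Rg i) : ℤ := ∏ j, if s j = 1 then sg (r j) else 1

theorem chi_add {i : ℕ} (s r r' : Rg i) : chi s (r + r') = chi s r * chi s r' := by
  rw [chi, chi, chi, ← Finset.prod_mul_distrib]
  exact Finset.prod_congr rfl fun j _ => by split_ifs <;> simp [sg_add]

theorem chi_single {i : ℕ} (s : Rg i) (j : Fin i) : chi s (Pi.single j 1) = sg (s j) := by
  rw [chi, Finset.prod_eq_single j (fun b _ hb => by simp [Pi.single_eq_of_ne hb, sg])
    (fun h => absurd (Finset.mem_univ _) h)]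
  rcases zmod2_cases (s j) with h | h <;> simp [h, sg]

theorem sum_chi_mul_chi {i : ℕ} (r r' : Rg i) :
    ∑ s, chi s r * chi s r' = if r = r' then 2 ^ i else 0 := by
  classical
  have e : ∑ s, chi s r * chi s r' = ∏ j, (1 + sg (r j) * sg (r' j)) := by
    have h := Fintype.prod_sum (fun (j : Fin i) (a : ZMod 2) =>
      if a = 1 then sg (r j) * sg (r' j) else 1)
    have h2 : ∀ j : Fin i,
        (∑ a : ZMod 2, if a = 1 then sg (r j) * sg (r' j) else 1) = 1 + sg (r j) * sg (r' j) := by
      intro j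
      rw [show (Finset.univ : Finset (ZMod 2)) = {0, 1} from rfl,
        Finset.sum_insert (by decide), Finset.sum_singleton]
      simp
    simp only [h2] at h
    rw [h]
    refine Finset.sum_congr rfl fun s _ => ?_
    rw [chi, chi, ← Finset.prod_mul_distrib]
    exact Finset.prod_congr rfl fun j _ => by split_ifs <;> simp
  rw [e]
  split_ifs with h
  · subst h
    rw [Finset.prod_congr rfl (fun j _ => show 1 + sg (r j) * sg (r j) = 2 by
      rcases zmod2_cases (r j) with h | h <;> simp [h, sg])]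
    simp
  · obtain ⟨j, hj⟩ := Function.ne_iff.1 h
    refine Finset.prod_eq_zero (Finset.mem_univ j) ?_
    rcases zmod2_cases (r j) with h₁ | h₁ <;> rcases zmod2_cases (r' j) with h₂ | h₂ <;>
      simp_all [sg]

/-- Functions on the classes are determined by their transforms. -/
theorem eq_zero_of_chi {i : ℕ} (F : Rg i → ℚ) (h : ∀ s, ∑ r, (chi s r : ℚ) * F r = 0) : F = 0 := by
  classical
  funext r
  have h0 : ∑ s, (chi s r : ℚ) * ∑ r', (chi s r' : ℚ) * F r' = 0 := by simp [h]
  simp only [Finset.mul_sum] at h0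
  rw [Finset.sum_comm] at h0
  have h1 : ∀ r', ∑ s, (chi s r : ℚ) * ((chi s r' : ℚ) * F r') =
      (if r = r' then (2 : ℚ) ^ i else 0) * F r' := by
    intro r'
    simp only [← mul_assoc, ← Finset.sum_mul]
    have hr := sum_chi_mul_chi r r'
    congr 1
    exact_mod_cast hr
  simp only [h1, ite_mul, zero_mul, Finset.sum_ite_eq, Finset.mem_univ, if_true] at h0
  simpa using h0

theorem sum_chi_shift {i : ℕ} (F : Rg i → ℚ) (s : Rg i) (j : Fin i) :
    ∑ r, (chi s r : ℚ) * F (r + Pi.single j 1) = sg (s j) * ∑ r, (chi s r : ℚ) * F r := by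
  rw [Finset.mul_sum]
  refine Fintype.sum_equiv (Equiv.addRight (Pi.single j 1)) _ _ fun r => ?_
  simp only [Equiv.coe_addRight, chi_add, chi_single]
  push_cast
  rcases zmod2_cases (s j) with h | h <;> simp [h, sg]

section Point

variable {N i : ℕ} (hN : i ≤ N)

/-- The coordinate carrying the `j`-th of these classes. -/
def qT (j : Fin i) : QI N := (Fin.castLE hN j, true)

/-- The other coordinate of the same factor. -/
def qF (j : Fin i) : QI N := (Fin.castLE hN j, false)

/-- The classes inside all classes. -/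
def rho (r : Rg i) : Gam N := fun q =>
  if h : q.2 = true ∧ (q.1 : ℕ) < i then r ⟨q.1, h.2⟩ else 0

theorem rho_add (r r' : Rg i) : rho (N := N) (r + r') = rho r + rho r' := by
  funext q; simp only [rho, Pi.add_apply]; split_ifs <;> simp

theorem rho_qT (r : Rg i) (j : Fin i) : rho r (qT hN j) = r j := by simp [rho, qT]

theorem rho_qF (r : Rg i) (j : Fin i) : rho r (qF hN j) = 0 := by simp [rho, qF]

theorem rho_injective (hN : i ≤ N) : Function.Injective (rho (N := N) (i := i)) := fun r r' h =>
  funext fun j => by rw [← rho_qT hN r j, h, rho_qT]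

/-- The class of the second generator of the `j`-th factor. -/
def gj (j : Fin i) : Gam N := rho (Pi.single j 1)

theorem gj_ne_zero (j : Fin i) : (gj j : Gam N) ≠ 0 ∨ ¬ i ≤ N := by
  by_cases h : i ≤ N
  · refine Or.inl fun h0 => ?_
    have := congrFun h0 (qT h j)
    rw [gj, rho_qT] at this
    simp at this
  · exact Or.inr h

theorem gam_sub_eq_add (γ δ : Gam N) : γ - δ = γ + δ := by
  funext q
  simp only [Pi.sub_apply, Pi.add_apply]
  rcases zmod2_cases (γ q) with h | h <;> rcases zmod2_cases (δ q) with h' | h' <;> rw [h, h'] <;> decide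

theorem gam_add_self (γ : Gam N) : γ + γ = 0 := by rw [← gam_sub_eq_add, sub_self]

/-- The point `∑ 2^j E(e_j)`. -/
def pointW (N i : ℕ) : QT (fun _ : QI N => (1 : ℚ)) :=
  ⟨fun γ => ∑ j : Fin i, if γ = gj j then (2 : ℚ) ^ (j : ℕ) else 0⟩

theorem sgn_right_gj (δ : Gam N) (j : Fin i) : (sgn δ (gj j) : ℚ) = 1 := by
  refine Finset.prod_eq_one fun k _ => if_neg fun h => ?_
  have : (gj j : Gam N) (k, false) = 0 := by simp [gj, rho]
  rw [this] at h
  exact zero_ne_one h.2

theorem sgn_left_gj (δ : Gam N) (j : Fin i) :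
    (sgn (gj j) δ : ℚ) = if δ (qF hN j) = 1 then -1 else 1 := by
  rw [sgn, Finset.prod_eq_single (Fin.castLE hN j) (fun k _ hk => if_neg fun h => ?_)
    (fun h => absurd (Finset.mem_univ _) h)]
  · have : (gj j : Gam N) (Fin.castLE hN j, true) = 1 := by
      rw [gj, ← qT, rho_qT]; simp
    simp only [this, qF, true_and]
    split_ifs <;> simp_all
  · have h1 := h.1
    simp only [gj, rho, true_and] at h1
    split_ifs at h1 with hk'
    · rcases eq_or_ne (⟨k, hk'⟩ : Fin i) j with e | e
      · exact hk (by rw [← e]; ext; rfl)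
      · rw [Pi.single_eq_of_ne e] at h1; exact zero_ne_one h1
    · exact zero_ne_one h1

theorem mul_pointW_co (x : QT (fun _ : QI N => (1 : ℚ))) (ε : Gam N) :
    (x * pointW N i).co ε = ∑ j : Fin i, (2 : ℚ) ^ (j : ℕ) * x.co (ε + gj j) := by
  rw [QT.co_mul]
  simp only [pointW, coc, carry_one, mul_one, Finset.mul_sum, Finset.sum_mul]
  rw [Finset.sum_comm]
  refine Finset.sum_congr rfl fun j _ => ?_
  have hiff : ∀ γ : Gam N, ε - γ = gj j ↔ γ = ε + gj j := fun γ => by
    constructor
    · intro h; rw [← h, gam_sub_eq_add, ← add_assoc, gam_add_self, zero_add]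
    · rintro rfl; rw [gam_sub_eq_add, ← add_assoc, gam_add_self, zero_add]
  rw [Finset.sum_eq_single (ε + gj j) (fun γ _ hγ => by simp [mt (hiff γ).1 hγ])
    (fun h => absurd (Finset.mem_univ _) h)]
  rw [(hiff _).2 rfl, sgn_right_gj]
  simp [mul_comm]

theorem pointW_mul_co (x : QT (fun _ : QI N => (1 : ℚ))) (ε : Gam N) :
    (pointW N i * x).co ε = ∑ j : Fin i,
      (2 : ℚ) ^ (j : ℕ) * (if ε (qF hN j) = 1 then -1 else 1) * x.co (ε + gj j) := by
  rw [QT.co_mul]
  simp only [pointW, coc, carry_one, mul_one, Finset.sum_mul]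
  rw [Finset.sum_comm]
  refine Finset.sum_congr rfl fun j _ => ?_
  rw [Finset.sum_eq_single (gj j : Gam N) (fun γ _ hγ => by simp [hγ])
    (fun h => absurd (Finset.mem_univ _) h)]
  rw [if_pos rfl, sgn_left_gj hN, gam_sub_eq_add]
  have : (ε + gj j : Gam N) (qF hN j) = ε (qF hN j) := by
    rw [Pi.add_apply, gj, rho_qF, add_zero]
  rw [this]
  ring

/-- The values of the point at the characters. -/
def eig (s : Rg i) : ℚ := ((∑ j : Fin i, sg (s j) * 2 ^ (j : ℕ) : ℤ) : ℚ)

theorem eig_injective : Function.Injective (eig (i := i)) := by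
  intro s s' h
  have h' : ∑ j : Fin i, sg (s j) * 2 ^ (j : ℕ) = ∑ j : Fin i, sg (s' j) * 2 ^ (j : ℕ) :=
    Int.cast_injective h
  have key := sum_two_pow_eq_zero
    (fun j => if s j = s' j then 0 else sg (s j)) (fun j => by
      simp only [sg]; split_ifs <;> simp) ?_
  · funext j
    have := congrFun key j
    by_contra hne
    simp only [hne, if_false, Pi.zero_apply, sg] at this
    split_ifs at this <;> omega
  · have : ∀ j, 2 * (if s j = s' j then 0 else sg (s j)) = sg (s j) - sg (s' j) := by
      intro j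
      rcases zmod2_cases (s j) with h₁ | h₁ <;> rcases zmod2_cases (s' j) with h₂ | h₂ <;>
        simp [h₁, h₂, sg]
    have h2 : 2 * ∑ j : Fin i, (if s j = s' j then 0 else sg (s j)) * 2 ^ (j : ℕ) = 0 := by
      rw [Finset.mul_sum]
      simp only [← mul_assoc, this, sub_mul, Finset.sum_sub_distrib, h', sub_self]
    omega

theorem sum_chi_pow (s : Rg i) (hN : i ≤ N) :
    ∀ n : ℕ, ∑ r, (chi s r : ℚ) * (pointW N i ^ n).co (rho r) = eig s ^ n
  | 0 => by
    classical
    rw [pow_zero, pow_zero, Finset.sum_eq_single (0 : Rg i)]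
    · have : rho (N := N) (0 : Rg i) = 0 := by funext q; simp [rho]
      simp [this, QT.co_one, chi, sg]
    · intro r _ hr
      have : rho (N := N) r ≠ 0 := fun h => hr (rho_injective hN (by
        rw [h]; funext q; simp [rho]))
      simp [QT.co_one, Pi.single_eq_of_ne this]
    · exact fun h => absurd (Finset.mem_univ _) h
  | n + 1 => by
    simp only [pow_succ, mul_pointW_co, gj, ← rho_add, Finset.mul_sum]
    rw [Finset.sum_comm, eig, Int.cast_sum, Finset.mul_sum]
    refine Finset.sum_congr rfl fun j _ => ?_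
    simp only [mul_left_comm _ ((2 : ℚ) ^ (j : ℕ)), ← Finset.mul_sum]
    rw [sum_chi_shift (fun r => (pointW N i ^ n).co (rho r)) s j, sum_chi_pow s hN n]
    unfold eig
    push_cast
    ring

/-- The powers below `2 ^ i` are independent in the coordinates of the classes. -/
theorem pointW_indep (hN : i ≤ N) {e : ℕ} (he : e = 2 ^ i) (v : Fin e → ℚ)
    (h : ∀ r : Rg i, ∑ j : Fin e, v j * (pointW N i ^ (j : ℕ)).co (rho r) = 0) : v = 0 := by
  let E : Fin e ≃ Rg i := (Fintype.equivFinOfCardEq (by simp [he])).symm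
  refine Matrix.eq_zero_of_forall_index_sum_mul_pow_eq_zero (eig_injective.comp E.injective)
    fun k => ?_
  simp only [Function.comp_apply, ← sum_chi_pow (N := N) (E k) hN, Finset.mul_sum]
  rw [Finset.sum_comm]
  refine Finset.sum_eq_zero fun r _ => ?_
  have h' : (chi (E k) r : ℚ) * ∑ j : Fin e, v j * (pointW N i ^ (j : ℕ)).co (rho r) = 0 := by
    rw [h r, mul_zero]
  rw [← h', Finset.mul_sum]
  exact Finset.sum_congr rfl fun j _ => by ring

/-- An element commuting with the point and vanishing on the complementary classes is zero. -/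
theorem pointW_centralizer (x : QT (fun _ : QI N => (1 : ℚ)))
    (hc : x * pointW N i = pointW N i * x)
    (hT : ∀ δ : Gam N, (∀ j : Fin i, δ (qF hN j) = 0) → x.co δ = 0) : x = 0 := by
  classical
  ext δ
  by_cases hδ : ∀ j : Fin i, δ (qF hN j) = 0
  · exact hT δ hδ
  push Not at hδ
  obtain ⟨j₀, hj₀⟩ := hδ
  have hq₀ : δ (qF hN j₀) = 1 := (zmod2_cases _).resolve_left hj₀
  set F : Rg i → ℚ := fun r => x.co (δ + rho r)
  let q : Fin i → ℤ := fun j => if δ (qF hN j) = 1 then 1 else 0
  have hrel : ∀ r : Rg i, ∑ j : Fin i, (q j : ℚ) * (2 : ℚ) ^ (j : ℕ) * F (r + Pi.single j 1) = 0 := by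
    intro r
    have h0 := congrFun (congrArg QT.co hc) (δ + rho r)
    rw [mul_pointW_co, pointW_mul_co hN, ← sub_eq_zero, ← Finset.sum_sub_distrib] at h0
    have h1 : (2 : ℚ) * ∑ j : Fin i, (q j : ℚ) * (2 : ℚ) ^ (j : ℕ) * F (r + Pi.single j 1) = 0 := by
      rw [Finset.mul_sum, ← h0]
      refine Finset.sum_congr rfl fun j _ => ?_
      have e : (δ + rho r : Gam N) (qF hN j) = δ (qF hN j) := by
        rw [Pi.add_apply, rho_qF, add_zero]
      simp only [F, rho_add, ← add_assoc, e, q, gj]
      split_ifs <;> push_cast <;> ring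
    simpa using h1
  have hF : F = 0 := by
    refine eq_zero_of_chi F fun s => ?_
    have h0 : ∑ r : Rg i, (chi s r : ℚ) *
        ∑ j : Fin i, (q j : ℚ) * (2 : ℚ) ^ (j : ℕ) * F (r + Pi.single j 1) = 0 := by simp [hrel]
    simp only [Finset.mul_sum] at h0
    rw [Finset.sum_comm] at h0
    simp only [mul_left_comm (chi s _ : ℚ), ← Finset.mul_sum, sum_chi_shift F s] at h0
    simp only [← mul_assoc, ← Finset.sum_mul] at h0
    refine (mul_eq_zero.1 h0).resolve_left fun hz => ?_
    have hz' : ∑ j : Fin i, q j * sg (s j) * 2 ^ (j : ℕ) = 0 := by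
      have : ((∑ j : Fin i, q j * sg (s j) * 2 ^ (j : ℕ) : ℤ) : ℚ) = 0 := by
        push_cast
        rw [← hz]
        exact Finset.sum_congr rfl fun j _ => by ring
      exact_mod_cast this
    have key := sum_two_pow_eq_zero (fun j => q j * sg (s j)) (fun j => by
      simp only [q, sg]; split_ifs <;> simp) hz'
    have := congrFun key j₀
    simp only [q, hq₀, if_true, one_mul, Pi.zero_apply, sg] at this
    split_ifs at this <;> omega
  have h0 := congrFun hF 0
  have : rho (N := N) (0 : Rg i) = 0 := by funext q'; simp [rho]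
  simpa [F, this] using h0

end Point

end Vale.Agent.P199.Full
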