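import Vale.Agent.P199.Full.Elim
import Vale.Agent.P199.Full.BlockPoint

/-!
Kurosh's problem for division rings, full disproof: the block lemma. Few equations, all of classes
outside a fixed set of linear forms, cut the general element down to degree `2 ^ i`.
-/

noncomputable section

namespace Vale.Agent.P199.Full

open MvPolynomial

section Det

theorem det_isWH {σ M n : Type} [AddCommMonoid M] [Fintype n] [DecidableEq n] (u : σ → M)
    (A : Matrix n n (MvPolynomial σ ℚ)) (a b : n → M)
    (h : ∀ p q, IsWeightedHomogeneous u (A p q) (a p + b q)) :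
    IsWeightedHomogeneous u A.det (∑ p, a p + ∑ q, b q) := by
  classical
  rw [Matrix.det_apply]
  refine IsWeightedHomogeneous.sum _ _ _ fun π _ => ?_
  have hp := IsWeightedHomogeneous.prod Finset.univ (fun q => A (π q) q) (fun q => a (π q) + b q)
    (fun q _ => h _ _)
  rw [Finset.sum_add_distrib, Equiv.sum_comp π a] at hp
  rcases Int.units_eq_one_or (Equiv.Perm.sign π) with e | e <;> rw [e]
  · simpa using hp
  · rw [Units.neg_smul, one_smul]
    exact (weightedHomogeneousSubmodule ℚ u _).neg_mem hp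

theorem det_mem_of_col {R n : Type} [CommRing R] [Fintype n] [DecidableEq n] (I : Ideal R)
    (A : Matrix n n R) (q : n) (h : ∀ p, A p q ∈ I) : A.det ∈ I := by
  rw [Matrix.det_apply]
  refine Ideal.sum_mem _ fun π _ => ?_
  have : ∏ x, A (π x) x ∈ I := by
    rw [← Finset.mul_prod_erase _ _ (Finset.mem_univ q)]
    exact Ideal.mul_mem_right _ _ (h _)
  rcases Int.units_eq_one_or (Equiv.Perm.sign π) with e | e <;> rw [e]
  · simpa using this
  · simpa using I.neg_mem this

theorem det_mem_subalgebra {K R n : Type} [CommRing K] [CommRing R] [Algebra K R] [Fintype n]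
    [DecidableEq n] (U : Subalgebra K R) (A : Matrix n n R) (h : ∀ p q, A p q ∈ U) : A.det ∈ U := by
  rw [Matrix.det_apply]
  refine sum_mem fun π _ => ?_
  have : ∏ x, A (π x) x ∈ U := prod_mem fun x _ => h _ _
  rcases Int.units_eq_one_or (Equiv.Perm.sign π) with e | e <;> rw [e]
  · simpa using this
  · simpa using neg_mem this

end Det

variable {N : ℕ} {σ : Type}

section QTMaps

/-- An element at a point. -/
def atPoint (φ : MvPolynomial σ ℚ →ₐ[ℚ] ℚ) (x : QT (one1 N σ)) : QT (fun _ : QI N => (1 : ℚ)) :=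
  ⟨fun γ => φ (x.co γ)⟩

theorem atPoint_mul (φ : MvPolynomial σ ℚ →ₐ[ℚ] ℚ) (x y : QT (one1 N σ)) :
    atPoint φ (x * y) = atPoint φ x * atPoint φ y := by
  refine QT.ext (funext fun ε => ?_)
  simp only [atPoint, QT.co_mul, map_sum, map_mul, coc, carry_one, mul_one, sgn, map_prod,
    apply_ite φ, map_neg, map_one]

theorem atPoint_one (φ : MvPolynomial σ ℚ →ₐ[ℚ] ℚ) : atPoint φ (1 : QT (one1 N σ)) = 1 := by
  refine QT.ext (funext fun γ => ?_)
  rcases eq_or_ne γ 0 with rfl | h <;> simp [atPoint, QT.co_one, *]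

theorem atPoint_pow (φ : MvPolynomial σ ℚ →ₐ[ℚ] ℚ) (x : QT (one1 N σ)) :
    ∀ n : ℕ, atPoint φ (x ^ n) = atPoint φ x ^ n
  | 0 => by simp [atPoint_one]
  | n + 1 => by rw [pow_succ, pow_succ, atPoint_mul, atPoint_pow φ x n]

theorem co_pow_mem (U : Subalgebra ℚ (MvPolynomial σ ℚ)) (x : QT (one1 N σ))
    (hx : ∀ γ, x.co γ ∈ U) : ∀ (n : ℕ) (γ : Gam N), (x ^ n).co γ ∈ U
  | 0, γ => by
    rw [pow_zero, QT.co_one]
    rcases eq_or_ne γ 0 with rfl | h
    · simp
    · simp [Pi.single_eq_of_ne h]
  | n + 1, γ => by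
    rw [pow_succ, QT.co_mul]
    refine sum_mem fun δ _ => mul_mem (mul_mem (co_pow_mem U x hx n δ) (hx _)) ?_
    rw [coc, carry_one, mul_one, sgn]
    exact prod_mem fun j _ => by split_ifs <;> simp

/-- The matrix of right multiplication. -/
def rmat {R : Type} [CommRing R] {z : QI N → R} (y : QT z) : Matrix (Gam N) (Gam N) R :=
  Matrix.of fun ε δ => y.co (ε - δ) * coc z δ (ε - δ)

theorem rmat_mulVec {R : Type} [CommRing R] {z : QI N → R} (x y : QT z) :
    (rmat y).mulVec x.co = (x * y).co := by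
  ext ε
  rw [QT.co_mul]
  simp only [Matrix.mulVec, dotProduct, rmat, Matrix.of_apply]
  exact Finset.sum_congr rfl fun δ _ => by ring

theorem co_finsetSum {R J : Type} [CommRing R] {z : QI N → R} (s : Finset J) (f : J → QT z)
    (γ : Gam N) : (∑ j ∈ s, f j).co γ = ∑ j ∈ s, (f j).co γ := by
  classical
  induction s using Finset.induction with
  | empty => simp
  | insert a s ha ih => simp [Finset.sum_insert ha, ih]

end QTMaps

/-- The classes with no first generator of the first `i` factors. -/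
def isT (i : ℕ) (γ : Gam N) : Prop := ∀ q : QI N, q.2 = false → (q.1 : ℕ) < i → γ q = 0

/-- The linear forms of the classes killed by the block. -/
def killR (N i : ℕ) : F2X (QI N) →ₐ[ZMod 2] F2X (QI N) :=
  aeval fun o => o.elim 0 fun q => if q.2 = true ∧ (q.1 : ℕ) < i then 0 else X (some q)

theorem killR_ell (N i : ℕ) (γ : Gam N) :
    killR N i (ell ((γ, 0) : Deg (QI N))) =
      ∑ q, if q.2 = true ∧ (q.1 : ℕ) < i then 0 else C (γ q) * X (some q) := by
  simp only [killR, ell, map_add, map_sum, map_mul, Nat.cast_zero, map_zero, zero_mul, add_zero,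
    aeval_C, aeval_X, Option.elim, algebraMap_eq, mul_ite, mul_zero]

theorem coeff_killR_ell (N i : ℕ) (γ : Gam N) (q : QI N) :
    coeff (Finsupp.single (some q) 1) (killR N i (ell ((γ, 0) : Deg (QI N)))) =
      if q.2 = true ∧ (q.1 : ℕ) < i then 0 else γ q := by
  classical
  rw [killR_ell, coeff_sum, Finset.sum_eq_single q (fun b _ hb => ?_)
    (fun h => absurd (Finset.mem_univ _) h)]
  · split_ifs <;> simp [coeff_C_mul]
  · split_ifs
    · simp
    · simp [coeff_C_mul, coeff_X, Finsupp.single_left_inj, hb]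

theorem card_isT {i : ℕ} (hN : i ≤ N) [DecidablePred (isT (N := N) i)] :
    (Finset.univ.filter (isT (N := N) i)).card ≤ 2 ^ (2 * N - i) := by
  classical
  let P : QI N → Prop := fun q => q.2 = false ∧ (q.1 : ℕ) < i
  let e : {q // P q} ≃ Fin i :=
    { toFun := fun q => ⟨q.1.1, q.2.2⟩
      invFun := fun j => ⟨qF hN j, by simp [P, qF]⟩
      left_inv := fun q => Subtype.ext (Prod.ext (Fin.ext rfl) q.2.1.symm)
      right_inv := fun j => Fin.ext rfl }
  have hc : Fintype.card {q // ¬ P q} = 2 * N - i := by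
    rw [Fintype.card_subtype_compl, Fintype.card_congr e]
    simp [mul_comm]
  calc (Finset.univ.filter (isT (N := N) i)).card
      ≤ (Finset.univ : Finset ({q // ¬ P q} → ZMod 2)).card := by
        refine Finset.card_le_card_of_injOn (fun γ q => γ q.1) (fun _ _ => Finset.mem_univ _) ?_
        intro γ hγ δ hδ h
        simp only [Finset.coe_filter, Finset.mem_univ, true_and, Set.mem_ofPred_eq] at hγ hδ
        funext q
        by_cases hq : P q
        · rw [hγ q hq.1 hq.2, hδ q hq.1 hq.2]
        · exact congrFun h ⟨q, hq⟩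
    _ = 2 ^ (2 * N - i) := by simp [hc]

theorem exists_block {N i : ℕ} (hN : i ≤ N) {σ : Type} [Fintype σ] [Nonempty (QI N)]
    (w : σ → Deg (QI N)) (hw : ∀ v, ell (w v) ≠ 0) (emb : Yc N → σ) (hemb : Function.Injective emb)
    (hcls : ∀ γ, w (emb γ) = (γ.1, 0)) :
    ∃ P, IsGrPrime w P ∧ SuppOn (Set.range emb) P ∧ ord w P ≤ 2 ^ (2 * N - i) ∧
      lam w (ord w P) P ≠ 0 ∧
      ∀ f : Fin (2 ^ i + 1) → Gam N, minorDet (genel emb) f ∈ P := by
  classical
  generalize he : 2 ^ i = e
  set Y : QT (one1 N σ) := genel emb with hYdef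
  have hY : H0 w Y := h0_genel emb hcls
  let U := supported ℚ (Set.range emb)
  have hYU : ∀ γ, Y.co γ ∈ U := fun γ => by
    simp only [hYdef, genel]
    split_ifs with h
    · exact Algebra.subset_adjoin ⟨_, ⟨⟨γ, h⟩, rfl⟩, rfl⟩
    · exact zero_mem _
  have hgj : ∀ j : Fin i, (gj j : Gam N) ≠ 0 := fun j => (gj_ne_zero j).resolve_right (not_not.2 hN)
  -- the point
  let φ : MvPolynomial σ ℚ →ₐ[ℚ] ℚ :=
    aeval fun v => ∑ j : Fin i, if v = emb ⟨gj j, hgj j⟩ then (2 : ℚ) ^ (j : ℕ) else 0
  have hφY : atPoint φ Y = pointW N i := by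
    refine QT.ext (funext fun γ => ?_)
    by_cases h : γ = 0
    · subst h
      simp [atPoint, pointW, hYdef, genel, fun j => (hgj j).symm]
    · simp [atPoint, pointW, hYdef, genel, h, φ, hemb.eq_iff]
  have hφpow : ∀ (n : ℕ) γ, φ ((Y ^ n).co γ) = (pointW N i ^ n).co γ := fun n γ => by
    rw [← hφY, ← atPoint_pow]
    rfl
  -- elimination in the coordinates of the classes
  let eq : Fin e ≃ Rg i := (Fintype.equivFinOfCardEq (by simp [he])).symm
  let R : Fin e → Gam N := fun b => rho (eq b)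
  let Rs : Gam N := ∑ b, R b
  have hRs : Rs = rho (∑ b, eq b) :=
    (map_sum (AddMonoidHom.mk' (rho (N := N) (i := i)) rho_add) eq Finset.univ).symm
  let M : Matrix (Fin e) (Fin e) (MvPolynomial σ ℚ) := Matrix.of fun b j => (Y ^ (j : ℕ)).co (R b)
  have hMU : ∀ b j, M b j ∈ U := fun b j => co_pow_mem U Y hYU _ _
  let v : Fin e → MvPolynomial σ ℚ := fun b => (Y ^ e).co (R b)
  have hφΔ : φ M.det ≠ 0 := fun h0 => by
    rw [AlgHom.map_det] at h0
    obtain ⟨x, hx, hx0⟩ := Matrix.exists_mulVec_eq_zero_iff.2 h0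
    refine hx (pointW_indep hN he.symm x fun r => ?_)
    have := congrFun hx0 (eq.symm r)
    simp only [Matrix.mulVec, dotProduct, AlgHom.mapMatrix_apply, Matrix.map_apply, M, R,
      Matrix.of_apply, hφpow, Equiv.apply_symm_apply, Pi.zero_apply] at this
    rw [← this]
    exact Finset.sum_congr rfl fun j _ => mul_comm _ _
  have hΔwh : IsWeightedHomogeneous w M.det ((Rs, 0) : Deg (QI N)) := by
    have h := det_isWH w M (fun b => ((R b, 0) : Deg (QI N))) (fun _ => 0)
      (fun b j => by rw [add_zero]; exact hY.pow _ _)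
    have e' : (∑ b, ((R b, 0) : Deg (QI N))) + ∑ _ : Fin e, (0 : Deg (QI N)) = (Rs, 0) := by
      rw [Finset.sum_const_zero, add_zero]
      exact Prod.ext (by rw [Prod.fst_sum]) (by rw [Prod.snd_sum]; simp)
    rwa [e'] at h
  let c : Fin e → MvPolynomial σ ℚ := Matrix.cramer M v
  have hcwh : ∀ j, IsWeightedHomogeneous w (c j) ((Rs, 0) : Deg (QI N)) := fun j => by
    rw [show c j = (M.updateCol j v).det from Matrix.cramer_apply M v j]
    have h := det_isWH w (M.updateCol j v) (fun b => ((R b, 0) : Deg (QI N))) (fun _ => 0)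
      (fun b q => by
        rw [add_zero, Matrix.updateCol_apply]
        split_ifs <;> exact hY.pow _ _)
    have e' : (∑ b, ((R b, 0) : Deg (QI N))) + ∑ _ : Fin e, (0 : Deg (QI N)) = (Rs, 0) := by
      rw [Finset.sum_const_zero, add_zero]
      exact Prod.ext (by rw [Prod.fst_sum]) (by rw [Prod.snd_sum]; simp)
    rwa [e'] at h
  have hcU : ∀ j, c j ∈ U := fun j => by
    rw [show c j = (M.updateCol j v).det from Matrix.cramer_apply M v j]
    refine det_mem_subalgebra U _ fun b q => ?_
    rw [Matrix.updateCol_apply]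
    split_ifs
    · exact co_pow_mem U Y hYU _ _
    · exact hMU _ _
  let G : QT (one1 N σ) := M.det • Y ^ e - ∑ j : Fin e, c j • Y ^ (j : ℕ)
  have hGco : ∀ γ, G.co γ = M.det * (Y ^ e).co γ - ∑ j : Fin e, c j * (Y ^ (j : ℕ)).co γ :=
    fun γ => by simp [G, co_finsetSum]
  have hGR : ∀ r : Rg i, G.co (rho r) = 0 := fun r => by
    have h := congrFun (Matrix.mulVec_cramer M v) (eq.symm r)
    simp only [Matrix.mulVec, dotProduct, M, R, v, Matrix.of_apply, Equiv.apply_symm_apply,
      Pi.smul_apply, smul_eq_mul] at h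
    rw [hGco, ← h, sub_eq_zero]
    exact Finset.sum_congr rfl fun j _ => mul_comm _ _
  have hGU : ∀ γ, G.co γ ∈ U := fun γ => by
    rw [hGco]
    exact sub_mem (mul_mem (det_mem_subalgebra U _ hMU) (co_pow_mem U Y hYU _ _))
      (sum_mem fun j _ => mul_mem (hcU j) (co_pow_mem U Y hYU _ _))
  have hGwh : ∀ γ, IsWeightedHomogeneous w (G.co γ) ((γ + Rs, 0) : Deg (QI N)) := fun γ => by
    rw [hGco]
    have hs : ∀ (a : MvPolynomial σ ℚ) (n : ℕ),
        IsWeightedHomogeneous w a ((Rs, 0) : Deg (QI N)) →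
        IsWeightedHomogeneous w (a * (Y ^ n).co γ) ((γ + Rs, 0) : Deg (QI N)) := fun a n ha => by
      have := ha.mul (hY.pow n γ)
      rwa [deg_add, add_comm Rs γ] at this
    exact (weightedHomogeneousSubmodule ℚ w _).sub_mem (hs _ _ hΔwh)
      (IsWeightedHomogeneous.sum _ _ _ fun j _ => hs _ _ (hcwh j))
  have hGcomm : G * Y = Y * G := by
    simp only [G, sub_mul, mul_sub, Finset.sum_mul, Finset.mul_sum, smul_mul_assoc,
      mul_smul_comm, ← pow_succ, ← pow_succ']
  -- the commutator stacked over the selection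
  let A : Matrix (Gam N ⊕ Gam N) (Gam N) (MvPolynomial σ ℚ) := Matrix.of fun k δ =>
    k.elim (fun ε => (rmat Y - mat Y) ε δ) fun γ => if δ = γ ∧ isT i γ then 1 else 0
  let m : MvPolynomial σ ℚ := (A.transpose * A).det
  have hAwh : ∀ k δ, IsWeightedHomogeneous w (A k δ)
      ((k.elim id id + δ, 0) : Deg (QI N)) := by
    rintro (ε | γ) δ
    · have h := hY (ε - δ)
      simp only [A, Matrix.of_apply, Sum.elim_inl, Matrix.sub_apply, rmat, mat, id]
      rw [← gam_sub_eq_add]
      exact (weightedHomogeneousSubmodule ℚ w _).sub_mem (isWH_sign h _ _) (isWH_sign h _ _)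
    · simp only [A, Matrix.of_apply, Sum.elim_inr, id]
      split_ifs with h
      · rw [h.1, gam_add_self]
        exact isWeightedHomogeneous_one ℚ w
      · exact isWeightedHomogeneous_zero ℚ w _
  have hmwh : Hom w m := by
    refine ⟨_, det_isWH w (A.transpose * A) (fun δ => ((δ, 0) : Deg (QI N)))
      (fun δ => ((δ, 0) : Deg (QI N))) fun p q => ?_⟩
    rw [Matrix.mul_apply]
    refine IsWeightedHomogeneous.sum _ _ _ fun k _ => ?_
    have h := (hAwh k p).mul (hAwh k q)
    rw [deg_add, show k.elim id id + p + (k.elim id id + q) = p + q from by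
      rw [add_add_add_comm, gam_add_self, zero_add]] at h
    rw [deg_add]
    exact h
  have hφm : φ m ≠ 0 := fun h0 => by
    let A' : Matrix (Gam N ⊕ Gam N) (Gam N) ℚ := A.map φ
    have h0' : (A'.transpose * A').det = 0 := by
      rw [← h0]
      simp only [m, A', AlgHom.map_det, AlgHom.mapMatrix_apply, Matrix.map_mul,
        Matrix.transpose_map]
    obtain ⟨x, hx, hx0⟩ := Matrix.exists_mulVec_eq_zero_iff.2 h0'
    have hAx : A'.mulVec x = 0 := by
      refine dotProduct_self_eq_zero.1 ?_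
      rw [Matrix.dotProduct_mulVec, ← Matrix.mulVec_transpose, Matrix.mulVec_mulVec, hx0,
        zero_dotProduct]
    refine hx (congrArg QT.co (pointW_centralizer hN (⟨x⟩ : QT fun _ : QI N => (1 : ℚ)) ?_ ?_))
    · refine QT.ext (funext fun ε => ?_)
      rw [← rmat_mulVec, ← mat_mulVec, ← sub_eq_zero]
      have := congrFun hAx (Sum.inl ε)
      simp only [Matrix.mulVec, dotProduct, ← Finset.sum_sub_distrib, ← sub_mul] at this ⊢
      rw [Pi.zero_apply] at this
      rw [← this]
      refine Finset.sum_congr rfl fun δ _ => ?_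
      simp only [A', A, Matrix.map_apply, Matrix.of_apply, Sum.elim_inl, Matrix.sub_apply, rmat,
        mat, map_sub, map_mul, coc, carry_one, mul_one, sgn, map_prod, apply_ite φ, map_neg,
        map_one, ← hφY, atPoint]
    · intro δ hδ
      have hδT : isT i δ := fun q h1 h2 => by
        have := hδ ⟨q.1, h2⟩
        rwa [show qF hN ⟨q.1, h2⟩ = q from Prod.ext (Fin.ext rfl) h1.symm] at this
      have := congrFun hAx (Sum.inr δ)
      simpa [A', A, Matrix.mulVec, dotProduct, hδT, apply_ite φ] using this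
  -- the prime
  let 𝔞 : Ideal (F2X (QI N)) := RingHom.ker (killR N i).toRingHom
  have : 𝔞.IsPrime := RingHom.ker_isPrime _
  have hell : ∀ γ : Gam N, ell ((γ, 0) : Deg (QI N)) ∈ 𝔞 ↔ ∃ r : Rg i, rho r = γ := fun γ => by
    constructor
    · intro h
      refine ⟨fun j => γ (qT hN j), funext fun q => ?_⟩
      simp only [rho]
      split_ifs with hq
      · exact congrArg γ (Prod.ext (Fin.ext rfl) hq.1.symm)
      · have h0 : killR N i (ell ((γ, 0) : Deg (QI N))) = 0 := RingHom.mem_ker.1 h
        have := coeff_killR_ell N i γ q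
        rw [h0, coeff_zero, if_neg hq] at this
        exact this
    · rintro ⟨r, rfl⟩
      refine RingHom.mem_ker.2 ?_
      show killR N i _ = 0
      rw [killR_ell]
      exact Finset.sum_eq_zero fun q _ => by
        split_ifs with hq
        · rfl
        · simp [rho, hq]
  obtain ⟨C', hC, hCS, -, hCmem, hCord, hl⟩ := exists_prime_cut w (isGrPrime_bot w)
    (suppOn_bot (Set.range emb)) 𝔞 (by
      rw [ord_bot, (lam_bot w).2]
      exact fun h => Ideal.IsPrime.ne_top ‹_› ((Ideal.eq_top_iff_one _).2 h))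
    (Finset.univ.filter (isT (N := N) i)) G.co (fun γ => ((γ + Rs, 0) : Deg (QI N)))
    (fun γ _ => hGwh γ) (fun γ _ => hGU γ) (fun γ _ => by
      by_cases h : ell ((γ + Rs, 0) : Deg (QI N)) ∈ 𝔞
      · obtain ⟨r, hr⟩ := (hell _).1 h
        refine Or.inl ?_
        have : γ = rho (r + ∑ b, eq b) := by
          rw [rho_add, hr, ← hRs, add_assoc, gam_add_self, add_zero]
        rw [this, hGR]
      · exact Or.inr h)
  rw [ord_bot, zero_add] at hCord
  refine ⟨C', hC, hCS, hCord.trans (card_isT hN), fun h => hl (by rw [h]; exact zero_mem _), ?_⟩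
  -- `m` and the determinant are not in the prime
  have hg : m * M.det ∉ C' := fun hgC => by
    let S₀ : Set σ := Set.range fun j : {γ : Yc N // ∃ r : Rg i, rho r = γ.1} => emb j.1
    have hkill : φ.comp (kill S₀ᶜ) = φ := by
      refine MvPolynomial.algHom_ext fun x => ?_
      rw [AlgHom.comp_apply, kill_X]
      split_ifs with hx
      · rw [map_zero]
        refine (Eq.symm ?_)
        simp only [φ, aeval_X]
        refine Finset.sum_eq_zero fun j _ => if_neg fun hxj => hx ⟨⟨⟨gj j, hgj j⟩, ⟨_, rfl⟩⟩, hxj.symm⟩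
      · rfl
    have hk : kill S₀ᶜ (m * M.det) ≠ 0 := fun h => by
      have := congrArg φ h
      rw [← AlgHom.comp_apply, hkill, map_zero, map_mul] at this
      exact mul_ne_zero hφm hφΔ this
    refine hl (Ideal.span_le.2 ?_ (lam_mem_span_of_kill w hw hC.1 hCS hgC hk le_rfl))
    rintro _ ⟨x, ⟨-, hx⟩, rfl⟩
    obtain ⟨⟨γ, hγ⟩, rfl⟩ := not_not.1 hx
    dsimp only
    rw [hcls]
    exact (hell _).2 hγ
  have hmC : m ∉ C' := fun h => hg (Ideal.mul_mem_right _ _ h)
  have hΔC : M.det ∉ C' := fun h => hg (Ideal.mul_mem_left _ _ h)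
  have hGC : ∀ γ, G.co γ ∈ C' := fun γ => by
    have hAG : ∀ k, (A.mulVec G.co) k ∈ C' := by
      rintro (ε | δ)
      · have e' : (A.mulVec G.co) (Sum.inl ε) = ((rmat Y - mat Y).mulVec G.co) ε := by
          simp [A, Matrix.mulVec, dotProduct]
        rw [e', Matrix.sub_mulVec, rmat_mulVec, mat_mulVec, hGcomm, sub_self]
        exact zero_mem _
      · have e' : (A.mulVec G.co) (Sum.inr δ) = if isT i δ then G.co δ else 0 := by
          by_cases h : isT i δ <;> simp [A, Matrix.mulVec, dotProduct, h]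
        rw [e']
        split_ifs with h
        · exact hCmem δ (Finset.mem_filter.2 ⟨Finset.mem_univ _, h⟩)
        · exact zero_mem _
    have e' : m * G.co γ = ((A.transpose * A).adjugate.mulVec (A.transpose.mulVec (A.mulVec G.co))) γ := by
      simp only [Matrix.mulVec_mulVec, Matrix.adjugate_mul, Matrix.smul_mulVec, Matrix.one_mulVec,
        Pi.smul_apply, smul_eq_mul, m]
    have hmem : m * G.co γ ∈ C' := by
      rw [e']
      simp only [Matrix.mulVec, dotProduct]
      exact sum_mem fun p _ => Ideal.mul_mem_left _ _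
        (sum_mem fun k _ => Ideal.mul_mem_left _ _ (hAG k))
    exact (hC.2.2 _ _ hmwh ⟨_, hGwh γ⟩ hmem).resolve_left hmC
  intro f
  let B : Matrix (Fin (e + 1)) (Fin (e + 1)) (MvPolynomial σ ℚ) :=
    Matrix.of fun a b => (Y ^ (b : ℕ)).co (f a)
  have hBwh : Hom w B.det := ⟨_, det_isWH w B (fun a => ((f a, 0) : Deg (QI N))) (fun _ => 0)
    (fun a b => by rw [add_zero]; exact hY.pow _ _)⟩
  let cc : Fin (e + 1) → MvPolynomial σ ℚ := Fin.snoc (fun j => -c j) M.det
  have hcol : ∀ a, ∑ b, cc b • B a b = G.co (f a) := fun a => by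
    rw [Fin.sum_univ_castSucc, hGco]
    simp only [cc, B, Fin.snoc_castSucc, Fin.snoc_last, Matrix.of_apply, smul_eq_mul,
      Fin.val_castSucc, Fin.val_last, neg_mul, Finset.sum_neg_distrib]
    ring
  have hmem : M.det * B.det ∈ C' := by
    have h := Matrix.det_updateCol_sum B (Fin.last e) cc
    simp only [cc, Fin.snoc_last, smul_eq_mul] at h
    rw [← h]
    refine det_mem_of_col C' _ (Fin.last e) fun a => ?_
    rw [Matrix.updateCol_self]
    have := hcol a
    simp only [cc, smul_eq_mul] at this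
    rw [this]
    exact hGC _
  exact (hC.2.2 _ _ ⟨_, hΔwh⟩ hBwh hmem).resolve_left hΔC

end Vale.Agent.P199.Full
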