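import Mathlib

/-!
Kurosh's problem for division rings, full disproof: linear algebra in a central division algebra
and the transcendence count for generators lying in a proper subalgebra.
-/

noncomputable section

namespace Vale.Agent.P199.Full

open Module

section
variable {K D : Type} [Field K] [DivisionRing D] [Algebra K D] [Module.Finite K D]

/-- Dual maps for a list of vectors inside the algebra generated by left multiplications by `A`
and right multiplications by `D`, when the centraliser of `A` is `K`. -/
private theorem exists_separating {A : Subalgebra K D}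
    (hcen : ∀ θ : D, (∀ a ∈ A, θ * a = a * θ) → θ ∈ (⊥ : Subalgebra K D))
    (U : Subalgebra K (Module.End K D)) (hl : ∀ a ∈ A, LinearMap.mulLeft K a ∈ U)
    (hr : ∀ b : D, LinearMap.mulRight K b ∈ U) {m : ℕ} (x : Fin m → D)
    (hx : LinearIndependent K x) :
    ∀ i, ∃ T ∈ U, ∀ j, T (x j) = if j = i then (1 : D) else 0 := by
  classical
  induction m with
  | zero => exact fun i => i.elim0
  | succ m ih =>
    intro i
    have hy : LinearIndependent K (x ∘ i.succAbove) :=
      hx.comp _ Fin.succAbove_right_injective
    choose T hTU hT using ih _ hy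
    -- it is enough to find an element of `U` killing the others and not `x i`
    suffices h : ∃ S ∈ U, (∀ j, S (x (i.succAbove j)) = 0) ∧ S (x i) ≠ 0 by
      obtain ⟨S, hSU, hS0, hSi⟩ := h
      refine ⟨LinearMap.mulRight K (S (x i))⁻¹ * S, U.mul_mem (hr _) hSU, fun j => ?_⟩
      rcases eq_or_ne j i with rfl | hj
      · simp [mul_inv_cancel₀ hSi]
      · obtain ⟨j', rfl⟩ := Fin.exists_succAbove_eq hj
        simp [hj, hS0 j']
    by_contra h
    push Not at h
    have key : ∀ S ∈ U, S (x i) = ∑ j, T j (x i) * S (x (i.succAbove j)) := by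
      intro S hS
      have := h (S - ∑ j, LinearMap.mulRight K (S (x (i.succAbove j))) * T j)
        (U.sub_mem hS (U.sum_mem fun j _ => U.mul_mem (hr _) (hTU j))) (fun l => by
          have hT' : ∀ j, T j (x (i.succAbove l)) = if l = j then 1 else 0 :=
            fun j => hT j l
          simp [LinearMap.sub_apply, LinearMap.sum_apply, hT'])
      simpa [LinearMap.sub_apply, LinearMap.sum_apply, sub_eq_zero] using this
    have hcomm : ∀ j, ∀ a ∈ A, T j (x i) * a = a * T j (x i) := by
      intro j a ha
      have := key _ (U.mul_mem (hl a ha) (hTU j))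
      have hT' : ∀ l, T j (x (i.succAbove l)) = if l = j then 1 else 0 := fun l => hT j l
      simpa [hT', eq_comm] using this
    have hmem : x i ∈ Submodule.span K (Set.range (x ∘ i.succAbove)) := by
      have h1 := key 1 U.one_mem
      simp only [Module.End.one_apply] at h1
      rw [h1]
      refine Submodule.sum_mem _ fun j _ => ?_
      obtain ⟨r, hr'⟩ := Algebra.mem_bot.1 (hcen _ (hcomm j))
      rw [← hr', ← Algebra.smul_def]
      exact Submodule.smul_mem _ _ (Submodule.subset_span ⟨j, rfl⟩)
    rw [Set.range_comp] at hmem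
    exact hx.notMem_span_image (by simp) hmem

/-- The span of the maps `y ↦ a * y * b` for `a ∈ A`. -/
private def coeffMap (A : Subalgebra K D) {n : ℕ} (b : Basis (Fin n) K D) :
    (Fin n → A) →ₗ[K] Module.End K D where
  toFun c := ∑ i, LinearMap.mulLeft K (c i : D) * LinearMap.mulRight K (b i)
  map_add' c c' := by
    ext y
    simp [LinearMap.sum_apply, add_mul, Finset.sum_add_distrib]
  map_smul' r c := by
    ext y
    simp [LinearMap.sum_apply, Finset.smul_sum]

theorem exists_commuting (hc : Subalgebra.center K D = ⊥) {A : Subalgebra K D} (hA : A ≠ ⊤) :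
    ∃ θ : D, θ ∉ (⊥ : Subalgebra K D) ∧ ∀ a ∈ A, θ * a = a * θ := by
  classical
  by_contra h
  have hcen : ∀ θ : D, (∀ a ∈ A, θ * a = a * θ) → θ ∈ (⊥ : Subalgebra K D) :=
    fun θ hθ => by_contra fun h' => h ⟨θ, h', hθ⟩
  let b := Module.finBasis K D
  let R := LinearMap.range (coeffMap A b)
  have hform : ∀ a ∈ A, ∀ y : D, LinearMap.mulLeft K a * LinearMap.mulRight K y ∈ R := by
    intro a ha y
    refine ⟨fun i => b.repr y i • (⟨a, ha⟩ : A), ?_⟩
    ext t
    have e1 : a * (t * y) = ∑ d, b.repr y d • (a * (t * b d)) := by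
      have h' : (LinearMap.mulLeft K a ∘ₗ LinearMap.mulLeft K t) (∑ d, b.repr y d • b d) =
          a * (t * y) := by rw [b.sum_repr]; rfl
      rw [← h', map_sum]
      exact Finset.sum_congr rfl fun d _ => by rw [map_smul]; rfl
    simp [coeffMap, LinearMap.sum_apply, e1]
  have hmul : ∀ f g : Module.End K D, f ∈ R → g ∈ R → f * g ∈ R := by
    rintro _ _ ⟨c, rfl⟩ ⟨c', rfl⟩
    change (∑ i, _) * (∑ j, _) ∈ R
    rw [Finset.sum_mul_sum]
    refine Submodule.sum_mem _ fun i _ => Submodule.sum_mem _ fun j _ => ?_
    convert hform ((c i : D) * c' j) (A.mul_mem (c i).2 (c' j).2) (b j * b i) using 1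
    ext t
    simp [mul_assoc]
  have hone : (1 : Module.End K D) ∈ R := by
    convert hform 1 A.one_mem 1 using 1
    ext t
    simp
  let U := R.toSubalgebra hone hmul
  have hl : ∀ a ∈ A, LinearMap.mulLeft K a ∈ U := fun a ha => by
    have := hform a ha 1
    rwa [LinearMap.mulRight_one, ← Module.End.one_eq_id, mul_one] at this
  have hr : ∀ y : D, LinearMap.mulRight K y ∈ U := fun y => by
    have := hform 1 A.one_mem y
    rwa [LinearMap.mulLeft_one, ← Module.End.one_eq_id, one_mul] at this
  choose T hTU hT using exists_separating hcen U hl hr b b.linearIndependent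
  have htop : R = ⊤ := by
    refine eq_top_iff.2 fun f _ => ?_
    have hf : f = ∑ i, LinearMap.mulRight K (f (b i)) * T i := by
      refine b.ext fun j => ?_
      have hT' : ∀ i, T i (b j) = if j = i then 1 else 0 := fun i => hT i j
      simp [LinearMap.sum_apply, hT']
    rw [hf]
    exact Submodule.sum_mem _ fun i _ => hmul _ _ (hr _) (hTU i)
  have h1 : finrank K R ≤ finrank K (Fin (finrank K D) → A) := LinearMap.finrank_range_le _
  rw [htop, finrank_top, Module.finrank_linearMap, Module.finrank_pi_fintype] at h1
  simp only [Finset.sum_const, Finset.card_univ, Fintype.card_fin, smul_eq_mul] at h1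
  have hn : 0 < finrank K D := Module.finrank_pos
  have h2 : finrank K D ≤ finrank K A := Nat.le_of_mul_le_mul_left h1 hn
  refine hA (Algebra.toSubmodule_eq_top.1 (Submodule.eq_top_of_finrank_eq ?_))
  exact le_antisymm (Submodule.finrank_le _) h2

theorem two_mul_finrank_centralizer (hc : Subalgebra.center K D = ⊥) {θ : D}
    (hθ : θ ∉ (⊥ : Subalgebra K D)) :
    2 * Module.finrank K (Subalgebra.centralizer K ({θ} : Set D)) ≤ Module.finrank K D := by
  have hne : ∃ d : D, θ * d ≠ d * θ := by
    by_contra h
    push Not at h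
    apply hθ
    rw [← hc, Subalgebra.mem_center_iff]
    exact fun d => (h d).symm
  obtain ⟨d, hd⟩ := hne
  let C : Submodule K D := Subalgebra.toSubmodule (Subalgebra.centralizer K ({θ} : Set D))
  have hmemC : ∀ {y : D}, y ∈ C ↔ θ * y = y * θ := fun {y} => by
    simp [C, Subalgebra.mem_centralizer_iff]
  have hd0 : d ≠ 0 := fun h => hd (by simp [h])
  let C' := C.map (LinearMap.mulRight K d)
  have hdis : Disjoint C C' := by
    rw [Submodule.disjoint_def]
    rintro _ hy ⟨c, hc', rfl⟩
    simp only [LinearMap.mulRight_apply] at hy ⊢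
    by_contra h0
    have hc0 : c ≠ 0 := fun h => h0 (by simp [h])
    apply hd
    have h1 : Commute θ c⁻¹ := Commute.inv_right₀ (hmemC.1 hc')
    have h2 : Commute θ (c * d) := hmemC.1 hy
    have h3 := h1.mul_right h2
    rwa [inv_mul_cancel_left₀ hc0] at h3
  have hC' : finrank K C' = finrank K C :=
    (Submodule.equivMapOfInjective _ (mul_left_injective₀ hd0) C).finrank_eq.symm
  have := Submodule.finrank_add_finrank_le_of_disjoint hdis
  change 2 * finrank K C ≤ finrank K D
  omega

variable {k : Type} [Field k] [Algebra k K]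

theorem trdeg_bound (hc : Subalgebra.center K D = ⊥) (b : Module.Basis (Fin (Module.finrank K D)) K D)
    (E : Finset K) (hb : ∀ i j l, b.repr (b i * b j) l ∈ IntermediateField.adjoin k (E : Set K))
    {g : ℕ} (a : Fin g → D) (hgen : IntermediateField.adjoin k ((E : Set K) ∪ Set.range fun p : Fin g × Fin (Module.finrank K D) => b.repr (a p.1) p.2) = ⊤)
    {A : Subalgebra K D} (hA : A ≠ ⊤) (ha : ∀ i, a i ∈ A) :
    Algebra.trdeg k K ≤ ((E.card + Module.finrank K D + g * (Module.finrank K D / 2) : ℕ) : Cardinal) := by
  classical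
  obtain ⟨θ, hθ, hθA⟩ := exists_commuting hc hA
  -- the field of definition of the centraliser of `θ`
  let k₁ : IntermediateField k K :=
    IntermediateField.adjoin k ((E : Set K) ∪ Set.range (b.repr θ))
  have hst : ∀ i j l, b.repr (b i * b j) l ∈ k₁ := fun i j l =>
    IntermediateField.adjoin.mono k _ _ Set.subset_union_left (hb i j l)
  have ht : ∀ l, b.repr θ l ∈ k₁ := fun l =>
    IntermediateField.subset_adjoin k _ (Or.inr ⟨l, rfl⟩)
  let M : Fin (finrank K D) → Fin (finrank K D) → K :=
    fun m l => b.repr (θ * b l - b l * θ) m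
  have hlin : ∀ (f : D →ₗ[K] K) (x : D), f x = ∑ i, b.repr x i * f (b i) := by
    intro f x
    conv_lhs => rw [← b.sum_repr x]
    rw [map_sum]
    exact Finset.sum_congr rfl fun i _ => by rw [map_smul, smul_eq_mul]
  have hM : ∀ m l, M m l ∈ k₁ := by
    intro m l
    have e : M m l = ∑ i, b.repr θ i * (b.repr (b i * b l) m - b.repr (b l * b i) m) := by
      simpa [M] using hlin (b.coord m ∘ₗ (LinearMap.mulRight K (b l) - LinearMap.mulLeft K (b l))) θ
    rw [e]
    exact sum_mem fun i _ => mul_mem (ht i) (sub_mem (hst i l m) (hst l i m))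
  have hcoord : ∀ (x : D) m, b.repr (θ * x - x * θ) m = ∑ l, b.repr x l * M m l := by
    intro x m
    simpa [M] using hlin (b.coord m ∘ₗ (LinearMap.mulLeft K θ - LinearMap.mulRight K θ)) x
  let C : Submodule K D := Subalgebra.toSubmodule (Subalgebra.centralizer K ({θ} : Set D))
  have hmemC : ∀ {y : D}, y ∈ C ↔ θ * y = y * θ := fun {y} => by
    simp [C, Subalgebra.mem_centralizer_iff]
  let S : Set D := {x | (∀ l, b.repr x l ∈ k₁) ∧ θ * x = x * θ}
  -- descent: `C` has a spanning set defined over `k₁`
  have hspan : C ≤ Submodule.span K S := by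
    intro v hv
    let e := Module.Basis.ofVectorSpace k₁ K
    let s := Finset.univ.biUnion fun l => (e.repr (b.repr v l)).support
    have hv' : v = ∑ q ∈ s, e q • ∑ l, (e.repr (b.repr v l) q : K) • b l := by
      conv_lhs => rw [← b.sum_repr v]
      simp only [Finset.smul_sum, smul_smul]
      rw [Finset.sum_comm]
      refine Finset.sum_congr rfl fun l _ => ?_
      rw [← Finset.sum_smul]
      congr 1
      conv_lhs => rw [← e.linearCombination_repr (b.repr v l)]
      rw [Finsupp.linearCombination_apply, Finsupp.sum_of_support_subset _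
        (s := s) (Finset.subset_biUnion_of_mem
          (fun l => (e.repr (b.repr v l)).support) (Finset.mem_univ l))]
      · exact Finset.sum_congr rfl fun q _ => by
          rw [IntermediateField.smul_def, smul_eq_mul, mul_comm]
      · simp
    rw [hv']
    refine Submodule.sum_mem _ fun q _ => Submodule.smul_mem _ _ (Submodule.subset_span ⟨?_, ?_⟩)
    · intro l
      rw [b.repr_sum_self]
      exact Subtype.mem _
    · rw [← sub_eq_zero]
      refine b.repr.map_eq_zero_iff.1 (Finsupp.ext fun m => ?_)
      have h0 : ∑ l, b.repr v l * M m l = 0 := by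
        rw [← hcoord, hmemC.1 hv, sub_self, map_zero, Finsupp.zero_apply]
      have h0' : ∑ l, (⟨M m l, hM m l⟩ : k₁) • b.repr v l = 0 := by
        rw [← h0]
        exact Finset.sum_congr rfl fun l _ => mul_comm _ _
      have h1 := congrArg (e.coord q) h0'
      rw [map_sum, map_zero] at h1
      have h2 := congrArg (fun y : k₁ => (y : K)) h1
      simp only [IntermediateField.coe_sum, map_smul, smul_eq_mul, IntermediateField.coe_mul,
        IntermediateField.coe_zero] at h2
      rw [hcoord, b.repr_sum_self, Finsupp.zero_apply, ← h2]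
      exact Finset.sum_congr rfl fun l _ => mul_comm _ _
  obtain ⟨B, hBS, hBspan, hBli⟩ := exists_linearIndependent K S
  have : Fintype B := hBli.setFinite.fintype
  have hBC : Submodule.span K B ≤ C :=
    Submodule.span_le.2 fun x hx => hmemC.2 (hBS hx).2
  have hcard : B.toFinset.card ≤ finrank K D / 2 := by
    have h1 : finrank K (Submodule.span K B) = B.toFinset.card := finrank_span_set_eq_card hBli
    have h2 : finrank K (Submodule.span K B) ≤ finrank K C := Submodule.finrank_mono hBC
    have h3 : 2 * finrank K C ≤ finrank K D := two_mul_finrank_centralizer hc hθ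
    omega
  have hai : ∀ i, ∃ c : B → K, ∑ x : B, c x • (x : D) = a i := by
    intro i
    have h : a i ∈ Submodule.span K (Set.range (Subtype.val : B → D)) := by
      rw [Subtype.range_val, hBspan]
      exact hspan (hmemC.2 (hθA _ (ha i)))
    exact Submodule.mem_span_range_iff_exists_fun K |>.1 h
  choose c hc' using hai
  -- the generating set
  let G : Finset K := E ∪ Finset.univ.image (b.repr θ) ∪
    (Finset.univ : Finset (Fin g × B)).image fun p => c p.1 p.2
  have hG : G.card ≤ E.card + finrank K D + g * (finrank K D / 2) := by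
    refine (Finset.card_union_le _ _).trans (add_le_add ((Finset.card_union_le _ _).trans
      (add_le_add le_rfl ?_)) ?_)
    · exact Finset.card_image_le.trans (by simp)
    · refine Finset.card_image_le.trans ?_
      rw [Finset.card_univ, Fintype.card_prod, Fintype.card_fin, ← Set.toFinset_card]
      exact Nat.mul_le_mul_left g hcard
  have hk₁ : k₁ ≤ IntermediateField.adjoin k (G : Set K) := by
    refine IntermediateField.adjoin.mono k _ _ ?_
    simp only [G, Finset.coe_union, Finset.coe_image, Finset.coe_univ, Set.image_univ]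
    exact Set.subset_union_left
  have htop : IntermediateField.adjoin k (G : Set K) = ⊤ := by
    rw [eq_top_iff, ← hgen, IntermediateField.adjoin_le_iff, Set.union_subset_iff]
    refine ⟨fun y hy => IntermediateField.subset_adjoin k _ (by simp_all [G]), ?_⟩
    rintro _ ⟨⟨i, l⟩, rfl⟩
    simp only [SetLike.mem_coe]
    rw [← hc' i, map_sum, Finsupp.coe_finsetSum, Finset.sum_apply]
    refine sum_mem fun x _ => ?_
    rw [map_smul, Finsupp.smul_apply, smul_eq_mul]
    refine mul_mem (IntermediateField.subset_adjoin k _ ?_) (hk₁ ((hBS x.2).1 l))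
    simp only [G, Finset.coe_union, Finset.coe_image, Finset.coe_univ, Set.image_univ]
    exact Or.inr ⟨(i, x), rfl⟩
  have : Algebra.IsAlgebraic (Algebra.adjoin k (G : Set K)) K :=
    IntermediateField.isAlgebraic_adjoin_iff_top.1
      ⟨fun y => isAlgebraic_algebraMap
        (⟨y, by rw [htop]; trivial⟩ : IntermediateField.adjoin k (G : Set K))⟩
  refine (Algebra.IsAlgebraic.trdeg_le_cardinalMk k (G : Set K)).trans ?_
  rw [Finset.coe_sort_coe, Cardinal.mk_coe_finset]
  exact_mod_cast hG

end

end Vale.Agent.P199.Full
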