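import Mathlib

/-!
Transcendence degree of a prime quotient of an affine domain over `ℚ`: it drops strictly, and by
exactly one at a minimal prime over a principal ideal.
-/

noncomputable section

namespace Vale.Agent.P199.Full

open MvPolynomial

/-- A transcendence basis of a prime quotient lifts and extends by an element of the prime. -/
theorem trdeg_quot_add_one_le {A : Type} [CommRing A] [IsDomain A] [Algebra ℚ A] {P : Ideal A}
    (hP : P.IsPrime) (h0 : P ≠ ⊥) : Algebra.trdeg ℚ (A ⧸ P) + 1 ≤ Algebra.trdeg ℚ A := by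
  obtain ⟨f, hf, hf0⟩ := Submodule.exists_mem_ne_zero_of_ne_bot h0
  have : FaithfulSMul ℚ (A ⧸ P) :=
    (faithfulSMul_iff_algebraMap_injective ℚ (A ⧸ P)).2 (RingHom.injective _)
  obtain ⟨s, x, hx⟩ := exists_isTranscendenceBasis' ℚ (A ⧸ P)
  choose a ha using fun i => Ideal.Quotient.mk_surjective (x i)
  have hxa : x = Ideal.Quotient.mkₐ ℚ P ∘ a := funext fun i => (ha i).symm
  have hai : AlgebraicIndependent ℚ a :=
    AlgebraicIndependent.of_comp (Ideal.Quotient.mkₐ ℚ P) (hxa ▸ hx.1)
  have ht : Transcendental (Algebra.adjoin ℚ (Set.range a)) f := fun halg => by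
    obtain ⟨⟨r, hr⟩, hr0, hdvd⟩ :=
      halg.exists_nonzero_dvd (mem_nonZeroDivisors_of_ne_zero hf0)
    rw [Algebra.adjoin_range_eq_range_aeval] at hr
    obtain ⟨q, rfl⟩ := hr
    have hq : aeval x q = 0 := by
      rw [hxa, Function.comp_def, ← comp_aeval_apply]
      exact Ideal.Quotient.eq_zero_iff_mem.2 (Ideal.mem_of_dvd P hdvd hf)
    have hq0 : q = 0 := (injective_iff_map_eq_zero _).1 hx.1 q hq
    exact hr0 (Subtype.ext (by simp [hq0]))
  have h := ((hai.option_iff_transcendental f).2 ht).cardinalMk_le_trdeg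
  rwa [Cardinal.mk_option, hx.cardinalMk_eq_trdeg] at h

/-- An extension in which every element has a nonzero multiple in the ground ring does not change
the transcendence degree. -/
theorem trdeg_eq_of_fractions (A B : Type) [CommRing A] [IsDomain A] [CommRing B] [IsDomain B]
    [Algebra ℚ A] [Algebra ℚ B] [Algebra A B] [IsScalarTower ℚ A B]
    (hinj : Function.Injective (algebraMap A B))
    (h : ∀ b : B, ∃ a c : A, c ≠ 0 ∧ algebraMap A B c * b = algebraMap A B a) :
    Algebra.trdeg ℚ A = Algebra.trdeg ℚ B := by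
  have : FaithfulSMul A B := (faithfulSMul_iff_algebraMap_injective A B).2 hinj
  have halg : Algebra.IsAlgebraic A B := ⟨fun b => by
    obtain ⟨a, c, hc, hb⟩ := h b
    refine ⟨Polynomial.C c * Polynomial.X - Polynomial.C a, fun h0 => hc ?_, ?_⟩
    · simpa using congrArg (fun p => Polynomial.coeff p 1) h0
    · simp [hb]⟩
  rw [← trdeg_add_eq ℚ A (A := B), trdeg_eq_zero_iff.2 halg, add_zero]

/-- An element outside `P` cutting away all other primes minimal over `f`. -/
theorem exists_isolating {A : Type} [CommRing A] [IsNoetherianRing A] (f : A) {P : Ideal A}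
    (hP : P ∈ (Ideal.span {f}).minimalPrimes) :
    ∃ g ∉ P, ∀ Q : Ideal A, Q.IsPrime → f ∈ Q → g ∉ Q → P ≤ Q := by
  classical
  have hfin := Ideal.finite_minimalPrimes_of_isNoetherianRing A (Ideal.span {f})
  have hsep : ∀ q ∈ hfin.toFinset.erase P, ∃ e ∈ q, e ∉ P := fun q hq => by
    rw [Finset.mem_erase, Set.Finite.mem_toFinset] at hq
    exact SetLike.not_le_iff_exists.1 fun hle => hq.1 (le_antisymm hle (hP.2 hq.2.1 hle))
  choose e he heP using hsep
  refine ⟨∏ q ∈ (hfin.toFinset.erase P).attach, e q.1 q.2, fun h => ?_, fun Q hQ hfQ hg => ?_⟩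
  · have := hP.1.1
    obtain ⟨q, -, hq⟩ := (Ideal.IsPrime.prod_mem_iff).1 h
    exact heP _ _ hq
  · obtain ⟨q, hq, hqQ⟩ := Ideal.exists_minimalPrimes_le
      (show Ideal.span {f} ≤ Q by simpa [Ideal.span_singleton_le_iff_mem] using hfQ)
    by_contra hPQ
    have hqP : q ≠ P := fun h => hPQ (h ▸ hqQ)
    have hmem : q ∈ hfin.toFinset.erase P := by simp [hqP, hq]
    exact hg (hqQ (Ideal.prod_mem _ (Finset.mem_attach _ ⟨q, hmem⟩) (he q hmem)))

theorem coeff_zero_minpoly_ne_zero {S B : Type} [CommRing S] [IsDomain S] [CommRing B] [IsDomain B]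
    [Algebra S B] [Algebra.IsIntegral S B] {f : B} (hf : f ≠ 0) :
    (minpoly S f).coeff 0 ≠ 0 := fun h0 => hf <| by
  have hi : IsIntegral S f := Algebra.IsIntegral.isIntegral f
  obtain ⟨ν, hν⟩ := Polynomial.X_dvd_iff.2 h0
  have h := (minpoly.irreducible hi).isUnit_or_isUnit hν
  have hν' : IsUnit ν := h.resolve_left Polynomial.not_isUnit_X
  have hz : Polynomial.aeval f (minpoly S f) = 0 := minpoly.aeval S f
  rw [hν, map_mul, Polynomial.aeval_X] at hz
  exact (mul_eq_zero.1 hz).resolve_right (hν'.map (Polynomial.aeval f)).ne_zero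

/-- If `f * c` is a scalar `Q`, the constant term of the minimal polynomial of `f` divides a power
of `Q` (in place of a norm). -/
theorem coeff_zero_minpoly_dvd_pow {S B : Type} [CommRing S] [IsDomain S] [IsIntegrallyClosed S]
    [CommRing B] [IsDomain B] [Algebra S B] [Module.IsTorsionFree S B] [Algebra.IsIntegral S B]
    {f c : B} {Q : S} (h : f * c = algebraMap S B Q) (hf : f ≠ 0) (hc : c ≠ 0) :
    (minpoly S f).coeff 0 ∣ Q ^ (minpoly S f).natDegree := by
  classical
  let rev : Polynomial S → Polynomial S := fun μ => ∑ i ∈ Finset.range (μ.natDegree + 1),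
    Polynomial.C (μ.coeff i * Q ^ i) * Polynomial.X ^ (μ.natDegree - i)
  have hdeg : ∀ μ, (rev μ).natDegree ≤ μ.natDegree := fun μ =>
    Polynomial.natDegree_sum_le_of_forall_le _ _ fun i _ =>
      (Polynomial.natDegree_C_mul_X_pow_le _ _).trans (Nat.sub_le _ _)
  have hhi : ∀ μ, (rev μ).coeff μ.natDegree = μ.coeff 0 := fun μ => by
    simp only [rev, Polynomial.finsetSum_coeff, Polynomial.coeff_C_mul_X_pow]
    rw [Finset.sum_eq_single 0]
    · simp
    · intro i hi hi0
      rw [Finset.mem_range] at hi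
      exact if_neg (by omega)
    · simp
  have hlo : ∀ μ : Polynomial S, μ.Monic → (rev μ).coeff 0 = Q ^ μ.natDegree := fun μ hμ => by
    simp only [rev, Polynomial.finsetSum_coeff, Polynomial.coeff_C_mul_X_pow]
    rw [Finset.sum_eq_single μ.natDegree]
    · simp [hμ.coeff_natDegree]
    · intro i hi hid
      rw [Finset.mem_range] at hi
      exact if_neg (by omega)
    · simp
  have heval : ∀ a b : B, a * b = algebraMap S B Q →
      Polynomial.aeval b (rev (minpoly S a)) = 0 := fun a b hab => by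
    simp only [rev, map_sum, map_mul, Polynomial.aeval_C, map_pow, Polynomial.aeval_X, ← hab]
    calc ∑ i ∈ Finset.range ((minpoly S a).natDegree + 1), algebraMap S B ((minpoly S a).coeff i) *
            (a * b) ^ i * b ^ ((minpoly S a).natDegree - i)
        = ∑ i ∈ Finset.range ((minpoly S a).natDegree + 1),
            b ^ (minpoly S a).natDegree * ((minpoly S a).coeff i • a ^ i) := by
          refine Finset.sum_congr rfl fun i hi => ?_
          have hid : i ≤ (minpoly S a).natDegree := Finset.mem_range_succ_iff.1 hi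
          rw [Algebra.smul_def, mul_pow, ← pow_sub_mul_pow b hid]
          ring
      _ = 0 := by rw [← Finset.mul_sum, ← Polynomial.aeval_eq_sum_range, minpoly.aeval, mul_zero]
  have hne : ∀ a : B, a ≠ 0 → rev (minpoly S a) ≠ 0 := fun a ha h0 => by
    have := hhi (minpoly S a)
    rw [h0, Polynomial.coeff_zero] at this
    exact coeff_zero_minpoly_ne_zero ha this.symm
  have key : ∀ a b : B, a ≠ 0 → a * b = algebraMap S B Q →
      (minpoly S b).natDegree ≤ (minpoly S a).natDegree ∧ minpoly S b ∣ rev (minpoly S a) :=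
    fun a b ha hab => by
      have hd := minpoly.isIntegrallyClosed_dvd (Algebra.IsIntegral.isIntegral b) (heval a b hab)
      exact ⟨(Polynomial.natDegree_le_of_dvd hd (hne a ha)).trans (hdeg _), hd⟩
  obtain ⟨h1, u, hu⟩ := key f c hf h
  have h2 := (key c f hc (by rw [mul_comm, h])).1
  have heq : (minpoly S c).natDegree = (minpoly S f).natDegree := le_antisymm h1 h2
  have hu0 : u ≠ 0 := fun h0 => hne f hf (by rw [hu, h0, mul_zero])
  have hud : u.natDegree = 0 := by
    have h3 := hdeg (minpoly S f)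
    rw [hu, Polynomial.natDegree_mul (minpoly.ne_zero (Algebra.IsIntegral.isIntegral c)) hu0] at h3
    omega
  rw [Polynomial.eq_C_of_natDegree_eq_zero hud] at hu
  have e1 := hhi (minpoly S f)
  rw [hu, Polynomial.coeff_mul_C, ← heq,
    (minpoly.monic (Algebra.IsIntegral.isIntegral c)).coeff_natDegree, one_mul] at e1
  have e2 := hlo _ (minpoly.monic (Algebra.IsIntegral.isIntegral f))
  rw [hu, Polynomial.coeff_mul_C, e1] at e2
  exact ⟨_, (mul_comm _ _).trans e2 |>.symm⟩

/-- The case where the prime is the radical of the principal ideal. -/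
theorem trdeg_le_quot_of_radical {B : Type} [CommRing B] [IsDomain B] [Algebra ℚ B]
    [Algebra.FiniteType ℚ B] {f : B} (hf : f ≠ 0) {P : Ideal B} (hP : P.IsPrime) (hfP : f ∈ P)
    (hrad : ∀ q ∈ P, ∃ m : ℕ, f ∣ q ^ m) :
    Algebra.trdeg ℚ B ≤ Algebra.trdeg ℚ (B ⧸ P) + 1 := by
  classical
  obtain ⟨s, φ, hφ, hfin⟩ := exists_finite_inj_algHom_of_fg ℚ B
  let S := MvPolynomial (Fin s) ℚ
  let : Algebra S B := φ.toRingHom.toAlgebra
  have : IsScalarTower ℚ S B := IsScalarTower.of_algebraMap_eq fun x => (φ.commutes x).symm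
  have : Module.Finite S B := hfin
  have hinjS : Function.Injective (algebraMap S B) := hφ
  have : FaithfulSMul S B := (faithfulSMul_iff_algebraMap_injective S B).2 hinjS
  have : Algebra.IsIntegral S B := Algebra.IsIntegral.of_finite S B
  have htr : Algebra.trdeg ℚ B = (s : Cardinal) := by
    have halg : Algebra.IsAlgebraic S B := Algebra.IsIntegral.isAlgebraic
    rw [← trdeg_add_eq ℚ S (A := B), trdeg_eq_zero_iff.2 halg, add_zero]
    simp [S]
  -- the constant term of the minimal polynomial of `f`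
  set N := (minpoly S f).coeff 0
  have hN0 : N ≠ 0 := coeff_zero_minpoly_ne_zero hf
  let p : Ideal S := P.comap (algebraMap S B)
  have hp : p.IsPrime := Ideal.IsPrime.comap _
  have hNp : N ∈ p := by
    have key := map_dvd (Polynomial.aeval f) (Polynomial.X_dvd_sub_C (p := minpoly S f))
    rw [map_sub, minpoly.aeval, zero_sub, dvd_neg, Polynomial.aeval_X, Polynomial.aeval_C] at key
    exact Ideal.mem_of_dvd P key hfP
  have hdvdN : ∀ q ∈ p, ∃ m : ℕ, N ∣ q ^ m := fun q hq => by
    rcases eq_or_ne q 0 with rfl | hq0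
    · exact ⟨1, by simp⟩
    obtain ⟨m, c, hc⟩ := hrad _ hq
    rw [← map_pow] at hc
    refine ⟨_, pow_mul q m _ ▸ coeff_zero_minpoly_dvd_pow hc.symm hf fun h0 => ?_⟩
    rw [h0, mul_zero] at hc
    exact pow_ne_zero m hq0 (hinjS (hc.trans (map_zero _).symm))
  -- a prime generator of the comap
  obtain ⟨π, hπ, hπp, hπN⟩ : ∃ π : S, Prime π ∧ π ∈ p ∧ π ∣ N := by
    obtain ⟨l, hl, u, hu⟩ := UniqueFactorizationMonoid.exists_prime_factors N hN0
    have : l.prod ∈ p := (Ideal.IsPrime.mul_mem_iff_mem_or_mem hp).1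
      (show l.prod * u ∈ p by rw [hu]; exact hNp) |>.resolve_right fun h =>
        hp.ne_top (Ideal.eq_top_of_isUnit_mem _ h u.isUnit)
    obtain ⟨π, hπl, hπp⟩ := (Ideal.IsPrime.multiset_prod_mem_iff_exists_mem hp l).1 this
    exact ⟨π, hl π hπl, hπp, hu ▸ dvd_mul_of_dvd_left (Multiset.dvd_prod hπl) _⟩
  obtain ⟨i, hi⟩ : ∃ i, degreeOf i π ≠ 0 := by
    by_contra hall
    simp only [not_exists, not_not] at hall
    have hC : π = C (coeff 0 π) := by
      ext d
      rw [coeff_C]
      split_ifs with h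
      · rw [h]
      · by_contra hd
        obtain ⟨j, hj⟩ := Finsupp.ne_iff.1 (Ne.symm h)
        have h1 := monomial_le_degreeOf j (mem_support_iff.2 hd)
        rw [hall j] at h1
        exact hj (Nat.le_zero.1 h1)
    refine hπ.not_isUnit (hC ▸ (IsUnit.map C ?_))
    exact isUnit_iff_ne_zero.2 fun h => hπ.ne_zero (by rw [hC, h, map_zero])
  -- the other variables stay independent modulo `P`
  let y : {j : Fin s // j ≠ i} → B ⧸ P := fun j => Ideal.Quotient.mkₐ ℚ P (φ (X j.1))
  have hy : AlgebraicIndependent ℚ y := by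
    rw [algebraicIndependent_iff_injective_aeval, injective_iff_map_eq_zero]
    intro q hq
    have e : (aeval y : MvPolynomial _ ℚ →ₐ[ℚ] B ⧸ P) =
        ((Ideal.Quotient.mkₐ ℚ P).comp φ).comp (rename Subtype.val) := by
      ext j; simp [y]
    rw [e] at hq
    have hqp : rename Subtype.val q ∈ p :=
      show φ (rename Subtype.val q) ∈ P from Ideal.Quotient.eq_zero_iff_mem.1 hq
    obtain ⟨m, hm⟩ := hdvdN _ hqp
    obtain ⟨c, hc⟩ := hπ.dvd_of_dvd_pow (hπN.trans hm)
    by_contra hq0
    have hr0 : rename Subtype.val q ≠ 0 := fun h =>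
      hq0 ((rename_injective _ Subtype.val_injective) (h.trans (map_zero _).symm))
    have hc0 : c ≠ 0 := fun h => hr0 (by rw [hc, h, mul_zero])
    have hdeg : degreeOf i (rename Subtype.val q) = 0 := by
      rw [← Nat.le_zero, degreeOf_le_iff]
      intro d hd
      rw [support_rename_of_injective Subtype.val_injective, Finset.mem_image] at hd
      obtain ⟨e, -, rfl⟩ := hd
      rw [Finsupp.mapDomain_of_notMem_range]
      rintro ⟨j, hj⟩
      exact j.2 hj
    rw [hc, degreeOf_mul_eq hπ.ne_zero hc0] at hdeg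
    omega
  have hle := hy.cardinalMk_le_trdeg
  rw [htr]
  refine le_trans ?_ (add_le_add hle le_rfl)
  have hcard : Fintype.card {j : Fin s // j ≠ i} + 1 = s := by
    have := i.pos
    simp [Fintype.card_subtype_compl]
    omega
  conv_lhs => rw [← hcard]
  simp

/-- A minimal prime over a nonzero principal ideal of an affine domain has codimension one. -/
theorem trdeg_quot_minimalPrime {A : Type} [CommRing A] [IsDomain A] [Algebra ℚ A]
    [Algebra.FiniteType ℚ A] {f : A} (hf : f ≠ 0) {P : Ideal A}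
    (hP : P ∈ (Ideal.span {f}).minimalPrimes) :
    Algebra.trdeg ℚ (A ⧸ P) + 1 = Algebra.trdeg ℚ A := by
  have : IsNoetherianRing A := Algebra.FiniteType.isNoetherianRing ℚ A
  have hPp : P.IsPrime := hP.1.1
  have hfP : f ∈ P := hP.1.2 (Ideal.mem_span_singleton_self f)
  refine le_antisymm (trdeg_quot_add_one_le hPp fun h => hf (by simpa [h] using hfP)) ?_
  obtain ⟨g, hgP, hg⟩ := exists_isolating f hP
  have hg0 : g ≠ 0 := fun h => hgP (h ▸ P.zero_mem)
  let B := Localization.Away g
  have hM : Submonoid.powers g ≤ nonZeroDivisors A :=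
    powers_le_nonZeroDivisors_of_noZeroDivisors hg0
  have : IsDomain B := IsLocalization.isDomain_localization hM
  have : Algebra.FiniteType A B := IsLocalization.finiteType_of_monoid_fg (Submonoid.powers g) B
  have : Algebra.FiniteType ℚ B := Algebra.FiniteType.trans ‹Algebra.FiniteType ℚ A› this
  have hinj : Function.Injective (algebraMap A B) := IsLocalization.injective B hM
  have hfrac : ∀ b : B, ∃ a c : A, c ∉ P ∧ algebraMap A B c * b = algebraMap A B a := fun b => by
    obtain ⟨⟨a, c, n, hn⟩, h⟩ := IsLocalization.surj (Submonoid.powers g) b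
    refine ⟨a, c, fun hc => hgP (hPp.mem_of_pow_mem n ?_), by rw [mul_comm]; exact h⟩
    show g ^ n ∈ P
    rw [show g ^ n = c from hn]; exact hc
  have htB : Algebra.trdeg ℚ A = Algebra.trdeg ℚ B :=
    trdeg_eq_of_fractions A B hinj fun b => by
      obtain ⟨a, c, hc, h⟩ := hfrac b
      exact ⟨a, c, fun h0 => hc (h0 ▸ P.zero_mem), h⟩
  have hdisj : Disjoint (Submonoid.powers g : Set A) (P : Set A) :=
    Set.disjoint_left.2 fun x ⟨n, hn⟩ hx => hgP (hPp.mem_of_pow_mem n (by rwa [show g ^ n = x from hn]))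
  let PB : Ideal B := P.map (algebraMap A B)
  have hPB : PB.IsPrime := IsLocalization.isPrime_of_isPrime_disjoint (Submonoid.powers g) B P hPp hdisj
  have hcomap : PB.comap (algebraMap A B) = P :=
    IsLocalization.under_map_of_isPrime_disjoint (Submonoid.powers g) B hPp hdisj
  have hrad : ∀ q ∈ PB, ∃ m : ℕ, algebraMap A B f ∣ q ^ m := fun q hq => by
    have : q ∈ (Ideal.span {algebraMap A B f}).radical := by
      rw [Ideal.radical_eq_sInf, Submodule.mem_sInf]
      rintro Q ⟨hfQ, hQ⟩
      refine (Ideal.map_le_iff_le_comap.2 (hg _ (Ideal.IsPrime.comap _) ?_ fun hgQ => ?_)) hq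
      · exact hfQ (Ideal.mem_span_singleton_self _)
      · exact hQ.ne_top (Ideal.eq_top_of_isUnit_mem Q hgQ
          (IsLocalization.Away.algebraMap_isUnit g))
    obtain ⟨m, hm⟩ := this
    exact ⟨m, Ideal.mem_span_singleton.1 hm⟩
  have h1 := trdeg_le_quot_of_radical (f := algebraMap A B f)
    (fun h => hf (hinj (h.trans (map_zero _).symm))) hPB (Ideal.mem_map_of_mem _ hfP) hrad
  rw [← htB] at h1
  refine h1.trans (add_le_add (le_of_eq ?_) le_rfl)
  let : Algebra (A ⧸ P) (B ⧸ PB) := (Ideal.quotientMap PB (algebraMap A B) hcomap.ge).toAlgebra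
  have : IsScalarTower ℚ (A ⧸ P) (B ⧸ PB) := IsScalarTower.of_algebraMap_eq fun x => by
    show _ = Ideal.quotientMap PB (algebraMap A B) hcomap.ge (Ideal.Quotient.mk P (algebraMap ℚ A x))
    rw [Ideal.quotientMap_mk, ← IsScalarTower.algebraMap_apply ℚ A B]
    rfl
  refine (trdeg_eq_of_fractions (A ⧸ P) (B ⧸ PB)
    (Ideal.quotientMap_injective' hcomap.le) fun b => ?_).symm
  obtain ⟨b, rfl⟩ := Ideal.Quotient.mk_surjective b
  obtain ⟨a, c, hc, h⟩ := hfrac b
  refine ⟨Ideal.Quotient.mk P a, Ideal.Quotient.mk P c,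
    fun h0 => hc (Ideal.Quotient.eq_zero_iff_mem.1 h0), ?_⟩
  show Ideal.quotientMap PB (algebraMap A B) hcomap.ge _ * _ = _
  rw [Ideal.quotientMap_mk, ← map_mul, h]
  rfl

end Vale.Agent.P199.Full
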