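import Mathlib

/-!
Kurosh's problem for division rings, full disproof: tensor products of quaternion algebras as
twisted group algebras of `(ZMod 2)^(2N)`.
-/

noncomputable section

namespace Vale.Agent.P199.Full

/-- Indices of the generators: two for each quaternion factor. -/
abbrev QI (N : ℕ) : Type := Fin N × Bool

/-- Indices of the basis. -/
abbrev Gam (N : ℕ) : Type := QI N → ZMod 2

variable {N : ℕ} {R : Type} [CommRing R]

/-- The sign of a product of two basis elements. -/
def sgn (γ δ : Gam N) : R :=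
  ∏ j : Fin N, if γ (j, true) = 1 ∧ δ (j, false) = 1 then -1 else 1

/-- The squares collected by a product of two basis elements. -/
def carry (z : QI N → R) (γ δ : Gam N) : R :=
  ∏ i : QI N, if γ i = 1 ∧ δ i = 1 then z i else 1

/-- The structure constants. -/
def coc (z : QI N → R) (γ δ : Gam N) : R := sgn γ δ * carry z γ δ

theorem sgn_assoc (γ δ ε : Gam N) :
    (sgn γ δ * sgn (γ + δ) ε : R) = sgn δ ε * sgn γ (δ + ε) := by
  simp only [sgn, ← Finset.prod_mul_distrib, Pi.add_apply]
  refine Finset.prod_congr rfl fun j _ => ?_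
  have h : ∀ a : ZMod 2, a = 0 ∨ a = 1 := by decide
  rcases h (γ (j, true)) with ha | ha <;> rcases h (δ (j, true)) with hb | hb <;>
    rcases h (δ (j, false)) with hb' | hb' <;> rcases h (ε (j, false)) with hc | hc <;>
    simp [ha, hb, hb', hc, show (1 + 1 : ZMod 2) = 0 from rfl]

theorem carry_assoc (z : QI N → R) (γ δ ε : Gam N) :
    carry z γ δ * carry z (γ + δ) ε = carry z δ ε * carry z γ (δ + ε) := by
  simp only [carry, ← Finset.prod_mul_distrib, Pi.add_apply]
  refine Finset.prod_congr rfl fun i _ => ?_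
  have h : ∀ a : ZMod 2, a = 0 ∨ a = 1 := by decide
  rcases h (γ i) with ha | ha <;> rcases h (δ i) with hb | hb <;> rcases h (ε i) with hc | hc <;>
    simp [ha, hb, hc, show (1 + 1 : ZMod 2) = 0 from rfl, mul_comm]

theorem coc_assoc (z : QI N → R) (γ δ ε : Gam N) :
    coc z γ δ * coc z (γ + δ) ε = coc z δ ε * coc z γ (δ + ε) := by
  rw [coc, coc, coc, coc, mul_mul_mul_comm, sgn_assoc, carry_assoc, mul_mul_mul_comm]

theorem coc_zero_left (z : QI N → R) (δ : Gam N) : coc z 0 δ = 1 := by simp [coc, sgn, carry]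

theorem coc_zero_right (z : QI N → R) (δ : Gam N) : coc z δ 0 = 1 := by simp [coc, sgn, carry]

/-- The tensor product of the quaternion algebras with parameters `z (j, false)`, `z (j, true)`,
in its monomial basis. -/
@[ext]
structure QT (z : QI N → R) where
  /-- The coordinates. -/
  co : Gam N → R

namespace QT

variable {z : QI N → R}

instance : Zero (QT z) := ⟨⟨0⟩⟩
instance : Add (QT z) := ⟨fun a b => ⟨a.co + b.co⟩⟩
instance : Neg (QT z) := ⟨fun a => ⟨-a.co⟩⟩
instance : Sub (QT z) := ⟨fun a b => ⟨a.co - b.co⟩⟩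
instance {S : Type} [SMul S R] : SMul S (QT z) := ⟨fun r a => ⟨r • a.co⟩⟩

@[simp] theorem co_zero : (0 : QT z).co = 0 := rfl
@[simp] theorem co_add (a b : QT z) : (a + b).co = a.co + b.co := rfl
@[simp] theorem co_neg (a : QT z) : (-a).co = -a.co := rfl
@[simp] theorem co_sub (a b : QT z) : (a - b).co = a.co - b.co := rfl
@[simp] theorem co_smul {S : Type} [SMul S R] (r : S) (a : QT z) : (r • a).co = r • a.co := rfl

theorem co_injective : Function.Injective (co : QT z → Gam N → R) := fun _ _ => QT.ext

instance : AddCommGroup (QT z) :=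
  Function.Injective.addCommGroup co co_injective rfl (fun _ _ => rfl) (fun _ => rfl)
    (fun _ _ => rfl) (fun _ _ => rfl) (fun _ _ => rfl)

instance : Module R (QT z) :=
  Function.Injective.module R ⟨⟨co, rfl⟩, fun _ _ => rfl⟩ co_injective fun _ _ => rfl

instance : Mul (QT z) :=
  ⟨fun a b => ⟨fun ε => ∑ γ, a.co γ * b.co (ε - γ) * coc z γ (ε - γ)⟩⟩

instance : One (QT z) := ⟨⟨Pi.single 0 1⟩⟩

theorem co_mul (a b : QT z) (ε : Gam N) :
    (a * b).co ε = ∑ γ, a.co γ * b.co (ε - γ) * coc z γ (ε - γ) := rfl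

theorem co_one : (1 : QT z).co = Pi.single 0 1 := rfl

theorem mul_assoc' (a b c : QT z) : a * b * c = a * (b * c) := by
  ext ε
  simp only [co_mul, Finset.sum_mul, Finset.mul_sum]
  rw [Finset.sum_comm]
  refine Finset.sum_congr rfl fun γ _ => ?_
  refine Fintype.sum_equiv (Equiv.subRight γ) _ _ fun δ => ?_
  have h := coc_assoc z γ (δ - γ) (ε - δ)
  rw [add_sub_cancel, show δ - γ + (ε - δ) = ε - γ from by abel] at h
  simp only [Equiv.subRight_apply]
  rw [show ε - γ - (δ - γ) = ε - δ from by abel]
  linear_combination (a.co γ * b.co (δ - γ) * c.co (ε - δ)) * h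

theorem one_mul' (a : QT z) : 1 * a = a := by
  ext ε
  rw [co_mul, Finset.sum_eq_single 0 (fun γ _ h => by simp [co_one, Pi.single_eq_of_ne h])
    (fun h => absurd (Finset.mem_univ _) h)]
  simp [co_one, coc_zero_left]

theorem mul_one' (a : QT z) : a * 1 = a := by
  ext ε
  rw [co_mul, Finset.sum_eq_single ε (fun γ _ h => by
    simp [co_one, Pi.single_eq_of_ne (sub_ne_zero.2 (Ne.symm h))])
    (fun h => absurd (Finset.mem_univ _) h)]
  simp [co_one, coc_zero_right]

instance : Ring (QT z) where
  __ := (inferInstance : AddCommGroup (QT z))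
  mul_assoc := mul_assoc'
  one_mul := one_mul'
  mul_one := mul_one'
  left_distrib a b c := by
    ext ε; simp [co_mul, mul_add, add_mul, Finset.sum_add_distrib]
  right_distrib a b c := by
    ext ε; simp [co_mul, add_mul, Finset.sum_add_distrib]
  zero_mul a := by ext ε; simp [co_mul]
  mul_zero a := by ext ε; simp [co_mul]

instance : Algebra R (QT z) :=
  Algebra.ofModule
    (fun r a b => by ext ε; simp [co_mul, Finset.mul_sum, mul_assoc])
    (fun r a b => by ext ε; simp [co_mul, Finset.mul_sum, mul_assoc, mul_left_comm])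

/-- Coordinates as a linear equivalence. -/
def coEquiv (z : QI N → R) : QT z ≃ₗ[R] (Gam N → R) where
  toFun := co
  invFun f := ⟨f⟩
  map_add' _ _ := rfl
  map_smul' _ _ := rfl

instance : Module.Finite R (QT z) := Module.Finite.equiv (coEquiv z).symm

instance : Module.Free R (QT z) := Module.Free.of_equiv (coEquiv z).symm

/-- A basis element. -/
def E (γ : Gam N) : QT z := ⟨Pi.single γ 1⟩

theorem E_mul_E (γ δ : Gam N) : (E γ : QT z) * E δ = coc z γ δ • E (γ + δ) := by
  ext ε
  rw [co_mul, Finset.sum_eq_single γ (fun x _ h => by simp [E, Pi.single_eq_of_ne h])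
    (fun h => absurd (Finset.mem_univ _) h)]
  by_cases he : ε = γ + δ
  · subst he; simp [E]
  · have : ε - γ ≠ δ := fun h => he (by rw [← h, add_sub_cancel])
    simp [E, Pi.single_eq_of_ne he, Pi.single_eq_of_ne this]

/-- The trace, normalised to `τ 1 = 1`: the coordinate of `1`. -/
def tau (z : QI N → R) : QT z →ₗ[R] R :=
  (LinearMap.proj 0).comp (coEquiv z).toLinearMap

theorem tau_apply (a : QT z) : tau z a = a.co 0 := rfl

theorem tau_one : tau z 1 = 1 := by simp [tau_apply, co_one]

theorem co_algebraMap (r : R) : (algebraMap R (QT z) r).co = Pi.single 0 r := by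
  rw [Algebra.algebraMap_eq_smul_one, co_smul, co_one]
  ext ε
  rcases eq_or_ne ε 0 with rfl | h <;> simp [*]

end QT

end Vale.Agent.P199.Full
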