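import Mathlib

/-!
Kurosh's problem for division rings, full disproof: trace words in three generators and the finite
stage of the construction.
-/

noncomputable section

namespace Vale.Agent.P199.Full

/-- Words in three generators with sums and a formal trace. -/
inductive Term : Type
  | gen (i : Fin 3)
  | one
  | add (s t : Term)
  | neg (t : Term)
  | mul (s t : Term)
  | tr (t : Term)
  deriving DecidableEq

/-- Evaluation of a word. -/
def Term.eval {K A : Type} [CommRing K] [Ring A] [Algebra K A] (τ : A →ₗ[K] K) (g : Fin 3 → A) :
    Term → A
  | .gen i => g i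
  | .one => 1
  | .add s t => s.eval τ g + t.eval τ g
  | .neg t => -t.eval τ g
  | .mul s t => s.eval τ g * t.eval τ g
  | .tr t => algebraMap K A (τ (t.eval τ g))

/-- The bound on the degree of the `i`-th word. -/
def bound (i : ℕ) : ℕ := 2 ^ (i + 4)

/-- A division algebra in which the given words have small degree while the generators lie in no
small subalgebra. -/
structure Stage {n : ℕ} (w : Fin n → Term) (L : ℕ) where
  /-- The scalars. -/
  K : Type
  [instK : Field K]
  /-- The division algebra. -/
  D : Type
  [instD : DivisionRing D]
  [instA : Algebra K D]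
  [instF : Module.Finite K D]
  /-- The trace. -/
  τ : D →ₗ[K] K
  τ_one : τ 1 = 1
  /-- The generators. -/
  g : Fin 3 → D
  deg_le : ∀ i : Fin n,
    ¬ LinearIndependent K fun j : Fin (bound i + 1) => (w i).eval τ g ^ (j : ℕ)
  big : ∀ A : Subalgebra K D, Module.finrank K A ≤ L → ∃ i, g i ∉ A

attribute [instance] Stage.instK Stage.instD Stage.instA Stage.instF

end Vale.Agent.P199.Full
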