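import Vale.Agent.P199.Full.Slice
import Vale.Agent.P199.Full.Twist
import Vale.Agent.P199.Full.Words

/-!
Kurosh's problem for division rings, full disproof: elements of the twisted algebra over a
polynomial ring that are homogeneous for the classes.
-/

noncomputable section

namespace Vale.Agent.P199.Full

open MvPolynomial

/-- Indices of the coordinates of elements of trace zero. -/
abbrev Yc (N : ℕ) : Type := {γ : Gam N // γ ≠ 0}

variable {N : ℕ} {σ : Type}

/-- All parameters `1`. -/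
abbrev one1 (N : ℕ) (σ : Type) : QI N → MvPolynomial σ ℚ := fun _ => 1

/-- The coordinate at each class is homogeneous of this class, of weight `0`. -/
def H0 (w : σ → Deg (QI N)) (x : QT (one1 N σ)) : Prop :=
  ∀ γ, IsWeightedHomogeneous w (x.co γ) ((γ, 0) : Deg (QI N))

/-- The general element of trace zero in given variables. -/
def genel (emb : Yc N → σ) : QT (one1 N σ) :=
  ⟨fun γ => if h : γ ≠ 0 then X (emb ⟨γ, h⟩) else 0⟩

/-- The matrix of left multiplication. -/
def mat {R : Type} [CommRing R] {z : QI N → R} (x : QT z) : Matrix (Gam N) (Gam N) R :=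
  Matrix.of fun ε δ => x.co (ε - δ) * coc z (ε - δ) δ

/-- A maximal minor of the coordinates of the powers. -/
def minorDet {R : Type} [CommRing R] {z : QI N → R} {e : ℕ} (x : QT z) (f : Fin e → Gam N) : R :=
  (Matrix.of fun a b : Fin e => (x ^ (b : ℕ)).co (f a)).det

section Ring

variable {R : Type} [CommRing R] {z : QI N → R}

theorem carry_one (γ δ : Gam N) : carry (fun _ => (1 : R)) γ δ = 1 := by simp [carry]

theorem sgn_sq (γ δ : Gam N) : (sgn γ δ * sgn γ δ : R) = 1 := by
  rw [sgn, ← Finset.prod_mul_distrib]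
  exact Finset.prod_eq_one fun j _ => by split_ifs <;> simp

theorem mat_mulVec (x y : QT z) : (mat x).mulVec y.co = (x * y).co := by
  ext ε
  rw [QT.co_mul]
  simp only [Matrix.mulVec, dotProduct, mat, Matrix.of_apply]
  refine Fintype.sum_equiv (Equiv.subLeft ε) _ _ fun δ => ?_
  simp only [Equiv.subLeft_apply, sub_sub_cancel]
  ring

theorem mat_mul (x y : QT z) : mat (x * y) = mat x * mat y := by
  refine Matrix.ext_of_mulVec_single fun δ => ?_
  rw [← Matrix.mulVec_mulVec]
  let e : QT z := ⟨Pi.single δ 1⟩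
  change (mat (x * y)).mulVec e.co = (mat x).mulVec ((mat y).mulVec e.co)
  rw [mat_mulVec, mat_mulVec, mat_mulVec, mul_assoc]

theorem det_mat_ne_zero_of_inj [IsDomain R] (x : QT z) (h : ∀ y, x * y = 0 → y = 0) :
    (mat x).det ≠ 0 := fun h0 => by
  obtain ⟨v, hv, hv0⟩ := Matrix.exists_mulVec_eq_zero_iff.2 h0
  refine hv (congrArg QT.co (h ⟨v⟩ (QT.ext ?_)))
  rw [← mat_mulVec, hv0]
  rfl

theorem det_mat_eq_zero_of_mul [IsDomain R] {x y : QT z} (hy : y ≠ 0) (h : x * y = 0) :
    (mat x).det = 0 :=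
  Matrix.exists_mulVec_eq_zero_iff.1
    ⟨y.co, fun h0 => hy (QT.ext h0), by rw [mat_mulVec, h]; rfl⟩

end Ring

variable {w : σ → Deg (QI N)} {x y : QT (one1 N σ)}

theorem deg_add (γ δ : Gam N) : ((γ, 0) : Deg (QI N)) + (δ, 0) = (γ + δ, 0) := by simp

theorem isWH_sign {f : MvPolynomial σ ℚ} {m : Deg (QI N)} (hf : IsWeightedHomogeneous w f m)
    (γ δ : Gam N) :
    IsWeightedHomogeneous w (f * coc (one1 N σ) γ δ) m := by
  rw [coc, carry_one, mul_one, sgn, mul_comm]
  refine Finset.prod_induction _ (fun s => IsWeightedHomogeneous w s (0 : Deg (QI N)))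
    (fun a b ha hb => by simpa using ha.mul hb) (isWeightedHomogeneous_one ℚ w) (fun j _ => ?_)
    |>.mul hf |> fun h => by simpa using h
  split_ifs
  · rw [← C_1, ← C_neg]; exact isWeightedHomogeneous_C w _
  · exact isWeightedHomogeneous_one ℚ w

theorem H0.zero : H0 w (0 : QT (one1 N σ)) := fun _ => isWeightedHomogeneous_zero ℚ w _

theorem H0.one : H0 w (1 : QT (one1 N σ)) := fun γ => by
  rw [QT.co_one]
  rcases eq_or_ne γ 0 with rfl | h
  · rw [Pi.single_eq_same]; exact isWeightedHomogeneous_one ℚ w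
  · rw [Pi.single_eq_of_ne h]; exact isWeightedHomogeneous_zero ℚ w _

theorem H0.add (hx : H0 w x) (hy : H0 w y) : H0 w (x + y) := fun γ => (hx γ).add (hy γ)

theorem H0.neg (hx : H0 w x) : H0 w (-x) := fun γ => by
  rw [QT.co_neg, Pi.neg_apply]
  exact (weightedHomogeneousSubmodule ℚ w _).neg_mem (hx γ)

theorem H0.sub (hx : H0 w x) (hy : H0 w y) : H0 w (x - y) := by
  rw [sub_eq_add_neg]; exact hx.add hy.neg

theorem H0.mul (hx : H0 w x) (hy : H0 w y) : H0 w (x * y) := fun ε => by
  rw [QT.co_mul]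
  refine IsWeightedHomogeneous.sum _ _ _ fun γ _ => isWH_sign ?_ _ _
  have h := (hx γ).mul (hy (ε - γ))
  rwa [deg_add, add_sub_cancel] at h

theorem H0.pow (hx : H0 w x) : ∀ n : ℕ, H0 w (x ^ n)
  | 0 => by rw [pow_zero]; exact H0.one
  | n + 1 => by rw [pow_succ]; exact (hx.pow n).mul hx

theorem H0.algebraMap {r : MvPolynomial σ ℚ} (hr : IsWeightedHomogeneous w r (0 : Deg (QI N))) :
    H0 w (algebraMap _ (QT (one1 N σ)) r) := fun γ => by
  rw [QT.co_algebraMap]
  rcases eq_or_ne γ 0 with rfl | h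
  · rw [Pi.single_eq_same]; exact hr
  · rw [Pi.single_eq_of_ne h]; exact isWeightedHomogeneous_zero ℚ w _

theorem H0.eval {g : Fin 3 → QT (one1 N σ)} (hg : ∀ i, H0 w (g i)) :
    ∀ t : Term, H0 w (t.eval (QT.tau (one1 N σ)) g)
  | .gen i => hg i
  | .one => H0.one
  | .add s t => (H0.eval hg s).add (H0.eval hg t)
  | .neg t => (H0.eval hg t).neg
  | .mul s t => (H0.eval hg s).mul (H0.eval hg t)
  | .tr t => H0.algebraMap (H0.eval hg t 0)

theorem h0_genel (emb : Yc N → σ) (hcls : ∀ γ, w (emb γ) = (γ.1, 0)) : H0 w (genel emb) := fun γ => by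
  simp only [genel]
  split_ifs with h
  · exact hcls ⟨γ, h⟩ ▸ isWeightedHomogeneous_X ℚ w _
  · exact isWeightedHomogeneous_zero ℚ w _

theorem ell_ne_zero_of_class {γ : Gam N} (h : γ ≠ 0) (k : ℕ) : ell ((γ, k) : Deg (QI N)) ≠ 0 := by
  classical
  obtain ⟨j, hj⟩ := Function.ne_iff.1 h
  intro h0
  refine hj ?_
  have := congrArg (coeff (Finsupp.single (some j) 1)) h0
  simpa [ell, coeff_sum, coeff_C_mul, coeff_X, Finsupp.single_left_inj, -map_natCast] using this

theorem ell_ne_zero_of_weight (γ : Gam N) : ell ((γ, 1) : Deg (QI N)) ≠ 0 := by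
  classical
  intro h0
  have := congrArg (coeff (Finsupp.single none 1)) h0
  simp [ell, coeff_sum, coeff_C_mul, coeff_X, Finsupp.single_left_inj] at this

end Vale.Agent.P199.Full
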