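import Vale.Agent.P199.Full.Elim
import Vale.Agent.P199.Full.QHom

/-!
Kurosh's problem for division rings, full disproof: a homogeneous element that is nonzero modulo a
prime of nonzero multidegree has determinant outside that prime.

If `det (mat ξ)` were in `P`, the graph of right translation by `ξ` would give a prime over `P`
whose multidegree is divisible by the product of the linear forms `ell (c, 1)`; comparing the
degrees in the weight variable forces the multidegree of `P` to vanish.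
-/

noncomputable section

namespace Vale.Agent.P199.Full

open MvPolynomial

namespace Division

/-! ### The ring of multidegrees -/

section F2

variable {ι : Type} [Fintype ι]

theorem mpow_supp (b : ℕ) {f : F2X ι} (hf : f ∈ mpow ι b) :
    ∀ d ∈ f.support, b ≤ ∑ j : ι, d (some j) := by
  classical
  induction b generalizing f with
  | zero => simp
  | succ b ih =>
    rw [mpow, pow_succ] at hf
    refine Submodule.mul_induction_on hf (fun p hp q hq d hd => ?_) (fun p q hp hq d hd => ?_)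
    · obtain ⟨a, ha, c, hc, rfl⟩ := Finset.mem_add.1 (support_mul p q hd)
      rw [show (Set.range fun j : ι => (X (some j) : F2X ι)) = X '' Set.range some by
        rw [← Set.range_comp]; rfl] at hq
      obtain ⟨_, ⟨j, rfl⟩, hj⟩ := mem_ideal_span_X_image.1 hq c hc
      have h1 := ih hp a ha
      have h2 : c (some j) ≤ ∑ i : ι, c (some i) :=
        Finset.single_le_sum (f := fun i => c (some i)) (fun i _ => Nat.zero_le _) (Finset.mem_univ j)
      simp only [Finsupp.add_apply, Finset.sum_add_distrib]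
      omega
    · rcases Finset.mem_union.1 (support_add hd) with h | h
      exacts [hp d h, hq d h]

/-- The degree in the weight variable of a homogeneous element of `mpow ι b`. -/
theorem degreeOf_add_le_of_mem {f : F2X ι} {c b : ℕ} (hf : f.IsHomogeneous c) (hb : f ∈ mpow ι b)
    (h0 : f ≠ 0) : f.degreeOf none + b ≤ c := by
  have key : ∀ d ∈ f.support, d none + b ≤ c := fun d hd => by
    have h1 := mpow_supp b hb d hd
    have h2 : Finsupp.weight (1 : Option ι → ℕ) d = c := hf (mem_support_iff.1 hd)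
    rw [Finsupp.weight_apply, Finsupp.sum_fintype _ _ (by simp), Fintype.sum_option] at h2
    simp only [Pi.one_apply, smul_eq_mul, mul_one] at h2
    omega
  obtain ⟨d, hd⟩ := support_nonempty.2 h0
  have := key d hd
  have h : f.degreeOf none ≤ c - b := degreeOf_le_iff.2 fun d hd => by have := key d hd; omega
  omega

theorem ell_isHomogeneous (m : Deg ι) : (ell m).IsHomogeneous 1 :=
  (IsHomogeneous.sum _ _ _ fun _ _ => (isHomogeneous_X _ _).C_mul _).add
    ((isHomogeneous_X _ _).C_mul _)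

theorem coeff_ell_none (c : ι → ZMod 2) :
    coeff (Finsupp.single none 1) (ell ((c, 1) : Deg ι)) = 1 := by
  classical
  simp [ell, coeff_sum, coeff_C_mul, coeff_X, Finsupp.single_left_inj]

theorem ell_ne_zero (c : ι → ZMod 2) : ell ((c, 1) : Deg ι) ≠ 0 := fun h => by
  simpa [h] using coeff_ell_none c

theorem one_le_degreeOf_ell (c : ι → ZMod 2) : 1 ≤ (ell ((c, 1) : Deg ι)).degreeOf none := by
  have h : (Finsupp.single none 1 : Option ι →₀ ℕ) ∈ (ell ((c, 1) : Deg ι)).support := by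
    rw [mem_support_iff, coeff_ell_none]; exact one_ne_zero
  simpa using monomial_le_degreeOf none h

theorem ell_inj : Function.Injective fun c : ι → ZMod 2 => ell ((c, 1) : Deg ι) := fun a b h => by
  classical
  funext j
  have := congrArg (coeff (Finsupp.single (some j) 1)) h
  simpa [ell, coeff_sum, coeff_C_mul, coeff_X, Finsupp.single_left_inj] using this

/-- The involution exchanging the weight variable with `ell (c, 1)`. -/
def swap (c : ι → ZMod 2) : F2X ι →ₐ[ZMod 2] F2X ι :=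
  aeval fun o => o.elim (ell ((c, 1) : Deg ι)) fun j => X (some j)

theorem swap_ell (c : ι → ZMod 2) : swap c (ell ((c, 1) : Deg ι)) = X none := by
  simp only [swap, ell, map_add, map_sum, map_mul, aeval_C, aeval_X, Option.elim, Nat.cast_one,
    map_one, one_mul, algebraMap_eq]
  rw [← add_assoc, CharTwo.add_self_eq_zero, zero_add]

theorem swap_swap (c : ι → ZMod 2) : (swap c).comp (swap c) = AlgHom.id _ _ := by
  refine MvPolynomial.algHom_ext fun o => ?_
  cases o with
  | none =>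
    rw [AlgHom.comp_apply, show swap c (X none) = ell ((c, 1) : Deg ι) from aeval_X _ _, swap_ell]
    rfl
  | some j =>
    rw [AlgHom.comp_apply, show swap c (X (some j)) = X (some j) from aeval_X _ _,
      show swap c (X (some j)) = X (some j) from aeval_X _ _]
    rfl

theorem prime_ell (c : ι → ZMod 2) : Prime (ell ((c, 1) : Deg ι)) := by
  let e : F2X ι ≃ₐ[ZMod 2] F2X ι := AlgEquiv.ofAlgHom (swap c) (swap c) (swap_swap c) (swap_swap c)
  rw [← MulEquiv.prime_iff e, show e (ell ((c, 1) : Deg ι)) = X none from swap_ell c]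
  exact X_prime

theorem prod_ell_dvd [DecidableEq ι] (lG : F2X ι)
    (hdiv : ∀ c : ι → ZMod 2, ell ((c, 1) : Deg ι) ∣ lG) :
    ∏ c : ι → ZMod 2, ell ((c, 1) : Deg ι) ∣ lG := by
  classical
  have : Subsingleton (F2X ι)ˣ := subsingleton_of_forall_eq 1 fun x => Units.ext (by
    obtain ⟨r, hr, e⟩ := isUnit_iff_eq_C_of_isReduced.1 x.isUnit
    have key : ∀ q : ZMod 2, q ≠ 0 → q = 1 := by decide
    have : r = 1 := key r hr.ne_zero
    rw [e, this, map_one, Units.val_one])
  rw [← Finset.prod_image (f := fun p : F2X ι => p) ell_inj.injOn]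
  exact Finset.prod_primes_dvd _
    (fun p hp => by obtain ⟨c, -, rfl⟩ := Finset.mem_image.1 hp; exact prime_ell c)
    (fun p hp => by obtain ⟨c, -, rfl⟩ := Finset.mem_image.1 hp; exact hdiv c)

/-- The degree argument. -/
theorem degree_contradiction [DecidableEq ι] (c0 : ι → ZMod 2) {o n : ℕ} {lP lG : F2X ι}
    (hn : n + 1 = o + Fintype.card (ι → ZMod 2)) (hP : lP.IsHomogeneous o) (hPm : lP ∈ mpow ι o)
    (hP0 : lP ≠ 0) (hG : lG.IsHomogeneous n) (hdiv : ∀ c : ι → ZMod 2, ell ((c, 1) : Deg ι) ∣ lG)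
    (hmem : ell ((c0, 1) : Deg ι) * lG - lP * ∏ c : ι → ZMod 2, ell ((c, 1) : Deg ι) ∈
      mpow ι (o + 1)) : False := by
  obtain ⟨A, hA⟩ := prod_ell_dvd lG hdiv
  have hPr : (∏ c : ι → ZMod 2, ell ((c, 1) : Deg ι)).IsHomogeneous
      (Fintype.card (ι → ZMod 2)) := by
    simpa using IsHomogeneous.prod (Finset.univ : Finset (ι → ZMod 2))
      (fun c => ell ((c, 1) : Deg ι)) (fun _ => 1) fun c _ => ell_isHomogeneous _
  have hPr0 : (∏ c : ι → ZMod 2, ell ((c, 1) : Deg ι)) ≠ 0 :=
    Finset.prod_ne_zero_iff.2 fun c _ => ell_ne_zero c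
  have hPrd : Fintype.card (ι → ZMod 2) ≤
      (∏ c : ι → ZMod 2, ell ((c, 1) : Deg ι)).degreeOf none := by
    rw [degreeOf_prod_eq _ _ fun c _ => ell_ne_zero c, ← Finset.card_univ, Finset.card_eq_sum_ones]
    exact Finset.sum_le_sum fun c _ => one_le_degreeOf_ell c
  have hf : (ell ((c0, 1) : Deg ι) * lG - lP * ∏ c : ι → ZMod 2, ell ((c, 1) : Deg ι)).IsHomogeneous
      (o + Fintype.card (ι → ZMod 2)) :=
    (hn ▸ Nat.add_comm 1 n ▸ (ell_isHomogeneous _).mul hG).sub (hP.mul hPr)
  have hAP : ell ((c0, 1) : Deg ι) * A = lP := by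
    by_contra hne
    have e : ell ((c0, 1) : Deg ι) * lG - lP * ∏ c : ι → ZMod 2, ell ((c, 1) : Deg ι) =
        (∏ c : ι → ZMod 2, ell ((c, 1) : Deg ι)) * (ell ((c0, 1) : Deg ι) * A - lP) := by
      rw [hA]; ring
    have hne' : ell ((c0, 1) : Deg ι) * A - lP ≠ 0 := sub_ne_zero.2 hne
    rw [e] at hf hmem
    have h := degreeOf_add_le_of_mem hf hmem (mul_ne_zero hPr0 hne')
    rw [degreeOf_mul_eq hPr0 hne'] at h
    omega
  have h := degreeOf_add_le_of_mem hP hPm hP0
  have hA0 : A ≠ 0 := fun h0 => hP0 (by rw [← hAP, h0, mul_zero])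
  rw [← hAP, degreeOf_mul_eq (ell_ne_zero c0) hA0] at h
  have := one_le_degreeOf_ell c0
  omega

end F2

/-! ### Generalities -/

section Gen

variable {σ : Type} {T : Set σ} {I : Ideal (MvPolynomial σ ℚ)}

theorem map_mem (hI : SuppOn T I) (ψ : MvPolynomial σ ℚ →ₐ[ℚ] MvPolynomial σ ℚ)
    (h : ∀ v ∈ T, ψ (X v) = X v) {f : MvPolynomial σ ℚ} (hf : f ∈ I) : ψ f ∈ I := by
  have hle : I ≤ I.comap ψ := by
    conv_lhs => rw [← span_inter_eq hI]
    refine Ideal.span_le.2 fun g hg => ?_
    rw [SetLike.mem_coe, Ideal.mem_comap, algHom_eq_of_supported (ψ := AlgHom.id ℚ _) h hg.2]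
    exact hg.1
  exact hle hf

variable {N : ℕ}

theorem map_coc {R S : Type} [CommRing R] [CommRing S] (f : R →+* S) (γ δ : Gam N) :
    f (coc (fun _ => (1 : R)) γ δ) = coc (fun _ => (1 : S)) γ δ := by
  simp only [coc, carry_one, mul_one, sgn, map_prod, apply_ite f, map_neg, map_one]

theorem coc_ne_zero (γ δ : Gam N) : coc (one1 N σ) γ δ ≠ 0 := by
  rw [coc, carry_one, mul_one]
  intro h
  have := sgn_sq (R := MvPolynomial σ ℚ) γ δ
  rw [h, mul_zero] at this
  exact zero_ne_one this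

end Gen

/-! ### The graph prime -/

section Graph

variable {N : ℕ} {σ : Type} (u : Gam N → σ) (ξ : QT (one1 N σ)) (c0 : Gam N)

/-- The substitution `X (u c) ↦ ξ_c X (u c0)`. -/
def phi : MvPolynomial σ ℚ →ₐ[ℚ] MvPolynomial σ ℚ :=
  aeval (Function.extend u (fun c => ξ.co c * X (u c0)) X)

/-- The general element in the variables `u`. -/
def gen : QT (one1 N σ) := ⟨fun c => X (u c)⟩

theorem phi_u (hu : Function.Injective u) (c : Gam N) :
    phi u ξ c0 (X (u c)) = ξ.co c * X (u c0) := by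
  rw [phi, aeval_X, hu.extend_apply]

theorem phi_out {v : σ} (hv : v ∉ Set.range u) : phi u ξ c0 (X v) = X v := by
  rw [phi, aeval_X, Function.extend_apply' _ _ _ fun ⟨c, hc⟩ => hv ⟨c, hc⟩]

theorem phi_supp {f : MvPolynomial σ ℚ} (hf : f ∈ supported ℚ (Set.range u)ᶜ) :
    phi u ξ c0 f = f :=
  algHom_eq_of_supported (ψ := AlgHom.id ℚ _) (fun _ hv => phi_out u ξ c0 hv) hf

/-- The shift of degrees. -/
def shift : Deg (QI N) →+ Deg (QI N) where
  toFun p := (p.1 + p.2 • c0, p.2)
  map_zero' := by simp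
  map_add' a b := by
    ext1
    · simp only [Prod.fst_add, Prod.snd_add, add_smul]; abel
    · rfl

theorem shift_injective : Function.Injective (shift c0) := by
  rintro ⟨a, k⟩ ⟨b, l⟩ h
  simp only [shift, AddMonoidHom.coe_mk, ZeroHom.coe_mk, Prod.mk.injEq] at h
  obtain ⟨h1, rfl⟩ := h
  rw [add_right_cancel h1]

variable {w : σ → Deg (QI N)}

theorem phi_isWH (hu : Function.Injective u) (hwu : ∀ c, w (u c) = (c, 1))
    (hw0 : ∀ v, v ∉ Set.range u → (w v).2 = 0) (hξ : H0 w ξ) {f : MvPolynomial σ ℚ}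
    {m : Deg (QI N)} (hf : IsWeightedHomogeneous w f m) :
    IsWeightedHomogeneous w (phi u ξ c0 f) (shift c0 m) := by
  refine isWH_algHom (phi u ξ c0) (shift c0) (fun v => ?_) hf
  by_cases hv : v ∈ Set.range u
  · obtain ⟨c, rfl⟩ := hv
    rw [phi_u u ξ c0 hu, hwu]
    have := (hξ c).mul (isWeightedHomogeneous_X ℚ w (u c0))
    rw [hwu] at this
    simpa [shift] using this
  · rw [phi_out u ξ c0 hv]
    have : shift c0 (w v) = w v := by
      simp [shift, hw0 v hv, Prod.ext_iff]
    rw [this]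
    exact isWeightedHomogeneous_X ℚ w v

theorem phi_det (hu : Function.Injective u) :
    phi u ξ c0 (mat (gen u)).det = X (u c0) ^ Fintype.card (Gam N) * (mat ξ).det := by
  rw [AlgHom.map_det, ← Matrix.det_smul]
  congr 1
  ext ε δ
  simp only [AlgHom.mapMatrix_apply, Matrix.map_apply, Matrix.smul_apply, mat, Matrix.of_apply,
    gen, map_mul, phi_u u ξ c0 hu, smul_eq_mul]
  rw [show phi u ξ c0 (coc (one1 N σ) (ε - δ) δ) = coc (one1 N σ) (ε - δ) δ from
    map_coc (phi u ξ c0).toRingHom _ _]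
  ring_nf

theorem kill_det_ne_zero (hu : Function.Injective u) (c : Gam N) :
    kill ({u c}ᶜ : Set σ) (mat (gen u)).det ≠ 0 := by
  classical
  rw [AlgHom.map_det]
  have e : (kill ({u c}ᶜ : Set σ)).mapMatrix (mat (gen u)) =
      mat (⟨Pi.single c (X (u c))⟩ : QT (one1 N σ)) := by
    ext ε δ
    simp only [AlgHom.mapMatrix_apply, Matrix.map_apply, mat, Matrix.of_apply, gen, map_mul]
    rw [show kill ({u c}ᶜ : Set σ) (coc (one1 N σ) (ε - δ) δ) = coc (one1 N σ) (ε - δ) δ from
      map_coc (kill ({u c}ᶜ : Set σ)).toRingHom _ _, kill_X]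
    rcases eq_or_ne (ε - δ) c with h | h
    · rw [h, Pi.single_eq_same, if_neg (by simp)]
    · rw [Pi.single_eq_of_ne h, if_pos (by simpa using hu.ne h)]
  rw [e]
  refine det_mat_ne_zero_of_inj _ fun y hy => QT.ext (funext fun δ => ?_)
  have := congrArg (fun x => QT.co x (c + δ)) hy
  simp only [QT.co_mul, QT.co_zero, Pi.zero_apply] at this
  rw [Finset.sum_eq_single c (fun γ _ h => by rw [Pi.single_eq_of_ne h, zero_mul, zero_mul])
    (fun h => absurd (Finset.mem_univ c) h), Pi.single_eq_same, add_sub_cancel_left] at this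
  simpa [X_ne_zero, coc_ne_zero] using this

end Graph

end Division

open Division

section Main

variable {N : ℕ} {σ : Type} [Fintype σ] [Nonempty (QI N)] {w : σ → Deg (QI N)}
  {u : Gam N → σ} {P Γ : Ideal (MvPolynomial σ ℚ)} {ξ : QT (one1 N σ)} {c0 : Gam N}

theorem ord_graph (hu : Function.Injective u) (hP : IsGrPrime w P)
    (hS : SuppOn (Set.range u)ᶜ P) (hξs : ∀ γ, ξ.co γ ∈ supported ℚ (Set.range u)ᶜ)
    (hΓ : IsGrPrime w Γ) (hPΓ : P ≤ Γ)
    (hB : ∀ c, X (u c) * ξ.co c0 - X (u c0) * ξ.co c ∈ Γ) (h0 : ξ.co c0 ∉ Γ) :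
    ord w P + Fintype.card (Gam N) ≤ ord w Γ + 1 := by
  classical
  let V : Finset (Gam N) → Set σ := fun F => (Set.range u)ᶜ ∪ u '' ↑(insert c0 F)
  have hchain : ∀ F : Finset (Gam N), c0 ∉ F → ord w P + F.card ≤ ord w (restrictTo (V F) Γ) := by
    intro F
    induction F using Finset.induction with
    | empty =>
      intro _
      rw [Finset.card_empty, add_zero]
      exact ord_mono w hP.1 (isGrPrime_restrictTo hΓ).1
        (le_restrictTo (hS.mono Set.subset_union_left) hPΓ) (isGrPrime_restrictTo hΓ).2.1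
    | insert a F ha ih =>
      intro hc
      simp only [Finset.mem_insert, not_or] at hc
      have hlt : restrictTo (V F) Γ < restrictTo (V (insert a F)) Γ := by
        have hsub : V F ⊆ V (insert a F) := Set.union_subset_union_right _ (Set.image_mono
          (Finset.coe_subset.2 (Finset.insert_subset_insert _ (Finset.subset_insert a F))))
        refine lt_of_le_of_ne (le_restrictTo (suppOn_restrictTo.mono hsub) restrictTo_le) fun e => ?_
        have hmem : X (u a) * ξ.co c0 - X (u c0) * ξ.co a ∈ restrictTo (V F) Γ := by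
          rw [e]
          refine Ideal.subset_span ⟨hB a, ?_⟩
          have h1 : ∀ c ∈ insert c0 (insert a F), (X (u c) : MvPolynomial σ ℚ) ∈
              supported ℚ (V (insert a F)) := fun c hc =>
            X_mem_supported.2 (Or.inr ⟨c, Finset.mem_coe.2 hc, rfl⟩)
          exact sub_mem
            (mul_mem (h1 a (by simp)) (supported_mono Set.subset_union_left (hξs c0)))
            (mul_mem (h1 c0 (by simp)) (supported_mono Set.subset_union_left (hξs a)))
        have haV : u a ∉ V F := by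
          rintro (h | ⟨c, hc', hca⟩)
          · exact h ⟨a, rfl⟩
          · rw [hu hca, Finset.mem_coe, Finset.mem_insert] at hc'
            exact hc'.elim (fun h => hc.1 h.symm) ha
        let ψ : ℚ → (MvPolynomial σ ℚ →ₐ[ℚ] MvPolynomial σ ℚ) := fun r =>
          aeval fun v => if v = u a then C r else X v
        have hψ : ∀ r v, v ∈ V F → ψ r (X v) = X v := fun r v hv => by
          simp only [ψ, aeval_X]
          exact if_neg fun h => haV (by rw [← h]; exact hv)
        have hval : ∀ r, ψ r (X (u a) * ξ.co c0 - X (u c0) * ξ.co a) =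
            C r * ξ.co c0 - X (u c0) * ξ.co a := fun r => by
          have hs : ∀ γ, ψ r (ξ.co γ) = ξ.co γ := fun γ =>
            algHom_eq_of_supported (ψ := AlgHom.id ℚ _)
              (fun v hv => hψ r v (Or.inl hv)) (hξs γ)
          rw [map_sub, map_mul, map_mul, hs, hs,
            hψ r (u c0) (Or.inr ⟨c0, by simp, rfl⟩)]
          simp [ψ]
        have hd := sub_mem (map_mem suppOn_restrictTo (ψ 1) (hψ 1) hmem)
          (map_mem suppOn_restrictTo (ψ 0) (hψ 0) hmem)
        rw [hval, hval, map_one, map_zero, one_mul, zero_mul, sub_sub_sub_cancel_right,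
          sub_zero] at hd
        exact h0 (restrictTo_le hd)
      have := ord_lt w (isGrPrime_restrictTo hΓ) (isGrPrime_restrictTo hΓ).1 hlt
        (isGrPrime_restrictTo hΓ).2.1
      have := ih hc.2
      rw [Finset.card_insert_of_notMem ha]
      omega
  have h1 := hchain (Finset.univ.erase c0) (Finset.notMem_erase _ _)
  have h2 := ord_mono w (isGrPrime_restrictTo (T := V (Finset.univ.erase c0)) hΓ).1 hΓ.1
    restrictTo_le hΓ.2.1
  rw [Finset.card_erase_of_mem (Finset.mem_univ _), Finset.card_univ] at h1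
  have := Fintype.card_pos (α := Gam N)
  omega

/-- All facts on the graph prime that enter the multidegree computation. -/
theorem false_of_graph (hw : ∀ v, ell (w v) ≠ 0) (hu : Function.Injective u)
    (hwu : ∀ c, w (u c) = (c, 1)) (hw0 : ∀ v, v ∉ Set.range u → (w v).2 = 0)
    (hP : IsGrPrime w P) (hS : SuppOn (Set.range u)ᶜ P) (hl : lam w (ord w P) P ≠ 0)
    (hξ : H0 w ξ) (hξs : ∀ γ, ξ.co γ ∈ supported ℚ (Set.range u)ᶜ) (h0P : ξ.co c0 ∉ P)
    (hΓ : IsGrPrime w Γ) (hPΓ : P ≤ Γ)
    (hB : ∀ c, X (u c) * ξ.co c0 - X (u c0) * ξ.co c ∈ Γ) (h0 : ξ.co c0 ∉ Γ)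
    (hX : (X (u c0) : MvPolynomial σ ℚ) ∉ Γ) (hD : (mat (gen u)).det ∈ Γ)
    (hkill : ∀ f ∈ Γ, kill (Set.range u) f ∈ P) : False := by
  classical
  let F : Finset σ := Finset.univ.image u
  have hF : (F : Set σ) = Set.range u := by simp [F]
  have hFT : ∀ v ∈ F, v ∉ (Set.range u)ᶜ := fun v hv => by
    simpa [F] using hv
  obtain ⟨hJ0, ho0, hl0⟩ := sup_span_X w hP hS F hFT
  rw [show F.card = Fintype.card (Gam N) from Finset.card_image_of_injective _ hu] at ho0 hl0
  rw [hF] at hJ0 ho0 hl0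
  rw [Finset.prod_image hu.injOn] at hl0
  have hXwh : IsWeightedHomogeneous w (X (u c0) : MvPolynomial σ ℚ) (w (u c0)) :=
    isWeightedHomogeneous_X ℚ w _
  have hJgr := hΓ.1.sup (isGr_span_singleton ⟨_, hXwh⟩)
  have hJle : Γ ⊔ Ideal.span {X (u c0)} ≤ P ⊔ Ideal.span (X '' Set.range u) := by
    refine sup_le (fun f hf => ?_) ((Ideal.span_singleton_le_iff_mem _).2
      (Ideal.mem_sup_right (Ideal.subset_span ⟨u c0, ⟨c0, rfl⟩, rfl⟩)))
    have := (mem_sup_span_X hS F hFT f).2 (by rw [hF]; exact hkill f hf)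
    rwa [hF] at this
  have hJne : Γ ⊔ Ideal.span {X (u c0)} ≠ ⊤ := fun e => hJ0.2.1 (top_unique (e ▸ hJle))
  have hcol : colonEl Γ (X (u c0)) = Γ := hΓ.colon ⟨_, hXwh⟩ hX
  have ho1 := ord_cut w hΓ.1 hXwh hcol hJne
  have ho2 := ord_mono w hJgr hJ0.1 hJle hJ0.2.1
  have ho3 := ord_graph hu hP hS hξs hΓ hPΓ hB h0
  have hoΓ : ord w Γ + 1 = ord w P + Fintype.card (Gam N) := by omega
  have hcolJ : colonEl (Γ ⊔ Ideal.span {X (u c0)}) (ξ.co c0) =
      P ⊔ Ideal.span (X '' Set.range u) := by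
    refine le_antisymm ?_ (sup_le (hPΓ.trans (le_sup_left.trans (le_colonEl _))) (Ideal.span_le.2 ?_))
    · intro g hg
      have hnot : ξ.co c0 ∉ P ⊔ Ideal.span (X '' Set.range u) := fun h => h0P (by
        rw [← hF, mem_sup_span_X hS F hFT, hF,
          kill_of_supported (T := (Set.range u)ᶜ) (fun v hv hv' => hv hv') (hξs c0)] at h
        exact h)
      rw [← hJ0.colon ⟨_, hξ c0⟩ hnot, mem_colonEl]
      exact hJle hg
    · rintro _ ⟨_, ⟨c, rfl⟩, rfl⟩
      rw [SetLike.mem_coe, mem_colonEl,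
        show X (u c) * ξ.co c0 = (X (u c) * ξ.co c0 - X (u c0) * ξ.co c) + ξ.co c * X (u c0) by
          ring]
      exact add_mem (Ideal.mem_sup_left (hB c))
        (Ideal.mem_sup_right (Ideal.mul_mem_left _ _ (Ideal.mem_span_singleton_self _)))
  have hcut := lam_cut w hΓ.1 hXwh hcol (le_refl (ord w Γ))
  have hsplit := lam_split w hJgr (hξ c0)
    (c := ord w P + Fintype.card (Gam N)) (by omega)
  rw [hcolJ, hl0, ← hoΓ, hcut, hoΓ] at hsplit
  simp only [hwu] at hsplit
  have hw0' : ∀ v ∈ (Set.range u)ᶜ, (w v).2 = 0 := hw0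
  have hrest : lam w (ord w P + Fintype.card (Gam N))
      (Γ ⊔ Ideal.span {X (u c0)} ⊔ Ideal.span {ξ.co c0}) ∈ mpow (QI N) (ord w P + 1) := by
    have hξg := isGr_span_singleton (w := w) (f := ξ.co c0) ⟨_, hξ c0⟩
    by_cases hJ1 : Γ ⊔ Ideal.span {X (u c0)} ⊔ Ideal.span {ξ.co c0} = ⊤
    · rw [hJ1, lam_top]; exact zero_mem _
    refine lam_mem_mpow w hw (hJgr.sup hξg) (hP.1.sup hξg)
      (hS.sup (suppOn_span_singleton (hξs c0))) hw0'
      (sup_le_sup_right (hPΓ.trans le_sup_left) _) (fun hne => ?_) ?_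
    · refine ord_lt w hP (hP.1.sup hξg) (lt_of_le_of_ne le_sup_left fun e => h0P ?_) hne
      rw [e]; exact Ideal.mem_sup_right (Ideal.mem_span_singleton_self _)
    · have := ord_mono w hJgr (hJgr.sup hξg) le_sup_left hJ1
      omega
  have hPm : lam w (ord w P) P ∈ mpow (QI N) (ord w P) := by
    refine Ideal.pow_right_mono (Ideal.span_le.2 ?_) _ (lam_mem_pow w hw hP.1 hS le_rfl)
    rintro _ ⟨v, hv, rfl⟩
    exact ell_mem_span w (hw0' v hv)
  refine degree_contradiction (lG := lam w (ord w Γ) Γ) c0 hoΓ (lam_isHomogeneous w _) hPm hl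
    (lam_isHomogeneous w (ord w Γ)) (fun c => ?_) ?_
  · have := lam_mem_span_of_kill w hw hΓ.1 (suppOn_univ Γ) hD (kill_det_ne_zero u hu c)
      (le_refl (ord w Γ))
    rw [show (Set.univ : Set σ) \ {u c}ᶜ = {u c} by simp, Set.image_singleton,
      Ideal.mem_span_singleton, hwu] at this
    exact this
  · rw [hsplit, add_sub_cancel_left]
    exact hrest

end Main

theorem det_notMem {N : ℕ} {σ : Type} [Fintype σ] [Nonempty (QI N)] (w : σ → Deg (QI N))
    (hw : ∀ v, ell (w v) ≠ 0) (u : Gam N → σ) (hu : Function.Injective u)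
    (hwu : ∀ c, w (u c) = (c, 1)) (hw0 : ∀ v, v ∉ Set.range u → (w v).2 = 0)
    {P : Ideal (MvPolynomial σ ℚ)} (hP : IsGrPrime w P) (hS : SuppOn (Set.range u)ᶜ P)
    (hl : lam w (ord w P) P ≠ 0) {ξ : QT (one1 N σ)} (hξ : H0 w ξ)
    (hξs : ∀ γ, ξ.co γ ∈ supported ℚ (Set.range u)ᶜ) (hne : ∃ γ, ξ.co γ ∉ P) :
    (mat ξ).det ∉ P := by
  classical
  obtain ⟨c0, h0⟩ := hne
  intro hdet
  have hΓ : IsGrPrime w (P.comap (phi u ξ c0)) :=
    isGrPrime_comap (phi u ξ c0) (shift c0) (shift_injective c0)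
      (fun f m hf => phi_isWH u ξ c0 hu hwu hw0 hξ hf) hP
  refine false_of_graph (c0 := c0) hw hu hwu hw0 hP hS hl hξ hξs h0 hΓ
    (fun f hf => map_mem hS _ (fun v hv => phi_out u ξ c0 hv) hf) (fun c => ?_) ?_ ?_ ?_
    (fun f hf => ?_)
  · rw [Ideal.mem_comap, map_sub, map_mul, map_mul, phi_u u ξ c0 hu, phi_u u ξ c0 hu,
      phi_supp u ξ c0 (hξs c0), phi_supp u ξ c0 (hξs c)]
    ring_nf
    exact zero_mem _
  · rw [Ideal.mem_comap, phi_supp u ξ c0 (hξs c0)]; exact h0
  · rw [Ideal.mem_comap, phi_u u ξ c0 hu, ← mem_colonEl, hS.colon_X fun h => h ⟨c0, rfl⟩]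
    exact h0
  · rw [Ideal.mem_comap, phi_det u ξ c0 hu]
    exact Ideal.mul_mem_left _ _ hdet
  · have e : (kill (Set.range u)).comp (phi u ξ c0) = kill (Set.range u) := by
      refine MvPolynomial.algHom_ext fun v => ?_
      rw [AlgHom.comp_apply]
      by_cases hv : v ∈ Set.range u
      · obtain ⟨c, rfl⟩ := hv
        rw [phi_u u ξ c0 hu, map_mul, kill_X, kill_X, if_pos ⟨c0, rfl⟩, if_pos ⟨c, rfl⟩, mul_zero]
      · rw [phi_out u ξ c0 hv]
    rw [← e, AlgHom.comp_apply]
    exact map_mem hS _ (fun v hv => by rw [kill_X, if_neg hv]) (Ideal.mem_comap.1 hf)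

end Vale.Agent.P199.Full
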