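import Vale.Agent.P199.Full.Grade

/-!
Kurosh's problem for division rings, full disproof: ideals generated by polynomials in some of
the variables.
-/

noncomputable section

namespace Vale.Agent.P199.Full

open MvPolynomial

variable {σ M : Type} [AddCancelCommMonoid M] {w : σ → M} {T S : Set σ}
  {I J C P : Ideal (MvPolynomial σ ℚ)}

/-- The linear map with prescribed values on monomials. -/
def monMap (φ : (σ →₀ ℕ) → MvPolynomial σ ℚ) : MvPolynomial σ ℚ →ₗ[ℚ] MvPolynomial σ ℚ :=
  (basisMonomials σ ℚ).constr ℚ φ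

theorem monMap_monomial (φ : (σ →₀ ℕ) → MvPolynomial σ ℚ) (d : σ →₀ ℕ) (a : ℚ) :
    monMap φ (monomial d a) = a • φ d := by
  have h : monMap φ (monomial d (1 : ℚ)) = φ d := by
    rw [monMap, ← congrFun (coe_basisMonomials (σ := σ) (R := ℚ)) d]
    exact Module.Basis.constr_basis _ ℚ φ d
  rw [show monomial d a = a • monomial d (1 : ℚ) by rw [smul_monomial, smul_eq_mul, mul_one],
    map_smul, h]

/-- The part of an exponent inside `T`. -/
def inPart (T : Set σ) (d : σ →₀ ℕ) : σ →₀ ℕ :=
  open Classical in d.filter (· ∈ T)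

theorem inPart_apply (T : Set σ) (d : σ →₀ ℕ) (x : σ) [Decidable (x ∈ T)] :
    inPart T d x = if x ∈ T then d x else 0 := by
  classical
  simp only [inPart, Finsupp.filter_apply]
  congr 1

theorem inPart_add_compl (T : Set σ) (d : σ →₀ ℕ) : inPart T d + inPart Tᶜ d = d := by
  classical
  ext x
  rw [Finsupp.add_apply, inPart_apply, inPart_apply]
  by_cases h : x ∈ T <;> simp [h]

theorem inPart_add (T : Set σ) (d e : σ →₀ ℕ) : inPart T (d + e) = inPart T d + inPart T e := by
  classical
  ext x
  rw [Finsupp.add_apply, inPart_apply, inPart_apply, inPart_apply]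
  by_cases h : x ∈ T <;> simp [h]

theorem inPart_eq_self {d : σ →₀ ℕ} (h : ↑d.support ⊆ T) : inPart T d = d := by
  classical
  ext x
  rw [inPart_apply]
  by_cases hx : d x = 0
  · simp [hx]
  · rw [if_pos (h (Finsupp.mem_support_iff.2 hx))]

theorem inPart_eq_zero {d : σ →₀ ℕ} (h : ↑d.support ⊆ T) : inPart Tᶜ d = 0 := by
  classical
  ext x
  rw [inPart_apply]
  by_cases hx : d x = 0
  · simp [hx]
  · simp [h (Finsupp.mem_support_iff.2 hx)]

theorem support_inPart (T : Set σ) (d : σ →₀ ℕ) : ↑(inPart T d).support ⊆ T := by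
  classical
  intro x hx
  rw [Finset.mem_coe, Finsupp.mem_support_iff, inPart_apply] at hx
  by_contra h
  exact hx (if_neg h)

theorem supp_of_supported {g : MvPolynomial σ ℚ} (hg : g ∈ supported ℚ T) {d : σ →₀ ℕ}
    (hd : d ∈ g.support) : ↑d.support ⊆ T := fun x hx =>
  (mem_supported.1 hg) ((mem_vars_iff_mem_support x).2 ⟨d, hd, hx⟩)

theorem supported_of_supp {g : MvPolynomial σ ℚ} (h : ∀ d ∈ g.support, ↑d.support ⊆ T) :
    g ∈ supported ℚ T := mem_supported.2 fun x hx => by
  obtain ⟨d, hd, hxd⟩ := (mem_vars_iff_mem_support x).1 hx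
  exact h d hd hxd

theorem monomial_mem_supported {d : σ →₀ ℕ} (h : ↑d.support ⊆ T) (a : ℚ) :
    monomial d a ∈ supported ℚ T := supported_of_supp fun e he => by
  classical
  rw [support_monomial] at he
  split_ifs at he with ha
  · simp at he
  · rwa [Finset.mem_singleton.1 he]

/-- The coefficient of the monomial `μ` in the variables outside `T`. -/
def slice (T : Set σ) (μ : σ →₀ ℕ) : MvPolynomial σ ℚ →ₗ[ℚ] MvPolynomial σ ℚ :=
  open Classical in monMap fun d => if inPart Tᶜ d = μ then monomial (inPart T d) 1 else 0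

theorem slice_monomial [DecidableEq σ] (T : Set σ) (μ d : σ →₀ ℕ) (a : ℚ) :
    slice T μ (monomial d a) = if inPart Tᶜ d = μ then monomial (inPart T d) a else 0 := by
  classical
  rw [slice, monMap_monomial]
  split_ifs <;> simp [smul_monomial]

theorem slice_mul {g : MvPolynomial σ ℚ} (hg : g ∈ supported ℚ T) (μ : σ →₀ ℕ)
    (a : MvPolynomial σ ℚ) : slice T μ (a * g) = slice T μ a * g := by
  classical
  induction a using MvPolynomial.induction_on' with
  | add p q hp hq => rw [add_mul, map_add, map_add, hp, hq, add_mul]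
  | monomial d b =>
    conv_lhs => rw [g.as_sum]
    rw [Finset.mul_sum, map_sum]
    conv_rhs => rw [g.as_sum, Finset.mul_sum]
    refine Finset.sum_congr rfl fun e he => ?_
    have hs := supp_of_supported hg he
    rw [monomial_mul, slice_monomial, slice_monomial, inPart_add, inPart_add,
      inPart_eq_zero hs, inPart_eq_self hs, add_zero]
    split_ifs <;> simp [monomial_mul]

theorem slice_mem_supported (μ : σ →₀ ℕ) (f : MvPolynomial σ ℚ) :
    slice T μ f ∈ supported ℚ T := by
  classical
  induction f using MvPolynomial.induction_on' with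
  | add p q hp hq => rw [map_add]; exact add_mem hp hq
  | monomial d b =>
    rw [slice_monomial]
    split_ifs
    · exact monomial_mem_supported (support_inPart T d) b
    · exact zero_mem _

/-- The exponents outside `T` occurring in `f`. -/
def outs (T : Set σ) (f : MvPolynomial σ ℚ) : Finset (σ →₀ ℕ) :=
  open Classical in f.support.image (inPart Tᶜ)

theorem sum_slice (T : Set σ) (f : MvPolynomial σ ℚ) :
    ∑ μ ∈ outs T f, monomial μ (1 : ℚ) * slice T μ f = f := by
  classical
  conv_rhs => rw [f.as_sum]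
  conv_lhs =>
    arg 2
    ext μ
    rw [f.as_sum, map_sum, Finset.mul_sum]
  rw [Finset.sum_comm]
  refine Finset.sum_congr rfl fun d hd => ?_
  rw [Finset.sum_eq_single (inPart Tᶜ d)]
  · rw [slice_monomial, if_pos rfl, monomial_mul, one_mul, add_comm, inPart_add_compl]
  · intro μ _ h
    rw [slice_monomial, if_neg (Ne.symm h), mul_zero]
  · intro h
    exact absurd (Finset.mem_image_of_mem _ hd) h

theorem slice_monomial_mul {μ : σ →₀ ℕ} (hμ : ↑μ.support ⊆ Tᶜ) {g : MvPolynomial σ ℚ}
    (hg : g ∈ supported ℚ T) (κ : σ →₀ ℕ) [DecidableEq σ] :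
    slice T κ (monomial μ 1 * g) = if μ = κ then g else 0 := by
  classical
  have h0 : inPart T μ = 0 := by
    have := inPart_eq_zero (T := Tᶜ) hμ
    rwa [compl_compl] at this
  rw [slice_mul hg, slice_monomial, inPart_eq_self hμ, h0]
  split_ifs
  · rw [monomial_zero', map_one, one_mul]
  · rw [zero_mul]

theorem support_of_mem_outs {f : MvPolynomial σ ℚ} {μ : σ →₀ ℕ} (h : μ ∈ outs T f) :
    ↑μ.support ⊆ Tᶜ := by
  classical
  obtain ⟨d, -, rfl⟩ := Finset.mem_image.1 h
  exact support_inPart _ d

theorem SuppOn.slice_mem (hI : SuppOn T I) {f : MvPolynomial σ ℚ} (hf : f ∈ I) (μ : σ →₀ ℕ) :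
    slice T μ f ∈ I := by
  have h := hI hf
  refine Submodule.span_induction (p := fun x _ => ∀ ν, slice T ν x ∈ I) ?_ ?_ ?_ ?_ h μ |> fun h => h
  · intro x hx ν
    have := slice_mul hx.2 ν 1
    rw [one_mul] at this
    rw [this]
    exact I.mul_mem_left _ hx.1
  · intro ν; simp
  · intro x y _ _ hx hy ν; rw [map_add]; exact add_mem (hx ν) (hy ν)
  · intro a x hxs hx ν
    classical
    rw [smul_eq_mul, ← sum_slice T x, Finset.mul_sum, map_sum]
    refine Ideal.sum_mem _ fun κ _ => ?_
    rw [← mul_assoc, slice_mul (slice_mem_supported κ x)]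
    exact I.mul_mem_left _ (hx κ)

theorem mem_span_of_slices {f : MvPolynomial σ ℚ} (h : ∀ μ, slice T μ f ∈ I) :
    f ∈ Ideal.span ((I : Set (MvPolynomial σ ℚ)) ∩ (supported ℚ T : Set (MvPolynomial σ ℚ))) := by
  rw [← sum_slice T f]
  exact Ideal.sum_mem _ fun μ _ =>
    Ideal.mul_mem_left _ _ (Ideal.subset_span ⟨h μ, slice_mem_supported μ f⟩)

theorem suppOn_of_slices (h : ∀ f ∈ I, ∀ μ, slice T μ f ∈ I) : SuppOn T I :=
  fun f hf => mem_span_of_slices (h f hf)

theorem suppOn_span {G : Set (MvPolynomial σ ℚ)} (h : ∀ g ∈ G, g ∈ supported ℚ T) :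
    SuppOn T (Ideal.span G) :=
  Ideal.span_le.2 fun g hg => Ideal.subset_span ⟨Ideal.subset_span hg, h g hg⟩

theorem SuppOn.mono (hI : SuppOn S I) (h : S ⊆ T) : SuppOn T I := fun _ hf =>
  Ideal.span_mono (Set.inter_subset_inter_right _ (supported_mono h)) (hI hf)

theorem suppOn_univ (I : Ideal (MvPolynomial σ ℚ)) : SuppOn Set.univ I :=
  fun f hf => Ideal.subset_span ⟨hf, by simp [supported_univ]⟩

theorem suppOn_bot (T : Set σ) : SuppOn T (⊥ : Ideal (MvPolynomial σ ℚ)) := bot_le

theorem SuppOn.sup (hI : SuppOn T I) (hJ : SuppOn T J) : SuppOn T (I ⊔ J) :=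
  sup_le (hI.trans (Ideal.span_mono (Set.inter_subset_inter_left _ (le_sup_left : I ≤ I ⊔ J))))
    (hJ.trans (Ideal.span_mono (Set.inter_subset_inter_left _ (le_sup_right : J ≤ I ⊔ J))))

theorem suppOn_span_singleton {f : MvPolynomial σ ℚ} (hf : f ∈ supported ℚ T) :
    SuppOn T (Ideal.span {f}) :=
  suppOn_span fun g hg => by rw [Set.mem_singleton_iff.1 hg]; exact hf

theorem mem_colonEl {f g : MvPolynomial σ ℚ} : g ∈ colonEl I f ↔ g * f ∈ I := Iff.rfl

theorem le_colonEl (f : MvPolynomial σ ℚ) : I ≤ colonEl I f :=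
  fun _ hg => I.mul_mem_right f hg

theorem SuppOn.colon (hI : SuppOn T I) {f : MvPolynomial σ ℚ} (hf : f ∈ supported ℚ T) :
    SuppOn T (colonEl I f) :=
  suppOn_of_slices fun g hg μ => by
    rw [mem_colonEl, ← slice_mul hf]
    exact hI.slice_mem hg μ

theorem SuppOn.colon_X (hI : SuppOn T I) {v : σ} (hv : v ∉ T) : colonEl I (X v) = I := by
  classical
  refine le_antisymm (fun g hg => ?_) (le_colonEl _)
  rw [← sum_slice T g]
  refine Ideal.sum_mem _ fun μ hμ => Ideal.mul_mem_left _ _ ?_
  have h := hI.slice_mem (mem_colonEl.1 hg) (μ + Finsupp.single v 1)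
  have e : g * X v = ∑ ν ∈ outs T g, monomial (ν + Finsupp.single v 1) 1 * slice T ν g := by
    conv_lhs => rw [← sum_slice T g, Finset.sum_mul]
    refine Finset.sum_congr rfl fun ν _ => ?_
    rw [X, mul_right_comm, monomial_mul, one_mul]
  rw [e, map_sum, Finset.sum_eq_single μ] at h
  · rwa [slice_monomial_mul ?_ (slice_mem_supported μ g), if_pos rfl] at h
    intro x hx
    rcases Finset.mem_union.1 (Finsupp.support_add hx) with hx | hx
    · exact support_of_mem_outs hμ hx
    · rwa [Finset.mem_singleton.1 (Finsupp.support_single_subset hx)]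
  · intro ν hν hne
    rw [slice_monomial_mul ?_ (slice_mem_supported ν g), if_neg fun h => hne (add_right_cancel h)]
    intro x hx
    rcases Finset.mem_union.1 (Finsupp.support_add hx) with hx | hx
    · exact support_of_mem_outs hν hx
    · rwa [Finset.mem_singleton.1 (Finsupp.support_single_subset hx)]
  · exact fun h => absurd hμ h

/-! ### Homogeneity -/

theorem hom_mul {f g : MvPolynomial σ ℚ} (hf : Hom w f) (hg : Hom w g) : Hom w (f * g) :=
  ⟨_, hf.choose_spec.mul hg.choose_spec⟩

theorem hom_monomial (d : σ →₀ ℕ) (a : ℚ) : Hom w (monomial d a) :=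
  ⟨_, isWeightedHomogeneous_monomial w d a rfl⟩

theorem hom_X (v : σ) : Hom w (X v : MvPolynomial σ ℚ) := ⟨_, isWeightedHomogeneous_X ℚ w v⟩

theorem comp_of_isWH {f : MvPolynomial σ ℚ} {m : M} (hf : IsWeightedHomogeneous w f m) (n : M) :
    weightedHomogeneousComponent w n f = 0 ∨ weightedHomogeneousComponent w n f = f := by
  classical
  by_cases h : m = n
  · exact Or.inr (h ▸ weightedHomogeneousComponent_of_mem hf |>.trans (if_pos rfl))
  · exact Or.inl ((weightedHomogeneousComponent_of_mem hf).trans (if_neg (Ne.symm h)))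

theorem isGr_span {G : Set (MvPolynomial σ ℚ)} (h : ∀ g ∈ G, Hom w g) :
    IsGr w (Ideal.span G) := by
  classical
  intro f hf
  induction hf using Submodule.span_induction with
  | mem x hx =>
    intro m
    obtain ⟨n, hn⟩ := h x hx
    rcases comp_of_isWH hn m with e | e <;> rw [e]
    · exact zero_mem _
    · exact Ideal.subset_span hx
  | zero => intro m; simp
  | add x y _ _ hx hy => intro m; rw [map_add]; exact add_mem (hx m) (hy m)
  | smul a x hxs hx =>
    intro m
    rw [smul_eq_mul]
    induction a using MvPolynomial.induction_on' with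
    | add p q hp hq => rw [add_mul, map_add]; exact add_mem hp hq
    | monomial d b =>
      have e : monomial d b * x = ∑ n ∈ x.support.image (Finsupp.weight w),
          monomial d b * weightedHomogeneousComponent w n x := by
        conv_lhs => rw [← sum_weightedHomogeneousComponent w x,
          finsum_eq_sum_of_support_subset _ (s := x.support.image (Finsupp.weight w)) (fun n hn => by
            by_contra hne
            refine hn (weightedHomogeneousComponent_eq_zero' _ _ fun d hd he => hne ?_)
            rw [Finset.mem_coe, Finset.mem_image]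
            exact ⟨d, hd, he⟩)]
        rw [Finset.mul_sum]
      rw [e, map_sum]
      refine Ideal.sum_mem _ fun n _ => ?_
      obtain ⟨k, hk⟩ := hom_mul (hom_monomial (w := w) d b)
        ⟨n, weightedHomogeneousComponent_isWeightedHomogeneous (w := w) n x⟩
      rcases comp_of_isWH hk m with e | e <;> rw [e]
      · exact zero_mem _
      · exact Ideal.mul_mem_left _ _ (hx n)

theorem IsGr.mem_of_components (f : MvPolynomial σ ℚ)
    (h : ∀ m, weightedHomogeneousComponent w m f ∈ I) : f ∈ I := by
  classical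
  rw [← sum_weightedHomogeneousComponent w f]
  exact finsum_induction (· ∈ I) (zero_mem _) (fun _ _ => add_mem) h

theorem IsGr.sup (hI : IsGr w I) (hJ : IsGr w J) : IsGr w (I ⊔ J) := by
  intro f hf m
  obtain ⟨a, ha, b, hb, rfl⟩ := Submodule.mem_sup.1 hf
  rw [map_add]
  exact add_mem (Ideal.mem_sup_left (hI a ha m)) (Ideal.mem_sup_right (hJ b hb m))

theorem isGr_bot : IsGr w (⊥ : Ideal (MvPolynomial σ ℚ)) := fun f hf m => by
  rw [Ideal.mem_bot.1 hf, map_zero]; exact zero_mem _

theorem isGr_span_singleton {f : MvPolynomial σ ℚ} (hf : Hom w f) : IsGr w (Ideal.span {f}) :=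
  isGr_span fun g hg => by rw [Set.mem_singleton_iff.1 hg]; exact hf

theorem comp_mul {f g : MvPolynomial σ ℚ} {m : M} (hf : IsWeightedHomogeneous w f m) (n : M) :
    weightedHomogeneousComponent w (n + m) (g * f) = weightedHomogeneousComponent w n g * f := by
  classical
  induction g using MvPolynomial.induction_on' with
  | add p q hp hq => rw [add_mul, map_add, map_add, hp, hq, add_mul]
  | monomial d b =>
    have hd := isWeightedHomogeneous_monomial w d b rfl
    rw [weightedHomogeneousComponent_of_mem (hd.mul hf), weightedHomogeneousComponent_of_mem hd]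
    simp only [add_left_inj]
    split_ifs <;> simp

theorem IsGr.colon (hI : IsGr w I) {f : MvPolynomial σ ℚ} {m : M}
    (hf : IsWeightedHomogeneous w f m) : IsGr w (colonEl I f) := fun g hg n => by
  rw [mem_colonEl, ← comp_mul hf]
  exact hI _ hg _

theorem IsGrPrime.colon (hP : IsGrPrime w P) {f : MvPolynomial σ ℚ} (hf : Hom w f) (hfP : f ∉ P) :
    colonEl P f = P := by
  refine le_antisymm (fun g hg => IsGr.mem_of_components (w := w) g fun m => ?_) (le_colonEl _)
  obtain ⟨n, hn⟩ := hf
  exact (hP.2.2 _ _ ⟨m, weightedHomogeneousComponent_isWeightedHomogeneous (w := w) m g⟩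
    ⟨n, hn⟩ ((hP.1.colon hn) g hg m)).resolve_right hfP

theorem hom_slice {f : MvPolynomial σ ℚ} (hf : Hom w f) (μ : σ →₀ ℕ) : Hom w (slice T μ f) := by
  classical
  obtain ⟨m, hm⟩ := hf
  by_cases h0 : slice T μ f = 0
  · exact ⟨0, by rw [h0]; exact isWeightedHomogeneous_zero ℚ w 0⟩
  obtain ⟨d0, hd0⟩ := ne_zero_iff.1 h0
  refine ⟨Finsupp.weight w d0, ?_⟩
  have key : ∀ e, coeff e (slice T μ f) ≠ 0 → Finsupp.weight w e + Finsupp.weight w μ = m := by
    intro e he
    rw [f.as_sum, map_sum, coeff_sum] at he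
    obtain ⟨d, hd, hde⟩ := Finset.exists_ne_zero_of_sum_ne_zero he
    rw [slice_monomial] at hde
    split_ifs at hde with hμ
    · rw [coeff_monomial] at hde
      split_ifs at hde with he'
      · rw [← he', ← hμ, ← map_add, inPart_add_compl]
        exact hm (mem_support_iff.1 hd)
      · exact absurd rfl hde
    · exact absurd (coeff_zero e) hde
  intro e he
  exact add_right_cancel ((key e he).trans (key d0 hd0).symm)

theorem isGrPrime_of_supported [Fintype σ] (hI : IsGr w I) (hS : SuppOn T I) (hne : I ≠ ⊤)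
    (h : ∀ f g, f ∈ supported ℚ T → g ∈ supported ℚ T → Hom w f → Hom w g → f * g ∈ I →
      f ∈ I ∨ g ∈ I) : IsGrPrime w I := by
  classical
  refine ⟨hI, hne, fun f g hf hg hfg => ?_⟩
  by_contra hcon
  push Not at hcon
  let φ : (σ →₀ ℕ) → Lex (Fin (Fintype.card σ) → ℕ) :=
    fun d => toLex fun k => d ((Fintype.equivFin σ).symm k)
  have hφadd : ∀ a b, φ (a + b) = φ a + φ b := fun _ _ => rfl
  have hφinj : Function.Injective φ := fun a b hab => Finsupp.ext fun x => by
    simpa [φ] using congrFun (toLex.injective hab) (Fintype.equivFin σ x)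
  have hne' : ∀ q : MvPolynomial σ ℚ, q ∉ I →
      ((outs T q).filter fun μ => slice T μ q ∉ I).Nonempty := by
    intro q hq
    by_contra hemp
    rw [Finset.not_nonempty_iff_eq_empty, Finset.filter_eq_empty_iff] at hemp
    refine hq ?_
    rw [← sum_slice T q]
    exact Ideal.sum_mem _ fun μ hμ => Ideal.mul_mem_left _ _ (not_not.1 (hemp hμ))
  obtain ⟨μ0, hμ0, hμmax⟩ := Finset.exists_max_image _ φ (hne' f hcon.1)
  obtain ⟨ν0, hν0, hνmax⟩ := Finset.exists_max_image _ φ (hne' g hcon.2)
  rw [Finset.mem_filter] at hμ0 hν0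
  have hk := hS.slice_mem hfg (μ0 + ν0)
  rw [← sum_slice T f, ← sum_slice T g, Finset.sum_mul_sum, map_sum] at hk
  simp only [map_sum] at hk
  have hterm : ∀ μ ∈ outs T f, ∀ ν ∈ outs T g,
      slice T (μ0 + ν0) (monomial μ 1 * slice T μ f * (monomial ν 1 * slice T ν g)) =
        if μ + ν = μ0 + ν0 then slice T μ f * slice T ν g else 0 := by
    intro μ hμ ν hν
    rw [mul_mul_mul_comm, monomial_mul, one_mul, slice_monomial_mul ?_
      (mul_mem (slice_mem_supported μ f) (slice_mem_supported ν g))]
    intro x hx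
    rcases Finset.mem_union.1 (Finsupp.support_add hx) with hx | hx
    · exact support_of_mem_outs hμ hx
    · exact support_of_mem_outs hν hx
  rw [Finset.sum_congr rfl fun μ hμ => Finset.sum_congr rfl fun ν hν => hterm μ hμ ν hν,
    ← Finset.sum_product'] at hk
  have hmem : (μ0, ν0) ∈ outs T f ×ˢ outs T g := Finset.mem_product.2 ⟨hμ0.1, hν0.1⟩
  rw [← Finset.add_sum_erase _ _ hmem, if_pos rfl] at hk
  have hrest : ∑ p ∈ (outs T f ×ˢ outs T g).erase (μ0, ν0),
      (if p.1 + p.2 = μ0 + ν0 then slice T p.1 f * slice T p.2 g else 0) ∈ I := by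
    refine Ideal.sum_mem _ fun p hp => ?_
    obtain ⟨hp1, hp2⟩ := Finset.mem_erase.1 hp
    rw [Finset.mem_product] at hp2
    split_ifs with he
    · by_cases h1 : slice T p.1 f ∈ I
      · exact Ideal.mul_mem_right _ _ h1
      by_cases h2 : slice T p.2 g ∈ I
      · exact Ideal.mul_mem_left _ _ h2
      exfalso
      have a1 := hμmax p.1 (Finset.mem_filter.2 ⟨hp2.1, h1⟩)
      have a2 := hνmax p.2 (Finset.mem_filter.2 ⟨hp2.2, h2⟩)
      have a3 : φ p.1 + φ p.2 = φ μ0 + φ ν0 := by rw [← hφadd, ← hφadd, he]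
      obtain ⟨e1, e2⟩ := (add_eq_add_iff_eq_and_eq a1 a2).1 a3
      exact hp1 (Prod.ext (hφinj e1) (hφinj e2))
    · exact zero_mem _
  rcases h _ _ (slice_mem_supported μ0 f) (slice_mem_supported ν0 g) (hom_slice hf μ0)
      (hom_slice hg ν0) ((Submodule.add_mem_iff_left _ hrest).1 hk) with h1 | h1
  · exact hμ0.2 h1
  · exact hν0.2 h1

/-- The part of an ideal in the variables of `T`. -/
def restrictTo (T : Set σ) (P : Ideal (MvPolynomial σ ℚ)) : Ideal (MvPolynomial σ ℚ) :=
  Ideal.span ((P : Set (MvPolynomial σ ℚ)) ∩ (supported ℚ T : Set (MvPolynomial σ ℚ)))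

theorem restrictTo_le : restrictTo T P ≤ P := Ideal.span_le.2 Set.inter_subset_left

theorem suppOn_restrictTo : SuppOn T (restrictTo T P) := suppOn_span fun _ hg => hg.2

theorem le_restrictTo (hI : SuppOn T I) (h : I ≤ P) : I ≤ restrictTo T P := fun f hf =>
  Ideal.span_mono (fun _ hx => Set.mem_inter (h hx.1) hx.2) (hI hf)

theorem isGrPrime_restrictTo [Fintype σ] (hP : IsGrPrime w P) :
    IsGrPrime w (restrictTo T P) := by
  have hgr : IsGr w (restrictTo T P) := by
    classical
    have e : restrictTo T P = Ideal.span {g | (g ∈ P ∧ g ∈ supported ℚ T) ∧ Hom w g} := by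
      refine le_antisymm (Ideal.span_le.2 fun g hg => ?_) (Ideal.span_mono fun g hg => hg.1)
      refine IsGr.mem_of_components (w := w) g fun m => Ideal.subset_span ⟨⟨hP.1 g hg.1 m, ?_⟩,
        ⟨m, weightedHomogeneousComponent_isWeightedHomogeneous (w := w) m g⟩⟩
      refine supported_of_supp fun d hd => supp_of_supported hg.2 ?_
      rw [mem_support_iff, coeff_weightedHomogeneousComponent] at hd
      rw [mem_support_iff]
      split_ifs at hd with h
      · exact hd
      · exact absurd rfl hd
    rw [e]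
    exact isGr_span fun g hg => hg.2
  refine isGrPrime_of_supported hgr suppOn_restrictTo
    (fun h => hP.2.1 (top_unique (h ▸ restrictTo_le))) fun f g hf hg h1 h2 hfg => ?_
  rcases hP.2.2 f g h1 h2 (restrictTo_le hfg) with h | h
  · exact Or.inl (Ideal.subset_span ⟨h, hf⟩)
  · exact Or.inr (Ideal.subset_span ⟨h, hg⟩)

/-! ### Two disjoint sets of variables -/

theorem exists_proj (hC : SuppOn Tᶜ C) : ∃ pr : MvPolynomial σ ℚ →ₗ[ℚ] MvPolynomial σ ℚ,
    (∀ a g, g ∈ supported ℚ T → pr (a * g) = pr a * g) ∧ (∀ b, b - pr b ∈ C) ∧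
      (∀ b ∈ C, pr b = 0) ∧ pr 1 ∈ supported ℚ Tᶜ := by
  classical
  let S' : Submodule ℚ (MvPolynomial σ ℚ) := Subalgebra.toSubmodule (supported ℚ Tᶜ)
  let C0 : Submodule ℚ (MvPolynomial σ ℚ) := C.restrictScalars ℚ ⊓ S'
  obtain ⟨W, hW⟩ := Submodule.exists_isCompl C0
  let π : MvPolynomial σ ℚ →ₗ[ℚ] MvPolynomial σ ℚ :=
    LinearMap.id - C0.subtype.comp (C0.projectionOnto W hW)
  have hπsub : ∀ x, x - π x ∈ C0 := fun x => by
    have : x - π x = ((C0.projectionOnto W hW x : C0) : MvPolynomial σ ℚ) := by simp [π]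
    rw [this]
    exact Submodule.coe_mem _
  have hπ0 : ∀ x ∈ C0, π x = 0 := fun x hx => by
    simp only [π, LinearMap.sub_apply, LinearMap.id_apply, LinearMap.comp_apply,
      Submodule.subtype_apply]
    rw [show x = ((⟨x, hx⟩ : C0) : MvPolynomial σ ℚ) from rfl,
      Submodule.projectionOnto_apply_left, sub_self]
  let pr := monMap fun d => monomial (inPart T d) 1 * π (monomial (inPart Tᶜ d) 1)
  have hmon : ∀ d a, pr (monomial d a) =
      a • (monomial (inPart T d) 1 * π (monomial (inPart Tᶜ d) 1)) := monMap_monomial _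
  have hlin : ∀ a g, g ∈ supported ℚ T → pr (a * g) = pr a * g := by
    intro a g hg
    induction a using MvPolynomial.induction_on' with
    | add p q hp hq => rw [add_mul, map_add, map_add, hp, hq, add_mul]
    | monomial d b =>
      conv_lhs => rw [g.as_sum]
      rw [Finset.mul_sum, map_sum]
      conv_rhs => rw [g.as_sum, Finset.mul_sum]
      refine Finset.sum_congr rfl fun e he => ?_
      have hs := supp_of_supported hg he
      rw [monomial_mul, hmon, hmon, inPart_add, inPart_add, inPart_eq_self hs, inPart_eq_zero hs,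
        add_zero]
      rw [show monomial (inPart T d + e) (1 : ℚ) = monomial (inPart T d) 1 * monomial e 1 by
          rw [monomial_mul, mul_one],
        show monomial e (coeff e g) = coeff e g • monomial e (1 : ℚ) by
          rw [smul_monomial, smul_eq_mul, mul_one]]
      simp only [smul_mul_assoc, mul_smul_comm, smul_smul]
      rw [mul_comm b, mul_right_comm]
  have hcS : ∀ x ∈ supported ℚ Tᶜ, pr x = π x := by
    intro x hx
    conv_lhs => rw [x.as_sum, map_sum]
    conv_rhs => rw [x.as_sum, map_sum]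
    refine Finset.sum_congr rfl fun d hd => ?_
    have hs := supp_of_supported hx hd
    have h0 : inPart T d = 0 := by
      have := inPart_eq_zero (T := Tᶜ) hs
      rwa [compl_compl] at this
    rw [hmon, inPart_eq_self hs, h0, monomial_zero', map_one, one_mul, ← map_smul, smul_monomial,
      smul_eq_mul, mul_one]
  have hsub : ∀ b, b - pr b ∈ C := by
    intro b
    induction b using MvPolynomial.induction_on' with
    | add p q hp hq => rw [map_add, add_sub_add_comm]; exact add_mem hp hq
    | monomial d a =>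
      have : monomial d a - pr (monomial d a) = a • (monomial (inPart T d) 1 *
          (monomial (inPart Tᶜ d) 1 - π (monomial (inPart Tᶜ d) 1))) := by
        rw [hmon, mul_sub, smul_sub, monomial_mul, one_mul, inPart_add_compl, smul_monomial,
          smul_eq_mul, mul_one]
      rw [this, Algebra.smul_def]
      exact C.mul_mem_left _ (C.mul_mem_left _ (hπsub _).1)
  have hker : ∀ b ∈ C, pr b = 0 := by
    intro b hb
    induction hC hb using Submodule.span_induction with
    | mem x hx => rw [hcS x hx.2]; exact hπ0 x ⟨hx.1, hx.2⟩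
    | zero => exact map_zero _
    | add x y _ _ hx hy =>
      rw [map_add, hx (Ideal.span_le.2 Set.inter_subset_left ‹_›),
        hy (Ideal.span_le.2 Set.inter_subset_left ‹_›), add_zero]
    | smul a x hxs hx =>
      have hxC : x ∈ C := Ideal.span_le.2 Set.inter_subset_left hxs
      rw [smul_eq_mul, ← sum_slice Tᶜ a, Finset.sum_mul, map_sum]
      refine Finset.sum_eq_zero fun μ hμ => ?_
      have hμT : ↑μ.support ⊆ T := by simpa using support_of_mem_outs hμ
      rw [mul_assoc, mul_comm, hlin _ _ (monomial_mem_supported hμT 1)]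
      have hslice : ∀ q ∈ supported ℚ Tᶜ, pr (q * x) = 0 := by
        intro q hq
        have key : ∀ y ∈ Ideal.span ((C : Set (MvPolynomial σ ℚ)) ∩
            (supported ℚ Tᶜ : Set (MvPolynomial σ ℚ))), ∀ q ∈ supported ℚ Tᶜ, pr (q * y) = 0 := by
          intro y hy
          induction hy using Submodule.span_induction with
          | mem z hz =>
            intro q hq
            rw [hcS _ (mul_mem hq hz.2)]
            exact hπ0 _ ⟨C.mul_mem_left q hz.1, (mul_mem hq hz.2 : q * z ∈ supported ℚ Tᶜ)⟩
          | zero => intro q _; rw [mul_zero, map_zero]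
          | add u v _ _ hu hv => intro q hq; rw [mul_add, map_add, hu q hq, hv q hq, add_zero]
          | smul r z _ hz =>
            intro q hq
            rw [smul_eq_mul, ← sum_slice Tᶜ r, Finset.sum_mul, Finset.mul_sum, map_sum]
            refine Finset.sum_eq_zero fun ν hν => ?_
            have hνT : ↑ν.support ⊆ T := by simpa using support_of_mem_outs hν
            rw [show q * (monomial ν 1 * slice Tᶜ ν r * z) =
              q * slice Tᶜ ν r * z * monomial ν 1 by ring,
              hlin _ _ (monomial_mem_supported hνT 1),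
              hz _ (mul_mem hq (slice_mem_supported ν r)), zero_mul]
        exact key x hxs q hq
      rw [hslice _ (slice_mem_supported μ a), zero_mul]
  have hone : pr 1 ∈ supported ℚ Tᶜ := by
    rw [hcS 1 (one_mem _), ← sub_sub_cancel (1 : MvPolynomial σ ℚ) (π 1)]
    exact sub_mem (one_mem _) (hπsub 1).2
  exact ⟨pr, hlin, hsub, hker, hone⟩

theorem colonEl_sup (hC : SuppOn Tᶜ C) (hI : SuppOn T I) {f : MvPolynomial σ ℚ}
    (hf : f ∈ supported ℚ T) : colonEl (C ⊔ I) f = C ⊔ colonEl I f := by
  obtain ⟨pr, hlin, hsub, hker, -⟩ := exists_proj hC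
  refine le_antisymm (fun b hb => ?_) (sup_le ?_ ?_)
  · obtain ⟨c, hc, i, hi, he⟩ := Submodule.mem_sup.1 (mem_colonEl.1 hb)
    have hpi : ∀ x ∈ I, pr x ∈ I := by
      intro x hx
      have key : ∀ y ∈ Ideal.span ((I : Set (MvPolynomial σ ℚ)) ∩
          (supported ℚ T : Set (MvPolynomial σ ℚ))), ∀ a, pr (a * y) ∈ I := by
        intro y hy
        induction hy using Submodule.span_induction with
        | mem z hz => intro a; rw [hlin a z hz.2]; exact I.mul_mem_left _ hz.1
        | zero => intro a; simp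
        | add u v _ _ hu hv => intro a; rw [mul_add, map_add]; exact add_mem (hu a) (hv a)
        | smul r z _ hz => intro a; rw [smul_eq_mul, ← mul_assoc]; exact hz _
      simpa using key x (hI hx) 1
    rw [← sub_add_cancel b (pr b)]
    refine add_mem (Ideal.mem_sup_left (hsub b)) (Ideal.mem_sup_right ?_)
    rw [mem_colonEl, ← hlin b f hf, ← he, map_add, hker c hc, zero_add]
    exact hpi i hi
  · exact le_sup_left.trans (le_colonEl f)
  · intro b hb
    exact Ideal.mem_sup_right hb

theorem sup_ne_top (hC : SuppOn Tᶜ C) (hI : SuppOn T I) (hC' : C ≠ ⊤) (hI' : I ≠ ⊤) :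
    C ⊔ I ≠ ⊤ := by
  classical
  intro h
  obtain ⟨pr, hlin, hsub, hker, hone⟩ := exists_proj hC
  have h1 : (1 : MvPolynomial σ ℚ) ∈ colonEl (C ⊔ I) 1 := by rw [mem_colonEl, h]; trivial
  obtain ⟨c, hc, i, hi, he⟩ := Submodule.mem_sup.1 (show (1 : MvPolynomial σ ℚ) ∈ C ⊔ I by
    rw [h]; trivial)
  have hi1 : pr 1 ∈ I := by
    rw [← he, map_add, hker c hc, zero_add]
    rw [← sum_slice T i, map_sum]
    refine Ideal.sum_mem _ fun μ _ => ?_
    rw [hlin _ _ (slice_mem_supported μ i)]
    exact I.mul_mem_left _ (hI.slice_mem hi μ)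
  have hz : pr 1 = 0 := by
    rw [← sum_slice T (pr 1)]
    refine Finset.sum_eq_zero fun μ _ => ?_
    have hsup : slice T μ (pr 1) ∈ supported ℚ (∅ : Set σ) := by
      rw [(pr 1).as_sum, map_sum]
      refine Subalgebra.sum_mem _ fun d hd => ?_
      have hs := supp_of_supported hone hd
      have h0 : inPart T d = 0 := by
        have := inPart_eq_zero (T := Tᶜ) hs
        rwa [compl_compl] at this
      rw [slice_monomial, h0]
      split_ifs
      · exact monomial_mem_supported (by simp) _
      · exact zero_mem _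
    rw [supported_empty, Algebra.mem_bot] at hsup
    obtain ⟨a, ha⟩ := hsup
    have : slice T μ (pr 1) = 0 := by
      by_contra hne
      refine hI' (Ideal.eq_top_of_isUnit_mem _ (hI.slice_mem hi1 μ) ?_)
      rw [← ha] at hne ⊢
      exact (isUnit_iff_ne_zero.2 fun h0 => hne (by rw [h0, map_zero])).map _
    rw [this, mul_zero]
  refine hC' ((Ideal.eq_top_iff_one _).2 ?_)
  have := hsub 1
  rwa [hz, sub_zero] at this

end Vale.Agent.P199.Full
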