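import Vale.Agent.P199.Full.Invariant
import Vale.Agent.P199.Full.Slice

/-!
Kurosh's problem for division rings, full disproof: elimination of one variable at a time in the
computation of the multidegree.
-/

noncomputable section

namespace Vale.Agent.P199.Full

open MvPolynomial

/-- `b`-th power of the ideal of the class variables: homogeneous elements of degree `c` in it
have degree at most `c - b` in `X none`. -/
def mpow (ι : Type) (b : ℕ) : Ideal (F2X ι) :=
  (Ideal.span (Set.range fun j : ι => (X (some j) : F2X ι))) ^ b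

/-- Setting the variables of a set to zero. -/
def kill {σ : Type} (E : Set σ) : MvPolynomial σ ℚ →ₐ[ℚ] MvPolynomial σ ℚ :=
  open Classical in aeval fun u => if u ∈ E then 0 else X u

section Basic

variable {σ M : Type} [AddCancelCommMonoid M] {u : σ → M} {S T : Set σ}
  {I P : Ideal (MvPolynomial σ ℚ)}

theorem isWH_algHom (φ : MvPolynomial σ ℚ →ₐ[ℚ] MvPolynomial σ ℚ) (e : M →+ M)
    (h : ∀ v, IsWeightedHomogeneous u (φ (X v)) (e (u v))) {f : MvPolynomial σ ℚ} {m : M}
    (hf : IsWeightedHomogeneous u f m) : IsWeightedHomogeneous u (φ f) (e m) := by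
  classical
  rw [f.as_sum, map_sum]
  refine IsWeightedHomogeneous.sum _ _ _ fun d hd => ?_
  have hm : Finsupp.weight u d = m := hf (mem_support_iff.1 hd)
  rw [monomial_eq, map_mul, Finsupp.prod, map_prod, ← algebraMap_eq, AlgHom.commutes,
    algebraMap_eq]
  have := IsWeightedHomogeneous.prod d.support (fun v => φ (X v) ^ d v)
    (fun v => d v • e (u v)) (fun v _ => (h v).pow (d v))
  have e' : ∑ v ∈ d.support, d v • e (u v) = e m := by
    rw [← hm, Finsupp.weight_apply, Finsupp.sum, map_sum]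
    exact Finset.sum_congr rfl fun v _ => (map_nsmul e (d v) (u v)).symm
  rw [e'] at this
  simpa [map_pow] using (isWeightedHomogeneous_C u (coeff d f)).mul this

theorem isGrPrime_comap (φ : MvPolynomial σ ℚ →ₐ[ℚ] MvPolynomial σ ℚ) (e : M → M)
    (he : Function.Injective e)
    (hφ : ∀ f m, IsWeightedHomogeneous u f m → IsWeightedHomogeneous u (φ f) (e m))
    (hP : IsGrPrime u P) : IsGrPrime u (P.comap φ) := by
  classical
  refine ⟨fun f hf m => ?_, fun h => hP.2.1 ?_, fun f g hf hg hfg => ?_⟩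
  · have key : weightedHomogeneousComponent u (e m) (φ f) =
        φ (weightedHomogeneousComponent u m f) := by
      have hf' : ∀ g, weightedHomogeneousComponent u (e m) (φ g) =
          φ (weightedHomogeneousComponent u m g) := by
        intro g
        induction g using MvPolynomial.induction_on' with
        | monomial d a =>
          have hd := isWeightedHomogeneous_monomial u d a rfl
          rw [weightedHomogeneousComponent_of_mem (hφ _ _ hd),
            weightedHomogeneousComponent_of_mem hd]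
          simp only [he.eq_iff]
          split_ifs <;> simp
        | add p q hp hq => simp only [map_add, hp, hq]
      exact hf' f
    rw [Ideal.mem_comap, ← key]
    exact hP.1 _ hf _
  · rw [Ideal.eq_top_iff_one, ← map_one φ, ← Ideal.mem_comap, h]; trivial
  · rw [Ideal.mem_comap, map_mul] at hfg
    exact hP.2.2 _ _ ⟨_, hφ _ _ hf.choose_spec⟩ ⟨_, hφ _ _ hg.choose_spec⟩ hfg

theorem kill_X (E : Set σ) (v : σ) [Decidable (v ∈ E)] :
    kill E (X v) = if v ∈ E then 0 else X v := by
  rw [kill, aeval_X]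
  congr 1

theorem resVar_eq_kill (v : σ) : resVar v = kill ({v} : Set σ) := by
  classical
  refine MvPolynomial.algHom_ext fun x => ?_
  rw [kill_X, resVar, aeval_X]
  simp

theorem kill_isWH (E : Set σ) {f : MvPolynomial σ ℚ} {m : M} (hf : IsWeightedHomogeneous u f m) :
    IsWeightedHomogeneous u (kill E f) m := by
  classical
  refine isWH_algHom (kill E) (AddMonoidHom.id M) (fun v => ?_) hf
  rw [kill_X]
  split_ifs
  · exact isWeightedHomogeneous_zero ℚ u _
  · exact isWeightedHomogeneous_X ℚ u v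

theorem algHom_eq_of_supported {φ ψ : MvPolynomial σ ℚ →ₐ[ℚ] MvPolynomial σ ℚ}
    (h : ∀ v ∈ T, φ (X v) = ψ (X v)) {f : MvPolynomial σ ℚ} (hf : f ∈ supported ℚ T) :
    φ f = ψ f := by
  refine AlgHom.eqOn_adjoin_iff.2 ?_ hf
  rintro _ ⟨v, hv, rfl⟩
  exact h v hv

theorem kill_of_supported {E : Set σ} (h : ∀ v ∈ T, v ∉ E) {f : MvPolynomial σ ℚ}
    (hf : f ∈ supported ℚ T) : kill E f = f := by
  classical
  exact algHom_eq_of_supported (ψ := AlgHom.id ℚ _)
    (fun v hv => by rw [kill_X, if_neg (h v hv)]; rfl) hf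

theorem kill_mem_supported (E : Set σ) {f : MvPolynomial σ ℚ} (hf : f ∈ supported ℚ T) :
    kill E f ∈ supported ℚ (T \ E) := by
  classical
  have h : supported ℚ T ≤ (supported ℚ (T \ E)).comap (kill E) := by
    refine Algebra.adjoin_le ?_
    rintro _ ⟨v, hv, rfl⟩
    simp only [SetLike.mem_coe, Subalgebra.mem_comap, kill_X]
    split_ifs with hE
    · exact zero_mem _
    · exact Algebra.subset_adjoin ⟨v, ⟨hv, hE⟩, rfl⟩
  exact h hf

theorem span_inter_eq (hI : SuppOn T I) :
    Ideal.span ((I : Set (MvPolynomial σ ℚ)) ∩ (supported ℚ T : Set (MvPolynomial σ ℚ))) = I :=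
  le_antisymm (Ideal.span_le.2 Set.inter_subset_left) hI

theorem suppOn_res_diff (hI : SuppOn T I) (v : σ) : SuppOn (T \ {v}) (res v I) := by
  rw [res, ← span_inter_eq hI, Ideal.map_span]
  refine suppOn_span ?_
  rintro _ ⟨f, ⟨-, hf⟩, rfl⟩
  rw [resVar_eq_kill]
  exact kill_mem_supported _ hf

theorem res_eq_self {v : σ} (hI : SuppOn {v}ᶜ I) : res v I = I := by
  have h : ∀ f ∈ supported ℚ ({v}ᶜ : Set σ), resVar v f = f := fun f hf => by
    rw [resVar_eq_kill]
    exact kill_of_supported (T := ({v}ᶜ : Set σ)) (fun x hx hx' => hx hx') hf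
  conv_lhs => rw [res, ← span_inter_eq hI, Ideal.map_span]
  conv_rhs => rw [← span_inter_eq hI]
  congr 1
  refine (Set.image_congr fun f hf => h f hf.2).trans (Set.image_id' _)

theorem sub_kill_mem (E : Set σ) (f : MvPolynomial σ ℚ) :
    f - kill E f ∈ Ideal.span (X '' E : Set (MvPolynomial σ ℚ)) := by
  classical
  set J := Ideal.span (X '' E : Set (MvPolynomial σ ℚ)) with hJ
  have : Ideal.Quotient.mkₐ ℚ J f = (Ideal.Quotient.mkₐ ℚ J).comp (kill E) f := by
    refine DFunLike.congr_fun (MvPolynomial.algHom_ext fun v => ?_) f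
    rw [AlgHom.comp_apply, kill_X]
    split_ifs with hv
    · rw [map_zero]
      exact Ideal.Quotient.eq_zero_iff_mem.2 (Ideal.subset_span ⟨v, hv, rfl⟩)
    · rfl
  exact Ideal.Quotient.eq.1 this

theorem mem_sup_span_X (hPT : SuppOn T P) (F : Finset σ) (hF : ∀ v ∈ F, v ∉ T)
    (f : MvPolynomial σ ℚ) :
    f ∈ P ⊔ Ideal.span (X '' (F : Set σ)) ↔ kill (F : Set σ) f ∈ P := by
  classical
  refine ⟨fun hf => ?_, fun hf => ?_⟩
  · have h : P ⊔ Ideal.span (X '' (F : Set σ)) ≤ P.comap (kill (F : Set σ)) := by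
      refine sup_le ?_ (Ideal.span_le.2 ?_)
      · conv_lhs => rw [← span_inter_eq hPT]
        refine Ideal.span_le.2 fun g hg => ?_
        rw [SetLike.mem_coe, Ideal.mem_comap,
          kill_of_supported (fun v hv hv' => hF v hv' hv) hg.2]
        exact hg.1
      · rintro _ ⟨v, hv, rfl⟩
        rw [SetLike.mem_coe, Ideal.mem_comap, kill_X, if_pos hv]
        exact zero_mem _
    exact h hf
  · rw [show f = kill (F : Set σ) f + (f - kill (F : Set σ) f) by ring]
    exact add_mem (Ideal.mem_sup_left hf) (Ideal.mem_sup_right (sub_kill_mem _ f))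

end Basic

set_option linter.unusedSectionVars false

variable {σ ι : Type} [Fintype σ] [Fintype ι] [Nonempty ι] (w : σ → Deg ι)
  {I I₀ P : Ideal (MvPolynomial σ ℚ)} {S T E : Set σ}

theorem isGrPrime_bot : IsGrPrime w (⊥ : Ideal (MvPolynomial σ ℚ)) :=
  ⟨isGr_bot, bot_ne_top, fun f g _ _ h => by
    simpa only [Ideal.mem_bot, mul_eq_zero] using h⟩

theorem ord_bot : ord w (⊥ : Ideal (MvPolynomial σ ℚ)) = 0 := (lam_bot w).1

/-- One variable is eliminated from a prime. -/
theorem lam_step (hP : IsGrPrime w P) {v : σ} (hv : ell (w v) ≠ 0) :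
    (∃ c, ord w P = c + 1 ∧ c ≤ ord w (res v P) ∧
      lam w (ord w P) P = ell (w v) * lam w c (res v P)) ∨
    lam w (ord w P) P = 0 ∨
    (ord w P ≤ ord w (res v P) ∧ lam w (ord w P) P = lam w (ord w P) (res v P)) := by
  have hgr := hP.1.res v
  have hsupp : SuppOn ({v}ᶜ : Set σ) (res v P) := suppOn_res v P
  have hcol : colonEl (res v P) (X v) = res v P := hsupp.colon_X (by simp)
  have hX : IsWeightedHomogeneous w (X v : MvPolynomial σ ℚ) (w v) := isWeightedHomogeneous_X ℚ w v
  have hsup := (sup_span_X_res v P).symm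
  by_cases hvP : (X v : MvPolynomial σ ℚ) ∈ P
  · have hPe : P ⊔ Ideal.span {(X v : MvPolynomial σ ℚ)} = P :=
      sup_eq_left.2 ((Ideal.span_singleton_le_iff_mem _).2 hvP)
    rw [hPe] at hsup
    have hne : res v P ≠ ⊤ := fun h => hP.2.1 (by rw [← hsup, h, top_sup_eq])
    have ho := ord_sup_X w hgr (res_eq_self hsupp) hne
    rw [hsup] at ho
    refine Or.inl ⟨ord w (res v P), ho, le_rfl, ?_⟩
    have hl := lam_cut w hgr hX hcol (le_refl (ord w (res v P)))
    rwa [hsup, ← ho] at hl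
  · have hl := lam_cut w hP.1 hX (hP.colon ⟨_, hX⟩ hvP) (le_refl (ord w P))
    rw [← hsup] at hl
    by_cases hne : res v P = ⊤
    · rw [hne, top_sup_eq, lam_top] at hl
      exact Or.inr (Or.inl ((mul_eq_zero.1 hl.symm).resolve_left hv))
    · have hne' : P ⊔ Ideal.span {(X v : MvPolynomial σ ℚ)} ≠ ⊤ := by
        rw [← hsup]
        exact sup_ne_top (T := ({v} : Set σ)) hsupp (suppOn_span_singleton
          (Algebra.subset_adjoin ⟨v, rfl, rfl⟩)) hne
          (fun h => by
            have := (Ideal.span_singleton_eq_top.1 h).map (eval (0 : σ → ℚ))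
            simp at this)
      have ho := ord_cut w hP.1 hX (hP.colon ⟨_, hX⟩ hvP) hne'
      rw [← hsup, ord_sup_X w hgr (res_eq_self hsupp) hne] at ho
      have hle : ord w P ≤ ord w (res v P) := Nat.le_of_succ_le_succ ho
      rw [lam_cut w hgr hX hcol hle] at hl
      exact Or.inr (Or.inr ⟨hle, (mul_left_cancel₀ hv hl).symm⟩)

theorem exists_prime_of_notMem {S : Set σ} (hI : IsGr w I) (hS : SuppOn S I) {c : ℕ}
    (hc : c ≤ ord w I) {𝔞 : Ideal (F2X ι)} (h : lam w c I ∉ 𝔞) :
    ∃ P, IsGrPrime w P ∧ SuppOn S P ∧ I ≤ P ∧ ord w P = c ∧ lam w (ord w P) P ∉ 𝔞 := by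
  obtain ⟨P, hP, hPS, hle, ho, hl⟩ := exists_prime w hI hS hc 𝔞 h
  exact ⟨P, hP, hPS, hle, ho, ho ▸ hl⟩

theorem eq_bot_of_suppOn_empty (hP : P ≠ ⊤) (hS : SuppOn (∅ : Set σ) P) : P = ⊥ := by
  rw [← span_inter_eq hS, Ideal.span_eq_bot]
  rintro f ⟨hfP, hf⟩
  rw [SetLike.mem_coe, supported_empty, Algebra.mem_bot] at hf
  obtain ⟨a, rfl⟩ := hf
  by_contra h
  exact hP (Ideal.eq_top_of_isUnit_mem _ hfP
    ((isUnit_iff_ne_zero.2 fun h0 : a = 0 => h (by rw [h0, map_zero])).map _))

theorem lam_mem_pow (hw : ∀ v, ell (w v) ≠ 0) (hI : IsGr w I) (hS : SuppOn S I) {c : ℕ}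
    (hc : c ≤ ord w I) : lam w c I ∈ (Ideal.span ((fun v => ell (w v)) '' S)) ^ c := by
  classical
  obtain ⟨S, rfl⟩ : ∃ F : Finset σ, S = ↑F := ⟨S.toFinset, (Set.coe_toFinset S).symm⟩
  induction S using Finset.strongInduction generalizing I c with
  | _ S ih =>
    by_contra hcon
    obtain ⟨P, hP, hPS, -, rfl, hl⟩ := exists_prime_of_notMem w hI hS hc hcon
    rcases S.eq_empty_or_nonempty with rfl | ⟨v, hv⟩
    · rw [Finset.coe_empty] at hPS
      rw [eq_bot_of_suppOn_empty hP.2.1 hPS, ord_bot, pow_zero, Ideal.one_eq_top] at hl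
      exact hl trivial
    have hlt : S.erase v ⊂ S := Finset.erase_ssubset hv
    have hres : SuppOn (↑(S.erase v) : Set σ) (res v P) := by
      rw [Finset.coe_erase]; exact suppOn_res_diff hPS v
    have hmono : Ideal.span ((fun v => ell (w v)) '' ↑(S.erase v)) ≤
        Ideal.span ((fun v => ell (w v)) '' ↑S) :=
      Ideal.span_mono (Set.image_mono (Finset.coe_subset.2 (Finset.erase_subset v S)))
    rcases lam_step w hP (hw v) with ⟨d, hd, hle, e⟩ | e | ⟨hle, e⟩ <;> rw [e] at hl
    · rw [hd, pow_succ'] at hl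
      exact hl (Ideal.mul_mem_mul (Ideal.subset_span ⟨v, hv, rfl⟩)
        (Ideal.pow_right_mono hmono d (ih _ hlt (hP.1.res v) hle hres)))
    · exact hl (zero_mem _)
    · exact hl (Ideal.pow_right_mono hmono _ (ih _ hlt (hP.1.res v) hle hres))

theorem lam_mem_span_of_kill (hw : ∀ v, ell (w v) ≠ 0) (hI : IsGr w I) (hS : SuppOn S I)
    {g : MvPolynomial σ ℚ} (hgI : g ∈ I) (hk : kill E g ≠ 0) {c : ℕ} (hc : c ≤ ord w I) :
    lam w c I ∈ Ideal.span ((fun v => ell (w v)) '' (S \ E)) := by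
  classical
  obtain ⟨S, rfl⟩ : ∃ F : Finset σ, S = ↑F := ⟨S.toFinset, (Set.coe_toFinset S).symm⟩
  induction S using Finset.strongInduction generalizing I c g with
  | _ S ih =>
    by_contra hcon
    obtain ⟨P, hP, hPS, hIP, rfl, hl⟩ := exists_prime_of_notMem w hI hS hc hcon
    by_cases hE : ∃ v ∈ S, v ∈ E
    · obtain ⟨v, hv, hvE⟩ := hE
      have hlt : S.erase v ⊂ S := Finset.erase_ssubset hv
      have hres : SuppOn (↑(S.erase v) : Set σ) (res v P) := by
        rw [Finset.coe_erase]; exact suppOn_res_diff hPS v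
      have hk' : kill E (resVar v g) ≠ 0 := by
        have : (kill E).comp (resVar v) = kill E := by
          refine MvPolynomial.algHom_ext fun x => ?_
          rw [AlgHom.comp_apply, resVar_eq_kill, kill_X]
          split_ifs with h
          · rw [map_zero, kill_X, if_pos (by rw [Set.mem_singleton_iff.1 h]; exact hvE)]
          · rfl
        rwa [← AlgHom.comp_apply, this]
      have hmono : Ideal.span ((fun v => ell (w v)) '' (↑(S.erase v) \ E)) ≤
          Ideal.span ((fun v => ell (w v)) '' (↑S \ E)) :=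
        Ideal.span_mono (Set.image_mono (Set.sdiff_subset_sdiff_left
          (Finset.coe_subset.2 (Finset.erase_subset v S))))
      have key := fun d (hd : d ≤ ord w (res v P)) => hmono (ih _ hlt (hP.1.res v)
        (Ideal.mem_map_of_mem _ (hIP hgI)) hk' hd hres)
      rcases lam_step w hP (hw v) with ⟨d, -, hle, e⟩ | e | ⟨hle, e⟩ <;> rw [e] at hl
      · exact hl (Ideal.mul_mem_left _ _ (key d hle))
      · exact hl (zero_mem _)
      · exact hl (key _ hle)
    · push Not at hE
      have hne : (⊥ : Ideal (MvPolynomial σ ℚ)) < P := by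
        refine bot_lt_iff_ne_bot.2 fun h0 => hk ?_
        have := hIP hgI
        rw [h0, Ideal.mem_bot] at this
        rw [this, map_zero]
      have hpos := ord_lt w (isGrPrime_bot w) hP.1 hne hP.2.1
      rw [show (↑S : Set σ) \ E = ↑S from Set.ext fun x => ⟨fun h => h.1, fun h => ⟨h, hE x h⟩⟩] at hl
      exact hl (Ideal.pow_le_self (by omega) (lam_mem_pow w hw hP.1 hPS le_rfl))

theorem ell_mem_span {v : σ} (h : (w v).2 = 0) :
    ell (w v) ∈ Ideal.span (Set.range fun j : ι => (X (some j) : F2X ι)) := by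
  rw [ell, h, Nat.cast_zero, map_zero, zero_mul, add_zero]
  exact Ideal.sum_mem _ fun j _ => Ideal.mul_mem_left _ _ (Ideal.subset_span ⟨j, rfl⟩)

theorem lam_mem_mpow (hw : ∀ v, ell (w v) ≠ 0) (hI : IsGr w I) (hI₀ : IsGr w I₀)
    (hS : SuppOn S I₀) (hw0 : ∀ v ∈ S, (w v).2 = 0) (hle : I₀ ≤ I) {b : ℕ}
    (hb : I₀ ≠ ⊤ → b ≤ ord w I₀) {c : ℕ} (hc : c ≤ ord w I) : lam w c I ∈ mpow ι b := by
  classical
  obtain ⟨F, hF⟩ : ∃ F : Finset σ, SuppOn (S ∪ ↑F) I :=
    ⟨Finset.univ, (suppOn_univ I).mono (by simp)⟩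
  induction F using Finset.strongInduction generalizing I c with
  | _ F ih =>
    by_contra hcon
    obtain ⟨P, hP, hPS, hIP, rfl, hl⟩ := exists_prime_of_notMem w hI hF hc hcon
    have h0P : I₀ ≤ P := hle.trans hIP
    by_cases hE : ∃ v ∈ F, v ∉ S
    · obtain ⟨v, hv, hvS⟩ := hE
      have hlt : F.erase v ⊂ F := Finset.erase_ssubset hv
      have hres : SuppOn (S ∪ ↑(F.erase v)) (res v P) := by
        refine (suppOn_res_diff hPS v).mono ?_
        rintro x ⟨hx | hx, hxv⟩
        · exact Or.inl hx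
        · exact Or.inr (Finset.mem_erase.2 ⟨hxv, hx⟩)
      have h0 : I₀ ≤ res v P := by
        rw [← res_eq_self (hS.mono (Set.subset_compl_singleton_iff.2 hvS))]
        exact Ideal.map_mono h0P
      have key := fun d (hd : d ≤ ord w (res v P)) =>
        ih _ hlt (hP.1.res v) h0 hd hres
      rcases lam_step w hP (hw v) with ⟨d, -, hle', e⟩ | e | ⟨hle', e⟩ <;> rw [e] at hl
      · exact hl (Ideal.mul_mem_left _ _ (key d hle'))
      · exact hl (zero_mem _)
      · exact hl (key _ hle')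
    · push Not at hE
      have hPS' : SuppOn S P := hPS.mono (Set.union_subset le_rfl fun x hx => hE x hx)
      have hne : I₀ ≠ ⊤ := fun h => hP.2.1 (top_unique (h ▸ h0P))
      have hbP := (hb hne).trans (ord_mono w hI₀ hP.1 h0P hP.2.1)
      refine hl (Ideal.pow_le_pow_right hbP
        (Ideal.pow_right_mono (Ideal.span_le.2 ?_) _ (lam_mem_pow w hw hP.1 hPS' le_rfl)))
      rintro _ ⟨v, hv, rfl⟩
      exact ell_mem_span w (hw0 v hv)

theorem exists_prime_cut (hP : IsGrPrime w P) (hPT : SuppOn T P) (𝔞 : Ideal (F2X ι)) [𝔞.IsPrime]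
    (hl : lam w (ord w P) P ∉ 𝔞) {J : Type} (s : Finset J) (f : J → MvPolynomial σ ℚ)
    (m : J → Deg ι) (hf : ∀ a ∈ s, IsWeightedHomogeneous w (f a) (m a))
    (hfT : ∀ a ∈ s, f a ∈ supported ℚ T) (hm : ∀ a ∈ s, f a = 0 ∨ ell (m a) ∉ 𝔞) :
    ∃ Q, IsGrPrime w Q ∧ SuppOn T Q ∧ P ≤ Q ∧ (∀ a ∈ s, f a ∈ Q) ∧
      ord w Q ≤ ord w P + s.card ∧ lam w (ord w Q) Q ∉ 𝔞 := by
  classical
  induction s using Finset.induction with
  | empty => exact ⟨P, hP, hPT, le_rfl, by simp, by simp, hl⟩
  | insert a s ha ih =>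
    obtain ⟨Q, hQ, hQT, hPQ, hmem, ho, hlQ⟩ := ih
      (fun b hb => hf b (Finset.mem_insert_of_mem hb))
      (fun b hb => hfT b (Finset.mem_insert_of_mem hb))
      (fun b hb => hm b (Finset.mem_insert_of_mem hb))
    rw [Finset.card_insert_of_notMem ha]
    by_cases haQ : f a ∈ Q
    · refine ⟨Q, hQ, hQT, hPQ, fun b hb => ?_, by omega, hlQ⟩
      rcases Finset.mem_insert.1 hb with rfl | hb
      exacts [haQ, hmem b hb]
    have hfa := hf a (Finset.mem_insert_self a s)
    have hea : ell (m a) ∉ 𝔞 := (hm a (Finset.mem_insert_self a s)).resolve_left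
      fun h => haQ (by rw [h]; exact zero_mem _)
    have hcol := hQ.colon ⟨_, hfa⟩ haQ
    have hcut := lam_cut w hQ.1 hfa hcol (le_refl (ord w Q))
    have hnot : lam w (ord w Q + 1) (Q ⊔ Ideal.span {f a}) ∉ 𝔞 := by
      rw [hcut]
      exact fun h => (Ideal.IsPrime.mem_or_mem ‹_› h).elim hea hlQ
    have hne : Q ⊔ Ideal.span {f a} ≠ ⊤ := fun h => hnot (by rw [h, lam_top]; exact zero_mem _)
    obtain ⟨Q', hQ', hQT', hle, hoQ, hlQ'⟩ := exists_prime_of_notMem w
      (hQ.1.sup (isGr_span_singleton ⟨_, hfa⟩))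
      (hQT.sup (suppOn_span_singleton (hfT a (Finset.mem_insert_self a s))))
      (ord_cut w hQ.1 hfa hcol hne) hnot
    refine ⟨Q', hQ', hQT', hPQ.trans (le_sup_left.trans hle), fun b hb => ?_, by omega, hlQ'⟩
    rcases Finset.mem_insert.1 hb with rfl | hb
    · exact hle (Ideal.mem_sup_right (Ideal.mem_span_singleton_self _))
    · exact hle (Ideal.mem_sup_left (hmem b hb))

theorem sup_span_X (hP : IsGrPrime w P) (hPT : SuppOn T P) (F : Finset σ) (hF : ∀ v ∈ F, v ∉ T) :
    IsGrPrime w (P ⊔ Ideal.span (X '' (F : Set σ))) ∧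
      ord w (P ⊔ Ideal.span (X '' (F : Set σ))) = ord w P + F.card ∧
      lam w (ord w P + F.card) (P ⊔ Ideal.span (X '' (F : Set σ))) =
        lam w (ord w P) P * ∏ v ∈ F, ell (w v) := by
  classical
  have hprime : ∀ F : Finset σ, (∀ v ∈ F, v ∉ T) →
      IsGrPrime w (P ⊔ Ideal.span (X '' (F : Set σ))) := by
    intro F hF
    rw [show P ⊔ Ideal.span (X '' (F : Set σ)) = P.comap (kill (F : Set σ)) from
      Ideal.ext fun f => mem_sup_span_X hPT F hF f]
    exact isGrPrime_comap (kill (F : Set σ)) id Function.injective_id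
      (fun f m hf => kill_isWH _ hf) hP
  refine ⟨hprime F hF, ?_⟩
  induction F using Finset.induction with
  | empty => simp
  | insert v F hv ih =>
    obtain ⟨ho, hl⟩ := ih fun x hx => hF x (Finset.mem_insert_of_mem hx)
    set Q := P ⊔ Ideal.span (X '' (F : Set σ)) with hQdef
    have hQ := hprime F fun x hx => hF x (Finset.mem_insert_of_mem hx)
    have hQS : SuppOn ({v}ᶜ : Set σ) Q := by
      refine (hPT.mono (Set.subset_compl_singleton_iff.2 (hF v (Finset.mem_insert_self v F)))).sup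
        (suppOn_span ?_)
      rintro _ ⟨x, hx, rfl⟩
      exact Algebra.subset_adjoin ⟨x, fun h => hv (by rwa [← Set.mem_singleton_iff.1 h]), rfl⟩
    have e : P ⊔ Ideal.span (X '' ((insert v F : Finset σ) : Set σ)) = Q ⊔ Ideal.span {X v} := by
      rw [hQdef, Finset.coe_insert, Set.image_insert_eq, Ideal.span_insert, sup_assoc,
        sup_comm (Ideal.span {X v}) _]
    rw [e, Finset.card_insert_of_notMem hv, Finset.prod_insert hv, ← add_assoc]
    refine ⟨by rw [ord_sup_X w hQ.1 (res_eq_self hQS) hQ.2.1, ho], ?_⟩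
    rw [lam_cut w hQ.1 (isWeightedHomogeneous_X ℚ w v) (hQS.colon_X (by simp)) ho.ge, hl]
    ring

end Vale.Agent.P199.Full
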