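import Mathlib

/-!
Kurosh's problem for division rings, full disproof: the mod `2` multidegree of ideals of a
polynomial ring graded by `(ι → ZMod 2) × ℕ`.

An ideal is first homogenised with one new variable `z_j` (of degree `2 e_j`) for each `j : ι`, all
other degrees being lifted to positive integers; the lowest order part of the numerator of the
Hilbert series of the result, read mod `2`, is the invariant `lam`.
-/

noncomputable section

namespace Vale.Agent.P199.Full

open MvPolynomial

/-- Degrees: a class mod `2` and a weight. -/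
abbrev Deg (ι : Type) : Type := (ι → ZMod 2) × ℕ

/-- The ring in which the multidegree lives; `some j` is dual to the `j`-th class coordinate and
`none` to the weight. -/
abbrev F2X (ι : Type) : Type := MvPolynomial (Option ι) (ZMod 2)

variable {σ ι : Type} [Fintype ι]

/-- The linear form of a degree. -/
def ell (m : Deg ι) : F2X ι :=
  ∑ j : ι, C (m.1 j) * X (some j) + C (m.2 : ZMod 2) * X none

/-- Homogeneous of some degree. -/
def Hom {M : Type} [AddCommMonoid M] (w : σ → M) (f : MvPolynomial σ ℚ) : Prop :=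
  ∃ m, IsWeightedHomogeneous w f m

/-- An ideal generated by homogeneous elements. -/
def IsGr {M : Type} [AddCommMonoid M] (w : σ → M) (I : Ideal (MvPolynomial σ ℚ)) : Prop :=
  ∀ f ∈ I, ∀ m, weightedHomogeneousComponent w m f ∈ I

/-- Prime among homogeneous elements. -/
def IsGrPrime {M : Type} [AddCommMonoid M] (w : σ → M) (P : Ideal (MvPolynomial σ ℚ)) : Prop :=
  IsGr w P ∧ P ≠ ⊤ ∧ ∀ f g, Hom w f → Hom w g → f * g ∈ P → f ∈ P ∨ g ∈ P

/-- The elements multiplying `f` into `I`. -/
def colonEl (I : Ideal (MvPolynomial σ ℚ)) (f : MvPolynomial σ ℚ) :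
    Ideal (MvPolynomial σ ℚ) :=
  Submodule.comap (LinearMap.mulRight (MvPolynomial σ ℚ) f) I

/-- An ideal generated by polynomials in the variables of `S`. -/
def SuppOn (S : Set σ) (I : Ideal (MvPolynomial σ ℚ)) : Prop :=
  I ≤ Ideal.span ((I : Set (MvPolynomial σ ℚ)) ∩ (supported ℚ S : Set (MvPolynomial σ ℚ)))

/-- Setting one variable to zero. -/
def resVar (v : σ) : MvPolynomial σ ℚ →ₐ[ℚ] MvPolynomial σ ℚ :=
  open Classical in aeval fun u => if u = v then 0 else X u

/-- Setting one variable to zero, on ideals. -/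
def res (v : σ) (I : Ideal (MvPolynomial σ ℚ)) : Ideal (MvPolynomial σ ℚ) :=
  Ideal.map (resVar v) I

/-! ### Homogenisation -/

/-- Positive lifts of the degrees; the new variable of `j` has degree `2 e_j`. -/
def lift (w : σ → Deg ι) : σ ⊕ ι → (Option ι →₀ ℕ) :=
  open Classical in Sum.elim
    (fun v => Finsupp.equivFunOnFinite.symm fun o =>
      o.elim (w v).2 fun j => if (w v).1 j = 1 then 1 else 2)
    (fun j => Finsupp.single (some j) 2)

/-- Dehomogenisation. -/
def deh (σ ι : Type) : MvPolynomial (σ ⊕ ι) ℚ →ₐ[ℚ] MvPolynomial σ ℚ :=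
  aeval (Sum.elim X fun _ => 1)

/-- The homogenised ideal. -/
def homI (w : σ → Deg ι) (I : Ideal (MvPolynomial σ ℚ)) : Ideal (MvPolynomial (σ ⊕ ι) ℚ) :=
  Ideal.span {b | Hom (lift w) b ∧ deh σ ι b ∈ I}

/-! ### Hilbert series of a ring with positive multidegrees -/

section Hilbert

variable {τ D : Type}

/-- Every variable has nonzero degree. -/
def Pos (u : τ → (D →₀ ℕ)) : Prop := ∀ v, u v ≠ 0

/-- Hilbert function of a homogeneous ideal. -/
def hilb (u : τ → (D →₀ ℕ)) (J : Ideal (MvPolynomial τ ℚ)) (γ : D →₀ ℕ) : ℕ :=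
  Module.finrank ℚ ((weightedHomogeneousSubmodule ℚ u γ).map (Ideal.Quotient.mkₐ ℚ J).toLinearMap)

/-- Hilbert series. -/
def series (u : τ → (D →₀ ℕ)) (J : Ideal (MvPolynomial τ ℚ)) : MvPowerSeries D ℤ :=
  fun γ => (hilb u J γ : ℤ)

variable [Fintype τ]

/-- Numerator of the Hilbert series. -/
def kPoly (u : τ → (D →₀ ℕ)) (J : Ideal (MvPolynomial τ ℚ)) : MvPolynomial D ℤ :=
  open Classical in
  if h : ∃ K : MvPolynomial D ℤ, (K : MvPowerSeries D ℤ) =
      series u J * ∏ v : τ, ((1 - monomial (u v) 1 : MvPolynomial D ℤ) : MvPowerSeries D ℤ)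
  then h.choose else 0

/-- The substitution `t = 1 - X`. -/
def subOne : MvPolynomial D ℤ →ₐ[ℤ] MvPolynomial D ℤ := bind₁ fun o => 1 - X o

/-- The numerator around `t = 1`. -/
def pPolyH (u : τ → (D →₀ ℕ)) (J : Ideal (MvPolynomial τ ℚ)) : MvPolynomial D ℤ :=
  subOne (kPoly u J)

/-- The lowest degree occurring in the numerator: the codimension. -/
def ordH (u : τ → (D →₀ ℕ)) (J : Ideal (MvPolynomial τ ℚ)) : ℕ :=
  sInf {c | homogeneousComponent c (pPolyH u J) ≠ 0}

end Hilbert

/-! ### The multidegree -/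

variable [Fintype σ]

/-- The codimension. -/
def ord (w : σ → Deg ι) (I : Ideal (MvPolynomial σ ℚ)) : ℕ := ordH (lift w) (homI w I)

/-- The degree `c` part, mod `2`. -/
def lam (w : σ → Deg ι) (c : ℕ) (I : Ideal (MvPolynomial σ ℚ)) : F2X ι :=
  MvPolynomial.map (Int.castRingHom (ZMod 2))
    (homogeneousComponent c (pPolyH (lift w) (homI w I)))

end Vale.Agent.P199.Full
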