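import Vale.Agent.P199.Full.Slice

/-!
Kurosh's problem for division rings, full disproof: elementary facts about homogeneous ideals,
ideals in part of the variables, and homogenisation.
-/

noncomputable section

namespace Vale.Agent.P199.Full

open MvPolynomial

/-- The lifted degrees form a cancellative monoid. -/
instance instCancelDeg (D : Type) : AddCancelCommMonoid (D →₀ ℕ) where
  __ := (Finsupp.instAddCommMonoid : AddCommMonoid (D →₀ ℕ))
  add_left_cancel _ _ _ h := add_left_cancel h

/-! ### Homogeneous ideals -/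

section Graded

variable {τ M : Type} [AddCommMonoid M] {u : τ → M} {I J : Ideal (MvPolynomial τ ℚ)}

theorem eq_sum_wcomp [DecidableEq M] (f : MvPolynomial τ ℚ) :
    f = ∑ m ∈ f.support.image (Finsupp.weight u), weightedHomogeneousComponent u m f := by
  classical
  conv_lhs => rw [f.as_sum, ← Finset.sum_fiberwise_of_maps_to
    (fun d (hd : d ∈ f.support) => Finset.mem_image_of_mem (Finsupp.weight u) hd)]
  refine Finset.sum_congr rfl fun m _ => ?_
  rw [weightedHomogeneousComponent_apply]

theorem mem_of_wcomp {f : MvPolynomial τ ℚ}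
    (h : ∀ m, weightedHomogeneousComponent u m f ∈ I) : f ∈ I := by
  classical
  rw [eq_sum_wcomp (u := u) f]
  exact sum_mem fun m _ => h m

theorem exists_wcomp_notMem {f : MvPolynomial τ ℚ} (h : f ∉ I) :
    ∃ m, weightedHomogeneousComponent u m f ∉ I :=
  not_forall.1 fun h' => h (mem_of_wcomp h')

theorem IsGr.le_of_hom (hI : IsGr u I) (h : ∀ f ∈ I, Hom u f → f ∈ J) : I ≤ J :=
  fun f hf => mem_of_wcomp fun m =>
    h _ (hI f hf m) ⟨m, weightedHomogeneousComponent_isWeightedHomogeneous m f⟩

theorem IsGr.eq_span (hI : IsGr u I) :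
    I = Ideal.span {f | f ∈ I ∧ Hom u f} :=
  le_antisymm (hI.le_of_hom fun _ h1 h2 => Ideal.subset_span ⟨h1, h2⟩)
    (Ideal.span_le.2 fun _ h => h.1)

/-- For an ordered index monoid, a product has the product of the top components outside a
homogeneous ideal as its component. -/
theorem exists_top_mul [IsCancelAdd M] {N : Type} [AddCommMonoid N] [LinearOrder N]
    [IsOrderedCancelAddMonoid N] (e : M →+ N) (he : Function.Injective e) (hI : IsGr u I)
    {f g : MvPolynomial τ ℚ} (hf : f ∉ I) (hg : g ∉ I) (hfg : f * g ∈ I) :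
    ∃ a b, weightedHomogeneousComponent u a f ∉ I ∧ weightedHomogeneousComponent u b g ∉ I ∧
      weightedHomogeneousComponent u a f * weightedHomogeneousComponent u b g ∈ I := by
  classical
  let S : MvPolynomial τ ℚ → Finset M := fun p =>
    (p.support.image (Finsupp.weight u)).filter fun m => weightedHomogeneousComponent u m p ∉ I
  have hS : ∀ p, p ∉ I → (S p).Nonempty := fun p hp => by
    by_contra h
    apply hp
    rw [eq_sum_wcomp (u := u) p]
    refine sum_mem fun m hm => ?_
    by_contra h'
    exact h ⟨m, Finset.mem_filter.2 ⟨hm, h'⟩⟩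
  obtain ⟨a, ha, hamax⟩ := Finset.exists_max_image (S f) e (hS f hf)
  obtain ⟨b, hb, hbmax⟩ := Finset.exists_max_image (S g) e (hS g hg)
  refine ⟨a, b, (Finset.mem_filter.1 ha).2, (Finset.mem_filter.1 hb).2, ?_⟩
  have h := hI _ hfg (a + b)
  rw [eq_sum_wcomp (u := u) f, eq_sum_wcomp (u := u) g, Finset.sum_mul_sum,
    ← Finset.sum_product', map_sum,
    ← Finset.add_sum_erase _ _ (Finset.mem_product.2
      ⟨(Finset.mem_filter.1 ha).1, (Finset.mem_filter.1 hb).1⟩ :
        (a, b) ∈ f.support.image (Finsupp.weight u) ×ˢ g.support.image (Finsupp.weight u))] at h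
  have hh : ∀ i j, IsWeightedHomogeneous u (weightedHomogeneousComponent u i f *
      weightedHomogeneousComponent u j g) (i + j) := fun i j =>
    (weightedHomogeneousComponent_isWeightedHomogeneous i f).mul
      (weightedHomogeneousComponent_isWeightedHomogeneous j g)
  rw [(hh a b).weightedHomogeneousComponent_same] at h
  refine (Submodule.add_mem_iff_left I (sum_mem ?_)).1 h
  rintro ⟨i, j⟩ hij
  simp only [Finset.mem_erase, Finset.mem_product] at hij
  obtain ⟨hne, hi, hj⟩ := hij
  rcases eq_or_ne (a + b) (i + j) with hab | hab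
  · simp only [hab, (hh i j).weightedHomogeneousComponent_same]
    by_cases hi' : weightedHomogeneousComponent u i f ∈ I
    · exact Ideal.mul_mem_right _ _ hi'
    refine Ideal.mul_mem_left _ _ ?_
    by_contra hj'
    have h1 := hamax i (Finset.mem_filter.2 ⟨hi, hi'⟩)
    have h2 := hbmax j (Finset.mem_filter.2 ⟨hj, hj'⟩)
    have h3 : e a + e b = e i + e j := by rw [← map_add, ← map_add, hab]
    have h4 : e i = e a := by
      refine le_antisymm h1 (le_of_not_gt fun h' => ?_)
      exact absurd h3 (add_lt_add_of_lt_of_le h' h2).ne'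
    rw [h4] at h3
    exact hne (Prod.ext (he h4) (he (add_left_cancel h3).symm))
  · simp only [(hh i j).weightedHomogeneousComponent_ne _ hab]
    exact zero_mem _

end Graded

/-! ### Ideals in part of the variables -/

section Supp

variable {τ : Type} {I : Ideal (MvPolynomial τ ℚ)}

theorem resVar_supported (v : τ) (f : MvPolynomial τ ℚ) :
    resVar v f ∈ supported ℚ ({v}ᶜ : Set τ) := by
  induction f using MvPolynomial.induction_on with
  | C a => rw [show resVar v (C a) = C a from aeval_C _ _]; exact Subalgebra.algebraMap_mem _ a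
  | add p q hp hq => rw [map_add]; exact add_mem hp hq
  | mul_X p u hp =>
    rw [map_mul]
    refine mul_mem hp ?_
    simp only [resVar, aeval_X]
    split
    · exact zero_mem _
    · rename_i hu
      exact X_mem_supported.2 hu

theorem resVar_of_supported (v : τ) {h : MvPolynomial τ ℚ} (hh : h ∈ supported ℚ ({v}ᶜ : Set τ)) :
    resVar v h = h := by
  have : supported ℚ ({v}ᶜ : Set τ) ≤ AlgHom.equalizer (resVar v) (AlgHom.id ℚ _) := by
    rw [supported_eq_adjoin_X, Algebra.adjoin_le_iff]
    rintro _ ⟨u, hu, rfl⟩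
    have hu' : u ≠ v := hu
    simp [resVar, hu']
  exact this hh

theorem sub_resVar_mem (v : τ) (f : MvPolynomial τ ℚ) :
    f - resVar v f ∈ Ideal.span {(X v : MvPolynomial τ ℚ)} := by
  induction f using MvPolynomial.induction_on with
  | C a => simp [resVar]
  | add p q hp hq => rw [map_add, add_sub_add_comm]; exact add_mem hp hq
  | mul_X p u hp =>
    rw [map_mul, show p * X u - resVar v p * resVar v (X u) =
      (p - resVar v p) * X u + resVar v p * (X u - resVar v (X u)) by ring]
    refine add_mem (Ideal.mul_mem_right _ _ hp) (Ideal.mul_mem_left _ _ ?_)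
    simp only [resVar, aeval_X]
    split
    · rename_i hu
      subst hu
      rw [sub_zero]
      exact Ideal.mem_span_singleton_self _
    · simp

theorem resVar_hom {M : Type} [AddCommMonoid M] {u : τ → M} (v : τ) {f : MvPolynomial τ ℚ}
    {γ : M} (hf : IsWeightedHomogeneous u f γ) : IsWeightedHomogeneous u (resVar v f) γ := by
  classical
  have hmon : ∀ (s : τ →₀ ℕ) (r : ℚ),
      resVar v (monomial s r) = monomial s r ∨ resVar v (monomial s r) = 0 := by
    intro s r
    by_cases hs : s v = 0
    · refine Or.inl (resVar_of_supported v ?_)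
      rw [mem_supported]
      intro x hx
      by_cases hr : r = 0
      · simp [hr] at hx
      rw [vars_monomial hr] at hx
      simp only [Set.mem_compl_iff, Set.mem_singleton_iff]
      rintro rfl
      exact Finsupp.mem_support_iff.1 hx hs
    · right
      rw [resVar, aeval_monomial, Finsupp.prod,
        Finset.prod_eq_zero (Finsupp.mem_support_iff.2 hs) (by simp [hs]), mul_zero]
  rw [f.as_sum, map_sum]
  refine IsWeightedHomogeneous.sum _ _ _ fun s hs => ?_
  rcases hmon s (coeff s f) with h | h <;> rw [h]
  · exact isWeightedHomogeneous_monomial _ _ _ (hf (mem_support_iff.1 hs))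
  · exact isWeightedHomogeneous_zero _ _ _

theorem suppOn_res (v : τ) (I : Ideal (MvPolynomial τ ℚ)) :
    SuppOn ({v}ᶜ : Set τ) (res v I) := by
  intro f hf
  refine Ideal.span_mono ?_ hf
  rintro _ ⟨x, hx, rfl⟩
  exact ⟨Ideal.mem_map_of_mem _ hx, resVar_supported v x⟩

theorem colonEl_X_res (v : τ) (I : Ideal (MvPolynomial τ ℚ)) :
    colonEl (res v I) (X v) = res v I :=
  (suppOn_res v I).colon_X (by simp)

theorem sup_span_X_res (v : τ) (I : Ideal (MvPolynomial τ ℚ)) :
    I ⊔ Ideal.span {X v} = res v I ⊔ Ideal.span {X v} := by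
  apply le_antisymm <;> refine sup_le ?_ le_sup_right
  · intro f hf
    rw [← sub_add_cancel f (resVar v f)]
    exact add_mem (Submodule.mem_sup_right (sub_resVar_mem v f))
      (Submodule.mem_sup_left (Ideal.mem_map_of_mem _ hf))
  · rw [res, Ideal.map_le_iff_le_comap]
    intro f hf
    rw [Ideal.mem_comap, ← sub_sub_cancel f (resVar v f)]
    exact sub_mem (Submodule.mem_sup_left hf) (Submodule.mem_sup_right (sub_resVar_mem v f))

theorem IsGr.res {M : Type} [AddCancelCommMonoid M] {u : τ → M} (hI : IsGr u I) (v : τ) :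
    IsGr u (res v I) := by
  unfold Full.res
  rw [hI.eq_span, Ideal.map_span]
  refine isGr_span ?_
  rintro _ ⟨x, ⟨-, γ, hγ⟩, rfl⟩
  exact ⟨γ, resVar_hom v hγ⟩

end Supp

end Vale.Agent.P199.Full
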