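import Vale.Agent.P199.Full.HilbertSeries
import Vale.Agent.P199.Full.GradeBasic
import Vale.Agent.P199.Full.DimTrdeg

/-!
The lowest order of the Hilbert numerator of a homogeneous prime is its codimension.
-/

noncomputable section

namespace Vale.Agent.P199.Full

open MvPolynomial

variable {τ D : Type} [Fintype τ] [Fintype D] {u : τ → (D →₀ ℕ)}


omit [Fintype τ] [Fintype D] in
theorem sum_components (u : τ → (D →₀ ℕ)) (f : MvPolynomial τ ℚ) :
    ∑ γ ∈ (weightedHomogeneousComponent_finsupp (w := u) f).toFinset,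
      weightedHomogeneousComponent u γ f = f := by
  rw [← finsum_eq_sum _ (weightedHomogeneousComponent_finsupp f)]
  exact sum_weightedHomogeneousComponent u f

omit [Fintype τ] in
/-- A homogeneous ideal which is prime on homogeneous elements is prime. -/
theorem isPrime_of_homogeneous {J : Ideal (MvPolynomial τ ℚ)} (hJ : IsGr u J) (hne : J ≠ ⊤)
    (h : ∀ f g, Hom u f → Hom u g → f * g ∈ J → f ∈ J ∨ g ∈ J) : J.IsPrime := by
  classical
  refine ⟨hne, fun {f g} hfg => ?_⟩
  by_contra hcon
  push Not at hcon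
  let φ : (D →₀ ℕ) → Lex (Fin (Fintype.card D) → ℕ) :=
    fun d => toLex fun k => d ((Fintype.equivFin D).symm k)
  have hφadd : ∀ a b, φ (a + b) = φ a + φ b := fun _ _ => rfl
  have hφinj : Function.Injective φ := fun a b hab => Finsupp.ext fun x => by
    simpa [φ] using congrFun (toLex.injective hab) (Fintype.equivFin D x)
  let S : MvPolynomial τ ℚ → Finset (D →₀ ℕ) := fun q =>
    (weightedHomogeneousComponent_finsupp (w := u) q).toFinset
  have hne' : ∀ q, q ∉ J →
      ((S q).filter fun γ => weightedHomogeneousComponent u γ q ∉ J).Nonempty := by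
    intro q hq
    by_contra hemp
    rw [Finset.not_nonempty_iff_eq_empty, Finset.filter_eq_empty_iff] at hemp
    refine hq ?_
    rw [← sum_components u q]
    exact Ideal.sum_mem _ fun γ hγ => not_not.1 (hemp hγ)
  obtain ⟨a, ha, hamax⟩ := Finset.exists_max_image _ φ (hne' f hcon.1)
  obtain ⟨b, hb, hbmax⟩ := Finset.exists_max_image _ φ (hne' g hcon.2)
  rw [Finset.mem_filter] at ha hb
  have hk := hJ _ hfg (a + b)
  rw [← sum_components u f, ← sum_components u g, Finset.sum_mul_sum, ← Finset.sum_product',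
    map_sum] at hk
  have hwh : ∀ γ (q : MvPolynomial τ ℚ),
      IsWeightedHomogeneous u (weightedHomogeneousComponent u γ q) γ :=
    fun γ q => weightedHomogeneousComponent_isWeightedHomogeneous (w := u) γ q
  simp only [weightedHomogeneousComponent_of_mem ((hwh _ _).mul (hwh _ _))] at hk
  have hmem : (a, b) ∈ S f ×ˢ S g := Finset.mem_product.2 ⟨ha.1, hb.1⟩
  rw [← Finset.add_sum_erase _ _ hmem, if_pos rfl] at hk
  refine (h _ _ ⟨a, hwh a f⟩ ⟨b, hwh b g⟩ ((Submodule.add_mem_iff_left _ ?_).1 hk)).elim ha.2 hb.2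
  refine Ideal.sum_mem _ fun p hp => ?_
  obtain ⟨hp1, hp2⟩ := Finset.mem_erase.1 hp
  rw [Finset.mem_product] at hp2
  split_ifs with he
  · by_cases h1 : weightedHomogeneousComponent u p.1 f ∈ J
    · exact J.mul_mem_right _ h1
    by_cases h2 : weightedHomogeneousComponent u p.2 g ∈ J
    · exact J.mul_mem_left _ h2
    exfalso
    have a1 := hamax p.1 (Finset.mem_filter.2 ⟨hp2.1, h1⟩)
    have a2 := hbmax p.2 (Finset.mem_filter.2 ⟨hp2.2, h2⟩)
    have a3 : φ p.1 + φ p.2 = φ a + φ b := by rw [← hφadd, ← hφadd, he]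
    obtain ⟨e1, e2⟩ := (add_eq_add_iff_eq_and_eq a1 a2).1 a3
    exact hp1 (Prod.ext (hφinj e1) (hφinj e2))
  · exact zero_mem _

omit [Fintype τ] [Fintype D] in
/-- In a homogeneous proper ideal for positive degrees all constant terms vanish. -/
theorem le_ker_constantCoeff (hu : Pos u) {J : Ideal (MvPolynomial τ ℚ)} (hJ : IsGr u J)
    (hne : J ≠ ⊤) : J ≤ RingHom.ker (constantCoeff : MvPolynomial τ ℚ →+* ℚ) := fun f hf => by
  rw [RingHom.mem_ker]
  by_contra hc
  have h0 := hJ f hf 0
  rw [weightedHomogeneousComponent_zero _ hu, ← constantCoeff_eq] at h0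
  exact hne (Ideal.eq_top_of_isUnit_mem _ h0 ((isUnit_iff_ne_zero.2 hc).map C))

omit [Fintype τ] in
theorem ker_ne_top : RingHom.ker (constantCoeff : MvPolynomial τ ℚ →+* ℚ) ≠ ⊤ := fun h =>
  one_ne_zero (α := ℚ) (by
    have : (1 : MvPolynomial τ ℚ) ∈ RingHom.ker (constantCoeff : MvPolynomial τ ℚ →+* ℚ) := by
      rw [h]; trivial
    simp at this)

omit [Fintype τ] [Fintype D] in
theorem cut_ne_top (hu : Pos u) {J : Ideal (MvPolynomial τ ℚ)} (hJ : IsGr u J) (hne : J ≠ ⊤)
    (v : τ) : J ⊔ Ideal.span {X v} ≠ ⊤ := fun h => ker_ne_top (top_unique (h ▸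
  sup_le (le_ker_constantCoeff hu hJ hne)
    ((Ideal.span_singleton_le_iff_mem _).2 (by simp [RingHom.mem_ker]))))

/-! ### Lowest parts -/

omit [Fintype D] in
theorem comp_mul_sum {p q : MvPolynomial D ℤ} (n : ℕ) :
    homogeneousComponent n (p * q) = ∑ i ∈ Finset.range (n + 1),
      homogeneousComponent i p * homogeneousComponent (n - i) q := by
  classical
  ext d
  rw [coeff_homogeneousComponent, coeff_sum]
  have hrhs : ∀ i ∈ Finset.range (n + 1),
      coeff d (homogeneousComponent i p * homogeneousComponent (n - i) q) =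
        ∑ x ∈ Finset.HasAntidiagonal.antidiagonal d,
          if x.1.degree = i ∧ x.2.degree = n - i then coeff x.1 p * coeff x.2 q else 0 := by
    intro i _
    rw [coeff_mul]
    refine Finset.sum_congr rfl fun x _ => ?_
    rw [coeff_homogeneousComponent, coeff_homogeneousComponent]
    split_ifs <;> simp_all
  rw [Finset.sum_congr rfl hrhs, Finset.sum_comm]
  split_ifs with hd
  · rw [coeff_mul]
    refine Finset.sum_congr rfl fun x hx => ?_
    have he : x.1.degree + x.2.degree = n := by
      rw [← hd, ← map_add, Finset.HasAntidiagonal.mem_antidiagonal.1 hx]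
    rw [Finset.sum_eq_single x.1.degree]
    · rw [if_pos ⟨rfl, by omega⟩]
    · intro i _ hi; exact if_neg fun h => hi h.1.symm
    · intro h; exact absurd (Finset.mem_range.2 (by omega)) h
  · refine (Finset.sum_eq_zero fun x hx => Finset.sum_eq_zero fun i hi => if_neg fun h => hd ?_).symm
    have hi' := Finset.mem_range.1 hi
    rw [← Finset.HasAntidiagonal.mem_antidiagonal.1 hx, map_add, h.1, h.2]
    omega

omit [Fintype D] in
theorem comp_eq_zero_of_lt {J : Ideal (MvPolynomial τ ℚ)} {i : ℕ} (h : i < ordH u J) :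
    homogeneousComponent i (pPolyH u J) = 0 :=
  not_not.1 (Nat.notMem_of_lt_sInf (s := {c | homogeneousComponent c (pPolyH u J) ≠ 0}) h)

omit [Fintype D] in
theorem comp_ordH (hu : Pos u) {J : Ideal (MvPolynomial τ ℚ)} (hJ : IsGr u J) (hne : J ≠ ⊤) :
    homogeneousComponent (ordH u J) (pPolyH u J) ≠ 0 := by
  have h : ∃ c, homogeneousComponent c (pPolyH u J) ≠ 0 := by
    by_contra hc
    simp only [not_exists, not_not] at hc
    refine pPolyH_ne_zero hu hJ hne ?_
    rw [← sum_homogeneousComponent (pPolyH u J)]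
    exact Finset.sum_eq_zero fun c _ => hc c
  exact Nat.sInf_mem (s := {c | homogeneousComponent c (pPolyH u J) ≠ 0}) h

omit [Fintype D] in
theorem coeff_subOne_monomial (γ : D →₀ ℕ) :
    coeff 0 (subOne (monomial γ 1)) = 1 ∧
      ∀ o, coeff (Finsupp.single o 1) (subOne (monomial γ 1)) = -(γ o : ℤ) := by
  classical
  induction γ using Finsupp.induction_linear with
  | zero => simp [coeff_one, eq_comm]
  | add a b ha hb =>
    rw [show monomial (a + b) (1 : ℤ) = monomial a 1 * monomial b 1 by simp [monomial_mul],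
      map_mul]
    refine ⟨by rw [← constantCoeff_eq, map_mul]; simp [constantCoeff_eq, ha.1, hb.1], fun o => ?_⟩
    rw [coeff_mul, Finsupp.antidiagonal_single, Finset.sum_map]
    simp [Finset.Nat.antidiagonal_succ, ha, hb, add_comm]
  | single x k =>
    have e : subOne (monomial (Finsupp.single x k) (1 : ℤ)) = (1 - X x) ^ k := by
      rw [← X_pow_eq_monomial, map_pow]; simp [subOne]
    rw [e]
    induction k with
    | zero => simp [coeff_one, eq_comm]
    | succ k ih =>
      obtain ⟨ih1, ih2⟩ := ih (by rw [← X_pow_eq_monomial, map_pow]; simp [subOne])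
      refine ⟨by rw [← constantCoeff_eq]; simp, fun o => ?_⟩
      rw [pow_succ, mul_sub, mul_one, coeff_sub, coeff_mul_X', ih2]
      rcases eq_or_ne o x with rfl | hox
      · simp [ih1]; ring
      · simp [hox, Ne.symm hox]

omit [Fintype D] in
theorem ordH_cut (hu : Pos u) {J : Ideal (MvPolynomial τ ℚ)} (hJ : IsGr u J) (hp : J.IsPrime)
    {v : τ} (hv : X v ∉ J) : ordH u (J ⊔ Ideal.span {X v}) = ordH u J + 1 := by
  set c := ordH u J
  have hw : IsWeightedHomogeneous u (X v : MvPolynomial τ ℚ) (u v) := isWeightedHomogeneous_X ℚ u v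
  have hreg : colonEl J (X v) = J :=
    le_antisymm (fun g hg => (hp.mem_or_mem hg).resolve_right hv) (le_colonEl _)
  obtain ⟨h0, h1⟩ := coeff_subOne_monomial (u v)
  set l : MvPolynomial D ℤ := 1 - subOne (monomial (u v) 1)
  have hl0 : homogeneousComponent 0 l = 0 := by
    rw [homogeneousComponent_zero]; simp [l, h0]
  have hl1 : homogeneousComponent 1 l ≠ 0 := by
    obtain ⟨o, ho⟩ := Finsupp.ne_iff.1 (hu v)
    intro h
    have := congrArg (coeff (Finsupp.single o 1)) h
    rw [coeff_homogeneousComponent, if_pos (by simp)] at this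
    classical
    simp [l, coeff_one, h1, (Finsupp.single_ne_zero.2 (one_ne_zero (α := ℕ))).symm] at this
    exact ho (by simpa using this)
  have e := pPolyH_cut hu hJ hw hreg
  have hlo : ∀ i < c + 1, homogeneousComponent i ((1 - subOne (monomial (u v) 1)) * pPolyH u J) = 0 := by
    intro i hi
    rw [comp_mul_sum]
    refine Finset.sum_eq_zero fun j hj => ?_
    have hj' := Finset.mem_range.1 hj
    rcases Nat.eq_zero_or_pos j with rfl | hj0
    · rw [hl0, zero_mul]
    · rw [comp_eq_zero_of_lt (J := J) (by omega : i - j < c), mul_zero]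
  have hhi : homogeneousComponent (c + 1) (l * pPolyH u J) =
      homogeneousComponent 1 l * homogeneousComponent c (pPolyH u J) := by
    rw [comp_mul_sum, Finset.sum_eq_single 1]
    · simp
    · intro j hj hj1
      have := Finset.mem_range.1 hj
      rcases Nat.eq_zero_or_pos j with rfl | hj0
      · rw [hl0, zero_mul]
      · rw [comp_eq_zero_of_lt (J := J) (by omega : c + 1 - j < c), mul_zero]
    · intro h; exact absurd (Finset.mem_range.2 (by omega)) h
  refine le_antisymm (Nat.sInf_le ?_) (le_csInf ⟨c + 1, ?_⟩ fun i hi => ?_)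
  · show homogeneousComponent (c + 1) (pPolyH u (J ⊔ Ideal.span {X v})) ≠ 0
    rw [e, hhi]
    exact mul_ne_zero hl1 (comp_ordH hu hJ hp.ne_top)
  · show homogeneousComponent (c + 1) (pPolyH u (J ⊔ Ideal.span {X v})) ≠ 0
    rw [e, hhi]
    exact mul_ne_zero hl1 (comp_ordH hu hJ hp.ne_top)
  · by_contra hlt
    refine hi ?_
    rw [e]
    exact hlo i (by omega)

/-- A homogeneous prime above a homogeneous ideal with the same codimension. -/
theorem exists_prime_ordH (hu : Pos u) (J : Ideal (MvPolynomial τ ℚ)) :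
    IsGr u J → J ≠ ⊤ → ∃ P : Ideal (MvPolynomial τ ℚ),
      IsGr u P ∧ P.IsPrime ∧ J ≤ P ∧ ordH u P = ordH u J := by
  induction J using WellFoundedGT.induction with
  | ind J ih =>
    intro hJ hne
    by_cases hhom : ∀ f g, Hom u f → Hom u g → f * g ∈ J → f ∈ J ∨ g ∈ J
    · exact ⟨J, hJ, isPrime_of_homogeneous hJ hne hhom, le_rfl, rfl⟩
    push Not at hhom
    obtain ⟨f, g, hf, hg, hfg, hfJ, hgJ⟩ := hhom
    obtain ⟨γ, hγ⟩ := hf
    set A := colonEl J f
    set B := J ⊔ Ideal.span {f}
    have hA : IsGr u A := hJ.colon hγ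
    have hB : IsGr u B := hJ.sup (isGr_span_singleton ⟨γ, hγ⟩)
    have hJA : J < A := lt_of_le_of_ne (le_colonEl f) fun h => hgJ (h ▸ by
      show g * f ∈ J
      rwa [mul_comm])
    have hJB : J < B := lt_of_le_of_ne le_sup_left fun h =>
      hfJ (h ▸ Ideal.mem_sup_right (Ideal.mem_span_singleton_self f))
    have hAne : A ≠ ⊤ := fun h => hfJ (by
      have : (1 : MvPolynomial τ ℚ) ∈ A := h ▸ trivial
      simpa [A, colonEl] using this)
    have hle := ordH_mono hu hJ hA hJA.le hAne
    rcases hle.eq_or_lt with heq | hlt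
    · obtain ⟨P, h1, h2, h3, h4⟩ := ih A hJA hA hAne
      exact ⟨P, h1, h2, hJA.le.trans h3, h4.trans heq.symm⟩
    have hBc : homogeneousComponent (ordH u J) (pPolyH u B) ≠ 0 := by
      have h := comp_ordH hu hJ hne
      rwa [pPolyH_split hu hJ hγ, map_add, comp_mul_sum, Finset.sum_eq_zero (fun i _ => by
        rw [comp_eq_zero_of_lt (J := A) (by omega : ordH u J - i < ordH u A), mul_zero]),
        zero_add] at h
    have hBne : B ≠ ⊤ := fun h => hBc (by rw [h, pPolyH_top hu, map_zero])
    have hBord : ordH u B = ordH u J :=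
      le_antisymm (Nat.sInf_le hBc) (ordH_mono hu hJ hB hJB.le hBne)
    obtain ⟨P, h1, h2, h3, h4⟩ := ih B hJB hB hBne
    exact ⟨P, h1, h2, hJB.le.trans h3, h4.trans hBord⟩

/-- The variables in a finite set generate a prime of codimension their number. -/
theorem ordH_vars (hu : Pos u) (s : Finset τ) :
    (Ideal.span ((X : τ → MvPolynomial τ ℚ) '' s)).IsPrime ∧
      ordH u (Ideal.span ((X : τ → MvPolynomial τ ℚ) '' s)) = s.card := by
  classical
  let θ : Finset τ → (MvPolynomial τ ℚ →ₐ[ℚ] MvPolynomial τ ℚ) := fun s =>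
    aeval fun v => if v ∈ s then 0 else X v
  have hker : ∀ s : Finset τ, Ideal.span ((X : τ → MvPolynomial τ ℚ) '' s) = RingHom.ker (θ s) := by
    intro s
    refine le_antisymm (Ideal.span_le.2 ?_) fun f hf => ?_
    · rintro _ ⟨v, hv, rfl⟩
      simp [θ, Finset.mem_coe.1 hv]
    · set I := Ideal.span ((X : τ → MvPolynomial τ ℚ) '' s)
      have e : (Ideal.Quotient.mkₐ ℚ I).comp (θ s) = Ideal.Quotient.mkₐ ℚ I := by
        refine algHom_ext fun v => ?_
        simp only [θ, AlgHom.comp_apply, aeval_X]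
        split_ifs with hv
        · rw [map_zero]
          exact (Ideal.Quotient.eq_zero_iff_mem.2 (Ideal.subset_span
            (Set.mem_image_of_mem X (Finset.mem_coe.2 hv)))).symm
        · rfl
      have := DFunLike.congr_fun e f
      rw [AlgHom.comp_apply, RingHom.mem_ker.1 hf, map_zero] at this
      exact Ideal.Quotient.eq_zero_iff_mem.1 this.symm
  have hprime : ∀ s : Finset τ, (Ideal.span ((X : τ → MvPolynomial τ ℚ) '' s)).IsPrime :=
    fun s => hker s ▸ RingHom.ker_isPrime _
  refine ⟨hprime s, ?_⟩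
  induction s using Finset.induction_on with
  | empty =>
    simp only [Finset.coe_empty, Set.image_empty, Ideal.span_empty, Finset.card_empty]
    refine Nat.eq_zero_of_le_zero (Nat.sInf_le ?_)
    show homogeneousComponent 0 (pPolyH u ⊥) ≠ 0
    rw [pPolyH_bot hu, homogeneousComponent_zero]
    simp
  | insert v s hv ih =>
    have hgr : IsGr u (Ideal.span ((X : τ → MvPolynomial τ ℚ) '' s)) :=
      isGr_span fun g ⟨w, _, hw⟩ => hw ▸ hom_X w
    rw [Finset.coe_insert, Set.image_insert_eq, Ideal.span_insert, sup_comm, ordH_cut hu hgr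
      (hprime s) ?_, ih, Finset.card_insert_of_notMem hv]
    rw [hker s, RingHom.mem_ker]
    simp [θ, hv, X_ne_zero]

omit [Fintype τ] in
theorem sub_const_mem (f : MvPolynomial τ ℚ) :
    f - C (constantCoeff f) ∈ Ideal.span (Set.range (X : τ → MvPolynomial τ ℚ)) := by
  induction f using MvPolynomial.induction_on with
  | C a => simp
  | add p q hp hq => rw [map_add, map_add, add_sub_add_comm]; exact add_mem hp hq
  | mul_X p v _ =>
    simp only [map_mul, constantCoeff_X, mul_zero, map_zero, sub_zero]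
    exact Ideal.mul_mem_left _ _ (Ideal.subset_span ⟨v, rfl⟩)

theorem ordH_trdeg_aux (hu : Pos u) (J : Ideal (MvPolynomial τ ℚ)) :
    IsGr u J → J.IsPrime → ordH u J ≤ Fintype.card τ ∧
      Algebra.trdeg ℚ (MvPolynomial τ ℚ ⧸ J) = ((Fintype.card τ - ordH u J : ℕ) : Cardinal) := by
  classical
  induction J using WellFoundedGT.induction with
  | ind J ih =>
    intro hJ hp
    by_cases hall : ∀ v, X v ∈ J
    · have hle : Ideal.span ((X : τ → MvPolynomial τ ℚ) '' (Finset.univ : Finset τ)) ≤ J :=
        Ideal.span_le.2 fun x ⟨v, _, hv⟩ => hv ▸ hall v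
      have heq : J = Ideal.span ((X : τ → MvPolynomial τ ℚ) '' (Finset.univ : Finset τ)) := by
        refine le_antisymm (fun f hf => ?_) hle
        have h := le_ker_constantCoeff hu hJ hp.ne_top hf
        rw [Finset.coe_univ, Set.image_univ]
        simpa [RingHom.mem_ker.1 h] using sub_const_mem f
      have hord : ordH u J = Fintype.card τ := by
        rw [heq, (ordH_vars hu Finset.univ).2, Finset.card_univ]
      refine ⟨hord.le, ?_⟩
      rw [hord, Nat.sub_self, Nat.cast_zero, trdeg_eq_zero_iff]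
      refine ⟨fun x => ?_⟩
      obtain ⟨f, rfl⟩ := Ideal.Quotient.mk_surjective x
      have : Ideal.Quotient.mk J f = algebraMap ℚ _ (constantCoeff f) := by
        refine Ideal.Quotient.eq.2 (hle ?_)
        rw [Finset.coe_univ, Set.image_univ]
        exact sub_const_mem f
      rw [this]
      exact isAlgebraic_algebraMap _
    push Not at hall
    obtain ⟨v, hv⟩ := hall
    set J' := J ⊔ Ideal.span {X v}
    have hJ' : IsGr u J' := hJ.sup (isGr_span_singleton (hom_X v))
    have hJ'ne : J' ≠ ⊤ := cut_ne_top hu hJ hp.ne_top v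
    obtain ⟨P, hP, hPp, hJP, hPord⟩ := exists_prime_ordH hu J' hJ' hJ'ne
    rw [ordH_cut hu hJ hp hv] at hPord
    have hJPlt : J < P := lt_of_le_of_ne (le_sup_left.trans hJP) fun h =>
      hv (h ▸ hJP (Ideal.mem_sup_right (Ideal.mem_span_singleton_self _)))
    obtain ⟨hPle, hPtr⟩ := ih P hJPlt hP hPp
    -- `P` is minimal over `J'`
    have hmin : P ∈ J'.minimalPrimes := by
      obtain ⟨P₀, hP₀, hP₀P⟩ := Ideal.exists_minimalPrimes_le hJP
      have hP₀p := hP₀.1.1
      let Q : Ideal (MvPolynomial τ ℚ) := Ideal.span {g | Hom u g ∧ g ∈ P₀}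
      have hQle : Q ≤ P₀ := Ideal.span_le.2 fun g hg => hg.2
      have hQgr : IsGr u Q := isGr_span fun g hg => hg.1
      have hQp : Q.IsPrime := isPrime_of_homogeneous hQgr
        (fun h => hP₀p.ne_top (top_unique (h ▸ hQle))) fun f g hf hg hfg =>
        (hP₀p.mem_or_mem (hQle hfg)).imp (fun h => Ideal.subset_span ⟨hf, h⟩)
          fun h => Ideal.subset_span ⟨hg, h⟩
      have hJ'Q : J' ≤ Q := fun f hf => IsGr.mem_of_components (w := u) f fun m =>
        Ideal.subset_span ⟨⟨m, weightedHomogeneousComponent_isWeightedHomogeneous (w := u) m f⟩,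
          hP₀.1.2 (hJ' f hf m)⟩
      have hQP : Q = P := by
        by_contra hne
        have h1 := ordH_lt hu hQgr hQp hP (lt_of_le_of_ne (hQle.trans hP₀P) hne) hPp.ne_top
        have h2 := ordH_mono hu hJ' hQgr hJ'Q hQp.ne_top
        rw [ordH_cut hu hJ hp hv] at h2
        omega
      rwa [← le_antisymm hP₀P (hQP ▸ hQle)]
    set A := MvPolynomial τ ℚ ⧸ J
    have hmin' : P.map (Ideal.Quotient.mkₐ ℚ J) ∈
        (Ideal.span {Ideal.Quotient.mkₐ ℚ J (X v)}).minimalPrimes := by
      have hk : RingHom.ker (Ideal.Quotient.mk J) ≤ P := by rw [Ideal.mk_ker]; exact hJPlt.le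
      have hPc : (P.map (Ideal.Quotient.mk J)).comap (Ideal.Quotient.mk J) = P := by
        rw [Ideal.comap_map_of_surjective' _ Ideal.Quotient.mk_surjective]
        exact sup_eq_left.2 hk
      refine ⟨⟨Ideal.map_isPrime_of_surjective Ideal.Quotient.mk_surjective hk, ?_⟩,
        fun R hR hRP => ?_⟩
      · rw [Ideal.span_singleton_le_iff_mem]
        exact Ideal.mem_map_of_mem _ (hJP (Ideal.mem_sup_right (Ideal.mem_span_singleton_self _)))
      · have hR1 := hR.1
        have hcp : R.comap (Ideal.Quotient.mk J) ≤ P := hPc ▸ Ideal.comap_mono hRP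
        have hJR : J' ≤ R.comap (Ideal.Quotient.mk J) := by
          refine sup_le ?_ ((Ideal.span_singleton_le_iff_mem _).2
            (show Ideal.Quotient.mk J (X v) ∈ R from
              hR.2 (Ideal.mem_span_singleton_self _)))
          intro f hf
          rw [Ideal.mem_comap, Ideal.Quotient.eq_zero_iff_mem.2 hf]
          exact zero_mem _
        have := hmin.2 ⟨Ideal.IsPrime.comap _, hJR⟩ hcp
        exact Ideal.map_le_iff_le_comap.2 this
    have hf0 : Ideal.Quotient.mkₐ ℚ J (X v) ≠ 0 := fun h => hv (Ideal.Quotient.eq_zero_iff_mem.1 h)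
    have hfin : Algebra.FiniteType ℚ A :=
      Algebra.FiniteType.of_surjective (Ideal.Quotient.mkₐ ℚ J) Ideal.Quotient.mk_surjective
    have hkr := trdeg_quot_minimalPrime hf0 hmin'
    let eq := DoubleQuot.quotQuotEquivQuotOfLEₐ ℚ hJPlt.le
    have he : Algebra.trdeg ℚ (A ⧸ P.map (Ideal.Quotient.mkₐ ℚ J)) =
        Algebra.trdeg ℚ (MvPolynomial τ ℚ ⧸ P) :=
      le_antisymm (trdeg_le_of_injective eq.toAlgHom eq.injective)
        (trdeg_le_of_injective eq.symm.toAlgHom eq.symm.injective)
    rw [he, hPtr] at hkr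
    refine ⟨by omega, ?_⟩
    rw [← hkr, hPord]
    norm_cast
    omega

theorem ordH_trdeg (hu : Pos u) {J : Ideal (MvPolynomial τ ℚ)} (hJ : IsGr u J) (hp : J.IsPrime) :
    ordH u J ≤ Fintype.card τ ∧
      Algebra.trdeg ℚ (MvPolynomial τ ℚ ⧸ J) = ((Fintype.card τ - ordH u J : ℕ) : Cardinal) :=
  ordH_trdeg_aux hu J hJ hp

end Vale.Agent.P199.Full
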