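import Vale.Agent.P199.Full.Grade

/-!
Kurosh's problem for division rings, full disproof, module M1a: the numerator of the Hilbert series
of a homogeneous ideal for a positive multigrading, expanded at `t = 1 - X`.

The numerator is built by induction on the set of variables outside the ideal and noetherian
induction on the ideal: for a variable `X v` outside `J` either `X v` is regular modulo `J`, or both
`colonEl J (X v)` and `J + (X v)` are strictly larger than `J`. The same induction shows that the
lowest part of the numerator at `t = 1 - X` has nonnegative coefficients.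
-/

noncomputable section

namespace Vale.Agent.P199.Full

open MvPolynomial

section Hilbert

variable {τ D : Type} {u : τ → (D →₀ ℕ)} {J J' : Ideal (MvPolynomial τ ℚ)}
  {f : MvPolynomial τ ℚ} {γ : D →₀ ℕ}

/-! ### Graded ideals -/

/-- The component of a multiple of a homogeneous element. -/
theorem whc_mul (a : MvPolynomial τ ℚ) (hf : IsWeightedHomogeneous u f γ) (δ : D →₀ ℕ) :
    weightedHomogeneousComponent u δ (a * f) =
      if γ ≤ δ then weightedHomogeneousComponent u (δ - γ) a * f else 0 := by
  classical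
  induction a using MvPolynomial.induction_on' with
  | monomial e c =>
    have h1 : IsWeightedHomogeneous u (monomial e c) (Finsupp.weight u e) :=
      isWeightedHomogeneous_monomial u e c rfl
    rw [weightedHomogeneousComponent_of_mem ((mem_weightedHomogeneousSubmodule _ _ _ _).2 (h1.mul hf))]
    by_cases hle : γ ≤ δ
    · rw [if_pos hle,
        weightedHomogeneousComponent_of_mem ((mem_weightedHomogeneousSubmodule _ _ _ _).2 h1)]
      by_cases he : δ = Finsupp.weight u e + γ
      · rw [if_pos he, if_pos (by rw [he, add_tsub_cancel_right])]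
      · rw [if_neg he, if_neg fun h => he (by rw [← h, tsub_add_cancel_of_le hle]), zero_mul]
    · rw [if_neg hle, if_neg]
      intro he
      exact hle (he.symm ▸ le_add_self)
  | add p q hp hq =>
    rw [add_mul, map_add, hp, hq]
    split_ifs
    · rw [map_add, add_mul]
    · rw [add_zero]

theorem isGr_span_singleton' (hf : IsWeightedHomogeneous u f γ) :
    IsGr u (Ideal.span {f} : Ideal (MvPolynomial τ ℚ)) := by
  intro x hx δ
  obtain ⟨a, rfl⟩ := Ideal.mem_span_singleton'.1 hx
  rw [whc_mul a hf δ]
  split_ifs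
  · exact Ideal.mul_mem_left _ _ (Ideal.mem_span_singleton_self f)
  · exact Submodule.zero_mem _

theorem IsGr.sup' (hJ : IsGr u J) (hJ' : IsGr u J') : IsGr u (J ⊔ J') := by
  intro x hx δ
  obtain ⟨a, ha, b, hb, rfl⟩ := Submodule.mem_sup.1 hx
  rw [map_add]
  exact Submodule.add_mem_sup (hJ a ha δ) (hJ' b hb δ)

theorem mem_colonEl' {a : MvPolynomial τ ℚ} : a ∈ colonEl J f ↔ a * f ∈ J := Iff.rfl

theorem le_colonEl' : J ≤ colonEl J f := fun _ h => Ideal.mul_mem_right _ _ h

theorem isGr_colonEl (hJ : IsGr u J) (hf : IsWeightedHomogeneous u f γ) :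
    IsGr u (colonEl J f) := by
  intro a ha δ
  have h := hJ _ (mem_colonEl'.1 ha) (δ + γ)
  rwa [whc_mul a hf, if_pos le_add_self, add_tsub_cancel_right] at h

theorem isGr_bot' : IsGr u (⊥ : Ideal (MvPolynomial τ ℚ)) := by
  intro f hf δ
  rw [Submodule.mem_bot] at hf ⊢
  rw [hf, map_zero]

theorem isGr_top' : IsGr u (⊤ : Ideal (MvPolynomial τ ℚ)) := fun _ _ _ => trivial

/-- A homogeneous ideal strictly inside another misses a homogeneous element of it. -/
theorem exists_homogeneous_notMem (hJ' : IsGr u J') (h : J < J') :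
    ∃ g δ, IsWeightedHomogeneous u g δ ∧ g ∈ J' ∧ g ∉ J := by
  classical
  obtain ⟨x, hx', hx⟩ := SetLike.exists_of_lt h
  by_contra hc
  push Not at hc
  refine hx ?_
  rw [← sum_weightedHomogeneousComponent u x]
  exact finsum_induction (· ∈ J) J.zero_mem (fun _ _ ha hb => J.add_mem ha hb)
    fun δ => hc _ δ (weightedHomogeneousComponent_isWeightedHomogeneous δ x) (hJ' x hx' δ)

/-! ### Pieces -/

/-- The weight of every exponent bounds it, so every piece is finite-dimensional. -/
theorem exponents_finite [Fintype τ] (hu : Pos u) (δ : D →₀ ℕ) :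
    {e : τ →₀ ℕ | Finsupp.weight u e = δ}.Finite := by
  classical
  refine (Set.finite_Iic (Finsupp.equivFunOnFinite.symm fun _ => δ.degree)).subset fun e he v => ?_
  simp only [Finsupp.equivFunOnFinite_symm_apply_apply]
  rw [← (he : Finsupp.weight u e = δ)]
  obtain ⟨o, ho⟩ : ∃ o, u v o ≠ 0 := by
    by_contra hc
    push Not at hc
    exact hu v (Finsupp.ext hc)
  have h1 : e v • u v ≤ Finsupp.weight u e := by
    rw [Finsupp.weight_apply, Finsupp.sum_fintype _ _ (by simp)]
    exact Finset.single_le_sum (f := fun w => e w • u w) (fun w _ => by simp) (Finset.mem_univ v)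
  calc e v ≤ e v * u v o := Nat.le_mul_of_pos_right _ (Nat.pos_of_ne_zero ho)
    _ = (e v • u v) o := by simp
    _ ≤ Finsupp.weight u e o := h1 o
    _ ≤ (Finsupp.weight u e).degree := Finsupp.le_degree o _

theorem piece_finite [Fintype τ] (hu : Pos u) (δ : D →₀ ℕ) :
    Module.Finite ℚ (weightedHomogeneousSubmodule ℚ u δ) := by
  have hfg : (Submodule.span ℚ ((fun e => monomial e (1 : ℚ)) '' {e : τ →₀ ℕ | Finsupp.weight u e = δ})).FG :=
    Submodule.fg_span ((exponents_finite hu δ).image _)
  have := Module.Finite.of_fg hfg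
  refine Submodule.finiteDimensional_of_le (S₂ := Submodule.span ℚ
    ((fun e => monomial e (1 : ℚ)) '' {e : τ →₀ ℕ | Finsupp.weight u e = δ})) fun x hx => ?_
  rw [x.as_sum]
  refine Submodule.sum_mem _ fun e he => ?_
  rw [← mul_one (coeff e x), ← smul_eq_mul, ← smul_monomial]
  exact Submodule.smul_mem _ _ (Submodule.subset_span ⟨e, hx (mem_support_iff.1 he), rfl⟩)

theorem finrank_map_eq {A B C : Type} [AddCommGroup A] [Module ℚ A] [AddCommGroup B] [Module ℚ B]
    [AddCommGroup C] [Module ℚ C] (S : Submodule ℚ A) [Module.Finite ℚ S] (g : A →ₗ[ℚ] B)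
    (h : A →ₗ[ℚ] C) (hgh : ∀ a ∈ S, g a = 0 ↔ h a = 0) :
    Module.finrank ℚ (S.map g) = Module.finrank ℚ (S.map h) := by
  have hk : LinearMap.ker (g.domRestrict S) = LinearMap.ker (h.domRestrict S) := by
    ext a
    simp only [LinearMap.mem_ker, LinearMap.domRestrict_apply]
    exact hgh a a.2
  have h1 := (g.domRestrict S).finrank_range_add_finrank_ker
  have h2 := (h.domRestrict S).finrank_range_add_finrank_ker
  rw [LinearMap.range_domRestrict] at h1 h2
  rw [hk] at h1
  omega

/-- The Hilbert functions in the short exact sequence of multiplication by `f`. -/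
theorem hilb_split [Fintype τ] (hu : Pos u) (hJ : IsGr u J) (hf : IsWeightedHomogeneous u f γ)
    (δ : D →₀ ℕ) : hilb u J δ =
      (if γ ≤ δ then hilb u (colonEl J f) (δ - γ) else 0) + hilb u (J ⊔ Ideal.span {f}) δ := by
  classical
  have hfin := piece_finite hu δ
  set R := weightedHomogeneousSubmodule ℚ u δ with hR
  set p := (Ideal.Quotient.mkₐ ℚ J).toLinearMap with hp
  set q := (Ideal.Quotient.mkₐ ℚ (J ⊔ Ideal.span {f})).toLinearMap with hq
  set π := (Ideal.Quotient.factorₐ ℚ (le_sup_left : J ≤ J ⊔ Ideal.span {f})).toLinearMap with hπ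
  have hπp : π ∘ₗ p = q := LinearMap.ext fun x => rfl
  have hrn := (π.domRestrict (R.map p)).finrank_range_add_finrank_ker
  rw [LinearMap.range_domRestrict, ← Submodule.map_comp, hπp, LinearMap.ker_domRestrict] at hrn
  have hp0 : ∀ x, p x = 0 ↔ x ∈ J := fun x => Ideal.Quotient.eq_zero_iff_mem
  have hq0 : ∀ x, q x = 0 ↔ x ∈ J ⊔ Ideal.span {f} := fun x => Ideal.Quotient.eq_zero_iff_mem
  have hker : Module.finrank ℚ (Submodule.comap (R.map p).subtype (LinearMap.ker π)) =
      if γ ≤ δ then hilb u (colonEl J f) (δ - γ) else 0 := by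
    rw [← Submodule.finrank_map_subtype_eq, Submodule.map_comap_subtype]
    split_ifs with hle
    · have hfin' := piece_finite hu (δ - γ)
      have hset : R.map p ⊓ LinearMap.ker π = (weightedHomogeneousSubmodule ℚ u (δ - γ)).map
          (p ∘ₗ LinearMap.mulRight ℚ f) := by
        ext y
        simp only [Submodule.mem_inf, Submodule.mem_map, LinearMap.mem_ker, LinearMap.comp_apply,
          LinearMap.mulRight_apply]
        constructor
        · rintro ⟨⟨x, hx, rfl⟩, hy⟩
          change q x = 0 at hy
          obtain ⟨j, hj, m, hm, hjm⟩ := Submodule.mem_sup.1 ((hq0 x).1 hy)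
          obtain ⟨a, rfl⟩ := Ideal.mem_span_singleton'.1 hm
          refine ⟨_, weightedHomogeneousComponent_mem u a (δ - γ), sub_eq_zero.1 ?_⟩
          rw [← map_sub, hp0]
          have e : weightedHomogeneousComponent u δ j +
              weightedHomogeneousComponent u (δ - γ) a * f = x := by
            have := congrArg (weightedHomogeneousComponent u δ) hjm
            rwa [map_add, whc_mul a hf, if_pos hle,
              IsWeightedHomogeneous.weightedHomogeneousComponent_same hx] at this
          rw [← e, show ∀ a b : MvPolynomial τ ℚ, b - (a + b) = -a by intros; ring]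
          exact J.neg_mem (hJ j hj δ)
        · rintro ⟨a, ha, rfl⟩
          refine ⟨⟨a * f, ?_, rfl⟩, ?_⟩
          · rw [hR, mem_weightedHomogeneousSubmodule]
            have := IsWeightedHomogeneous.mul ha hf
            rwa [tsub_add_cancel_of_le hle] at this
          · change q (a * f) = 0
            rw [hq0]
            exact Submodule.mem_sup_right (Ideal.mul_mem_left _ _ (Ideal.mem_span_singleton_self f))
      rw [hset, hilb]
      exact finrank_map_eq _ _ _ fun a _ => by
        rw [LinearMap.comp_apply, hp0]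
        exact Iff.symm Ideal.Quotient.eq_zero_iff_mem
    · have hset : R.map p ⊓ LinearMap.ker π = ⊥ := by
        rw [eq_bot_iff]
        rintro y ⟨⟨x, hx, rfl⟩, hy⟩
        change q x = 0 at hy
        obtain ⟨j, hj, m, hm, hjm⟩ := Submodule.mem_sup.1 ((hq0 x).1 hy)
        obtain ⟨a, rfl⟩ := Ideal.mem_span_singleton'.1 hm
        have := congrArg (weightedHomogeneousComponent u δ) hjm
        rw [map_add, whc_mul a hf, if_neg hle, add_zero,
          IsWeightedHomogeneous.weightedHomogeneousComponent_same hx] at this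
        rw [Submodule.mem_bot, hp0, ← this]
        exact hJ j hj δ
      rw [hset, finrank_bot]
  show Module.finrank ℚ (R.map p) = _ + Module.finrank ℚ (R.map q)
  rw [← hrn, hker, add_comm]

/-! ### Series -/

/-- The Hilbert series in the short exact sequence of multiplication by `f`. -/
theorem series_split [Fintype τ] (hu : Pos u) (hJ : IsGr u J) (hf : IsWeightedHomogeneous u f γ) :
    series u J = ((monomial γ 1 : MvPolynomial D ℤ) : MvPowerSeries D ℤ) * series u (colonEl J f) +
      series u (J ⊔ Ideal.span {f}) := by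
  classical
  ext δ
  rw [map_add, coe_monomial, MvPowerSeries.coeff_monomial_mul]
  show (hilb u J δ : ℤ) = _
  rw [hilb_split hu hJ hf δ]
  split_ifs with h
  · rw [one_mul]; push_cast; rfl
  · push_cast; rfl

theorem series_cut [Fintype τ] (hu : Pos u) (hJ : IsGr u J) (hf : IsWeightedHomogeneous u f γ)
    (hreg : colonEl J f = J) : series u (J ⊔ Ideal.span {f}) =
      ((1 - monomial γ 1 : MvPolynomial D ℤ) : MvPowerSeries D ℤ) * series u J := by
  have h := series_split hu hJ hf
  rw [hreg] at h
  rw [← coeToMvPowerSeries.ringHom_apply, map_sub, map_one, coeToMvPowerSeries.ringHom_apply,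
    sub_mul, one_mul, eq_sub_iff_add_eq, add_comm]
  exact h.symm

theorem series_top : series u (⊤ : Ideal (MvPolynomial τ ℚ)) = 0 := by
  ext δ
  show (hilb u ⊤ δ : ℤ) = 0
  have : Subsingleton (MvPolynomial τ ℚ ⧸ (⊤ : Ideal (MvPolynomial τ ℚ))) :=
    Ideal.Quotient.subsingleton_iff.2 rfl
  rw [hilb, Submodule.eq_bot_of_subsingleton (p := (weightedHomogeneousSubmodule ℚ u δ).map _),
    finrank_bot, Nat.cast_zero]

/-- In degree `0` a proper ideal leaves the scalars. -/
theorem hilb_zero [Fintype τ] (hu : Pos u) (h : J ≠ ⊤) : hilb u J 0 = 1 := by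
  classical
  have hS : weightedHomogeneousSubmodule ℚ u 0 = ℚ ∙ (1 : MvPolynomial τ ℚ) := by
    refine le_antisymm (fun x hx => Submodule.mem_span_singleton.2 ⟨coeff 0 x, ?_⟩) ?_
    · ext e
      rw [coeff_smul, coeff_one, smul_eq_mul, mul_ite, mul_one, mul_zero]
      split_ifs with he
      · rw [he]
      · by_contra hne
        have hw : Finsupp.weight u e = 0 := hx (Ne.symm hne)
        refine he (Finsupp.ext fun v => ?_)
        obtain ⟨o, ho⟩ : ∃ o, u v o ≠ 0 := by
          by_contra hc
          push Not at hc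
          exact hu v (Finsupp.ext hc)
        have h1 : e v • u v ≤ Finsupp.weight u e := by
          rw [Finsupp.weight_apply, Finsupp.sum_fintype _ _ (by simp)]
          exact Finset.single_le_sum (f := fun w => e w • u w) (fun w _ => by simp)
            (Finset.mem_univ v)
        have h2 := h1 o
        rw [hw] at h2
        have h3 : e v * u v o ≤ 0 := by simpa using h2
        simpa using ((mul_eq_zero.1 (Nat.le_zero.1 h3)).resolve_right ho).symm
    · rw [Submodule.span_singleton_le_iff_mem]
      exact isWeightedHomogeneous_one ℚ u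
  rw [hilb, hS, Submodule.map_span, Set.image_singleton]
  refine finrank_span_singleton fun h0 => h ((Ideal.eq_top_iff_one J).2 ?_)
  exact Ideal.Quotient.eq_zero_iff_mem.1 h0

/-- An ideal containing all variables. -/
theorem series_of_all_X [Fintype τ] (hu : Pos u) (hX : ∀ v, X v ∈ J) :
    series u J = if J = ⊤ then 0 else 1 := by
  classical
  split_ifs with h
  · rw [h, series_top]
  ext δ
  show (hilb u J δ : ℤ) = _
  rw [MvPowerSeries.coeff_one]
  split_ifs with hδ
  · rw [hδ, hilb_zero hu h, Nat.cast_one]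
  · rw [hilb, Nat.cast_eq_zero, show (weightedHomogeneousSubmodule ℚ u δ).map
        (Ideal.Quotient.mkₐ ℚ J).toLinearMap = ⊥ from ?_, finrank_bot]
    refine (Submodule.eq_bot_iff _).2 ?_
    rintro _ ⟨x, hx, rfl⟩
    refine Ideal.Quotient.eq_zero_iff_mem.2 ?_
    rw [x.as_sum]
    refine Submodule.sum_mem _ fun e he => ?_
    obtain ⟨v, hv⟩ : ∃ v, e v ≠ 0 := by
      by_contra hc
      push Not at hc
      refine hδ ?_
      rw [← hx (mem_support_iff.1 he), show e = 0 from Finsupp.ext hc, map_zero]
    exact Ideal.mem_of_dvd J (X_dvd_monomial.2 (Or.inr hv)) (hX v)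

/-! ### Polynomials whose lowest part has nonnegative coefficients -/

/-- No monomials of degree less than `c`. -/
def VanBelow (P : MvPolynomial D ℤ) (c : ℕ) : Prop := ∀ d : D →₀ ℕ, d.degree < c → coeff d P = 0

/-- The lowest part has nonnegative coefficients. -/
def LowPos (P : MvPolynomial D ℤ) : Prop := ∀ d : D →₀ ℕ, VanBelow P d.degree → 0 ≤ coeff d P

theorem lowPos_zero : LowPos (0 : MvPolynomial D ℤ) := fun d _ => by simp

theorem lowPos_of_coeff_zero {P : MvPolynomial D ℤ} (h : coeff 0 P = 1) : LowPos P := by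
  intro d hd
  rcases Nat.eq_zero_or_pos d.degree with h0 | h0
  · rw [(Finsupp.degree_eq_zero_iff d).1 h0, h]; exact zero_le_one
  · exact absurd (hd 0 (by simpa using h0)) (by simp [h])

theorem vanBelow_of_add {P Q : MvPolynomial D ℤ} (hP : LowPos P) (hQ : LowPos Q) :
    ∀ {c}, VanBelow (P + Q) c → VanBelow P c ∧ VanBelow Q c := by
  intro c h
  have key : ∀ n d, Finsupp.degree (d : D →₀ ℕ) = n → n < c → coeff d P = 0 ∧ coeff d Q = 0 := by
    intro n
    induction n using Nat.strong_induction_on with
    | _ n ih =>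
      intro d hd hn
      have h1 : VanBelow P d.degree := fun d' hd' => (ih _ (hd ▸ hd') d' rfl (by omega)).1
      have h2 : VanBelow Q d.degree := fun d' hd' => (ih _ (hd ▸ hd') d' rfl (by omega)).2
      have h3 := h d (by omega)
      rw [coeff_add] at h3
      have := hP d h1
      have := hQ d h2
      constructor <;> omega
  exact ⟨fun d hd => (key _ d rfl hd).1, fun d hd => (key _ d rfl hd).2⟩

theorem LowPos.add {P Q : MvPolynomial D ℤ} (hP : LowPos P) (hQ : LowPos Q) : LowPos (P + Q) := by
  intro d hd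
  obtain ⟨h1, h2⟩ := vanBelow_of_add hP hQ hd
  rw [coeff_add]
  exact add_nonneg (hP d h1) (hQ d h2)

theorem vanBelow_mul {P Q : MvPolynomial D ℤ} {a b : ℕ} (hP : VanBelow P a) (hQ : VanBelow Q b) :
    VanBelow (P * Q) (a + b) := by
  classical
  intro d hd
  rw [coeff_mul]
  refine Finset.sum_eq_zero fun x hx => ?_
  rw [Finset.HasAntidiagonal.mem_antidiagonal] at hx
  have : x.1.degree + x.2.degree = d.degree := by rw [← map_add, hx]
  rcases lt_or_ge x.1.degree a with h | h
  · rw [hP _ h, zero_mul]
  · rw [hQ _ (by omega), mul_zero]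

theorem exists_low {P : MvPolynomial D ℤ} (h : P ≠ 0) :
    ∃ a, VanBelow P a ∧ homogeneousComponent a P ≠ 0 := by
  classical
  obtain ⟨d, hd⟩ := ne_zero_iff.1 h
  have hex : ∃ a, ∃ d : D →₀ ℕ, d.degree = a ∧ coeff d P ≠ 0 := ⟨_, d, rfl, hd⟩
  refine ⟨Nat.find hex, fun d' hd' => ?_, ?_⟩
  · by_contra hne
    exact Nat.find_min hex hd' ⟨d', rfl, hne⟩
  · obtain ⟨d', hd', hne⟩ := Nat.find_spec hex
    refine ne_zero_iff.2 ⟨d', ?_⟩
    rwa [coeff_homogeneousComponent, if_pos hd']

theorem LowPos.mul {P Q : MvPolynomial D ℤ} (hP : LowPos P) (hQ : LowPos Q) : LowPos (P * Q) := by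
  classical
  by_cases hP0 : P = 0
  · rw [hP0, zero_mul]; exact lowPos_zero
  by_cases hQ0 : Q = 0
  · rw [hQ0, mul_zero]; exact lowPos_zero
  obtain ⟨a, ha, ha'⟩ := exists_low hP0
  obtain ⟨b, hb, hb'⟩ := exists_low hQ0
  intro d hd
  have hle : d.degree ≤ a + b := by
    by_contra hc
    obtain ⟨d0, hd0⟩ := ne_zero_iff.1 (mul_ne_zero ha' hb')
    have hdeg : d0.degree = a + b := by
      have := ((homogeneousComponent_isHomogeneous a P).mul
        (homogeneousComponent_isHomogeneous b Q)) hd0
      rw [Finsupp.degree_eq_weight_one]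
      exact this
    refine hd0 (Eq.trans ?_ (hd d0 (by omega)))
    rw [coeff_mul, coeff_mul]
    refine Finset.sum_congr rfl fun x hx => ?_
    rw [Finset.HasAntidiagonal.mem_antidiagonal] at hx
    have hsum : x.1.degree + x.2.degree = a + b := by rw [← map_add, hx, hdeg]
    rw [coeff_homogeneousComponent, coeff_homogeneousComponent]
    split_ifs with h1 h2
    · rfl
    · omega
    · rcases lt_or_ge x.1.degree a with h | h
      · simp [ha _ h]
      · simp [hb x.2 (by omega)]
    · rcases lt_or_ge x.1.degree a with h | h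
      · simp [ha _ h]
      · simp [hb x.2 (by omega)]
  rw [coeff_mul]
  refine Finset.sum_nonneg fun x hx => ?_
  rw [Finset.HasAntidiagonal.mem_antidiagonal] at hx
  have hsum : x.1.degree + x.2.degree = d.degree := by rw [← map_add, hx]
  rcases lt_or_ge x.1.degree a with h | h
  · rw [ha _ h, zero_mul]
  rcases lt_or_ge x.2.degree b with h' | h'
  · rw [hb _ h', mul_zero]
  exact mul_nonneg (hP _ fun e he => ha e (by omega)) (hQ _ fun e he => hb e (by omega))

/-! ### The substitution `t = 1 - X` -/

theorem subOne_subOne (P : MvPolynomial D ℤ) : subOne (subOne P) = P := by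
  have h : (subOne (D := D)).comp subOne = AlgHom.id ℤ _ := by
    refine MvPolynomial.algHom_ext fun o => ?_
    simp [subOne]
  exact DFunLike.congr_fun h P

theorem subOne_injective : Function.Injective (subOne (D := D)) :=
  Function.LeftInverse.injective subOne_subOne

theorem subOne_monomial (e : D →₀ ℕ) :
    subOne (monomial e (1 : ℤ)) = e.prod fun o k => (1 - X o : MvPolynomial D ℤ) ^ k := by
  rw [subOne, bind₁_monomial, C_1, one_mul, Finsupp.prod]

theorem coeff_zero_subOne_monomial (e : D →₀ ℕ) :
    coeff 0 (subOne (monomial e (1 : ℤ))) = 1 := by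
  rw [← constantCoeff_eq, subOne_monomial, map_finsuppProd]
  simp [Finsupp.prod]

theorem lowPos_subOne_monomial (e : D →₀ ℕ) : LowPos (subOne (monomial e (1 : ℤ))) :=
  lowPos_of_coeff_zero (coeff_zero_subOne_monomial e)

theorem vanBelow_one_sub (e : D →₀ ℕ) : VanBelow (1 - subOne (monomial e (1 : ℤ))) 1 := by
  intro d hd
  rw [(Finsupp.degree_eq_zero_iff d).1 (by omega), coeff_sub, coeff_zero_subOne_monomial]
  simp

/-- The linear part of `∏ (1 - X o) ^ e o` is `-∑ e o X o`. -/
theorem coeff_single_subOne_monomial (e : D →₀ ℕ) (o : D) :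
    coeff (Finsupp.single o 1) (subOne (monomial e (1 : ℤ))) = -(e o : ℤ) := by
  classical
  induction e using Finsupp.induction with
  | zero => rw [monomial_zero', C_1, map_one, coeff_one, if_neg (Finsupp.single_ne_zero.2 one_ne_zero).symm]; simp
  | single_add a k e' ha hk ih =>
    clear ha hk
    induction k with
    | zero => simpa using ih
    | succ k ihk =>
      rw [show Finsupp.single a (k + 1) + e' = Finsupp.single a 1 + (Finsupp.single a k + e') by
        rw [← add_assoc, ← Finsupp.single_add, add_comm 1 k]]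
      generalize Finsupp.single a k + e' = g at ihk ⊢
      rw [← one_mul (1 : ℤ), ← monomial_mul, map_mul,
        show subOne (monomial (Finsupp.single a 1) (1 : ℤ)) = (1 - X a : MvPolynomial D ℤ) by
          rw [subOne_monomial, Finsupp.prod_single_index (by simp), pow_one],
        sub_mul, one_mul, coeff_sub, ihk, coeff_X_mul', Finsupp.add_apply]
      rw [Finsupp.single_apply, Finsupp.support_single o one_ne_zero]
      by_cases hao : a = o
      · subst hao
        simp [coeff_zero_subOne_monomial]
        ring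
      · simp [hao]

theorem lowPos_one_sub (e : D →₀ ℕ) : LowPos (1 - subOne (monomial e (1 : ℤ))) := by
  classical
  by_cases he : e = 0
  · simp [he]; exact lowPos_zero
  obtain ⟨o, ho⟩ : ∃ o, e o ≠ 0 := by
    by_contra hc
    push Not at hc
    exact he (Finsupp.ext hc)
  intro d hd
  rcases Nat.lt_or_ge d.degree 2 with h | h
  · rcases Nat.lt_or_ge d.degree 1 with h1 | h1
    · exact le_of_eq (vanBelow_one_sub e d h1).symm
    · obtain ⟨o', rfl⟩ : ∃ o', d = Finsupp.single o' 1 :=
        (Finsupp.sum_eq_one_iff d).1 (show d.degree = 1 by omega)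
      rw [coeff_sub, coeff_single_subOne_monomial, coeff_one,
        if_neg (by intro h; simpa using DFunLike.congr_fun h o'), zero_sub, neg_neg]
      exact Int.natCast_nonneg _
  · refine absurd (hd (Finsupp.single o 1) (by rw [Finsupp.degree_single]; omega)) ?_
    rw [coeff_sub, coeff_single_subOne_monomial, coeff_one,
      if_neg (by intro h; simpa using DFunLike.congr_fun h o)]
    omega

theorem one_sub_monomial_ne_zero {e : D →₀ ℕ} (he : e ≠ 0) :
    (1 - monomial e (1 : ℤ) : MvPolynomial D ℤ) ≠ 0 := by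
  classical
  intro h
  have := congrArg (coeff 0) h
  simp [coeff_monomial, he] at this

/-! ### The numerator -/

/-- Numerator with denominator over `S`, with nonnegative lowest part at `t = 1 - X`. -/
theorem exists_numerator [Fintype τ] (hu : Pos u) (S : Finset τ) :
    ∀ J : Ideal (MvPolynomial τ ℚ), IsGr u J → (∀ v ∉ S, X v ∈ J) →
      ∃ K : MvPolynomial D ℤ, (K : MvPowerSeries D ℤ) =
          series u J * ((∏ v ∈ S, (1 - monomial (u v) 1) : MvPolynomial D ℤ) : MvPowerSeries D ℤ) ∧
        LowPos (subOne K) := by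
  classical
  induction S using Finset.induction with
  | empty =>
    intro J hJ hX
    rw [series_of_all_X hu fun v => hX v (by simp), Finset.prod_empty, coe_one, mul_one]
    split_ifs
    · exact ⟨0, coe_zero, by rw [map_zero]; exact lowPos_zero⟩
    · exact ⟨1, coe_one, by rw [map_one]; exact lowPos_of_coeff_zero (by simp)⟩
  | insert v S hv ih =>
    intro J
    induction J using WellFoundedGT.induction with
    | _ J ihJ =>
    intro hJ hX
    have hXv : IsWeightedHomogeneous u (X v : MvPolynomial τ ℚ) (u v) :=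
      isWeightedHomogeneous_X ℚ u v
    rw [Finset.prod_insert hv, coe_mul]
    by_cases hmem : X v ∈ J
    · obtain ⟨K, hK, hKp⟩ := ih J hJ fun w hw => by
        by_cases hwv : w = v
        · exact hwv ▸ hmem
        · exact hX w (by simp [hwv, hw])
      refine ⟨(1 - monomial (u v) 1) * K, ?_, ?_⟩
      · rw [coe_mul, hK]; ring
      · rw [map_mul, map_sub, map_one (subOne (D := D))]
        exact (lowPos_one_sub _).mul hKp
    have hJ' : IsGr u (J ⊔ Ideal.span {X v}) := hJ.sup' (isGr_span_singleton' hXv)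
    obtain ⟨K', hK', hK'p⟩ := ih _ hJ' fun w hw => by
      by_cases hwv : w = v
      · exact Submodule.mem_sup_right (hwv ▸ Ideal.mem_span_singleton_self _)
      · exact Submodule.mem_sup_left (hX w (by simp [hwv, hw]))
    by_cases hreg : colonEl J (X v) = J
    · refine ⟨K', ?_, hK'p⟩
      rw [hK', series_cut hu hJ hXv hreg]; ring
    · obtain ⟨K1, hK1, hK1p⟩ := ihJ (colonEl J (X v)) (lt_of_le_of_ne le_colonEl' (Ne.symm hreg))
        (isGr_colonEl hJ hXv) fun w hw => le_colonEl' (hX w hw)
      refine ⟨monomial (u v) 1 * K1 + (1 - monomial (u v) 1) * K', ?_, ?_⟩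
      · rw [series_split hu hJ hXv, coe_add, coe_mul, coe_mul, hK', hK1, Finset.prod_insert hv,
          coe_mul]
        ring
      · rw [map_add, map_mul, map_mul, map_sub, map_one (subOne (D := D))]
        exact ((lowPos_subOne_monomial _).mul hK1p).add ((lowPos_one_sub _).mul hK'p)

/-- The numerator is the Hilbert series times the product over all variables. -/
theorem kPoly_spec [Fintype τ] (hu : Pos u) (hJ : IsGr u J) :
    (kPoly u J : MvPowerSeries D ℤ) = series u J *
      ((∏ v : τ, (1 - monomial (u v) 1) : MvPolynomial D ℤ) : MvPowerSeries D ℤ) := by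
  classical
  obtain ⟨K, hK, -⟩ := exists_numerator hu Finset.univ J hJ (by simp)
  have hprod : ((∏ v : τ, (1 - monomial (u v) 1) : MvPolynomial D ℤ) : MvPowerSeries D ℤ) =
      ∏ v : τ, ((1 - monomial (u v) 1 : MvPolynomial D ℤ) : MvPowerSeries D ℤ) := by
    rw [← coeToMvPowerSeries.ringHom_apply, map_prod]; rfl
  have h : ∃ K : MvPolynomial D ℤ, (K : MvPowerSeries D ℤ) =
      series u J * ∏ v : τ, ((1 - monomial (u v) 1 : MvPolynomial D ℤ) : MvPowerSeries D ℤ) :=
    ⟨K, by rw [← hprod]; exact hK⟩
  rw [kPoly, dif_pos h, h.choose_spec, hprod]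

theorem kPoly_eq [Fintype τ] (hu : Pos u) (hJ : IsGr u J) {K : MvPolynomial D ℤ}
    (hK : (K : MvPowerSeries D ℤ) = series u J *
      ((∏ v : τ, (1 - monomial (u v) 1) : MvPolynomial D ℤ) : MvPowerSeries D ℤ)) :
    kPoly u J = K :=
  MvPolynomial.coe_injective D ℤ ((kPoly_spec hu hJ).trans hK.symm)

theorem lowPos_pPolyH [Fintype τ] (hu : Pos u) (hJ : IsGr u J) : LowPos (pPolyH u J) := by
  classical
  obtain ⟨K, hK, hKp⟩ := exists_numerator hu Finset.univ J hJ (by simp)
  rwa [pPolyH, kPoly_eq hu hJ hK]

/-! ### The interface -/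

section Interface

variable [Fintype τ] (hu : Pos u)
include hu

theorem pPolyH_top : pPolyH u (⊤ : Ideal (MvPolynomial τ ℚ)) = 0 := by
  rw [pPolyH, kPoly_eq hu isGr_top' (K := 0) (by rw [series_top, coe_zero, zero_mul]), map_zero]

theorem pPolyH_split (hJ : IsGr u J) {f} {γ : D →₀ ℕ} (hf : IsWeightedHomogeneous u f γ) :
    pPolyH u J =
      subOne (monomial γ 1) * pPolyH u (colonEl J f) + pPolyH u (J ⊔ Ideal.span {f}) := by
  have h : kPoly u J = monomial γ 1 * kPoly u (colonEl J f) + kPoly u (J ⊔ Ideal.span {f}) :=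
    kPoly_eq hu hJ (by
      rw [coe_add, coe_mul, kPoly_spec hu (isGr_colonEl hJ hf),
        kPoly_spec hu (hJ.sup' (isGr_span_singleton' hf)), series_split hu hJ hf]
      ring)
  rw [pPolyH, h, map_add, map_mul]; rfl

theorem pPolyH_cut (hJ : IsGr u J) {f} {γ : D →₀ ℕ} (hf : IsWeightedHomogeneous u f γ)
    (hreg : colonEl J f = J) :
    pPolyH u (J ⊔ Ideal.span {f}) = (1 - subOne (monomial γ 1)) * pPolyH u J := by
  have h := pPolyH_split hu hJ hf
  rw [hreg] at h
  linear_combination -h

theorem pPolyH_ne_zero (hJ : IsGr u J) (h : J ≠ ⊤) : pPolyH u J ≠ 0 := by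
  classical
  intro h0
  have hk : kPoly u J = 0 := subOne_injective (h0.trans (map_zero _).symm)
  have e := congrArg (MvPowerSeries.coeff 0) (kPoly_spec hu hJ)
  rw [hk, coe_zero, map_zero, MvPowerSeries.coeff_zero_eq_constantCoeff_apply, map_mul,
    ← MvPowerSeries.coeff_zero_eq_constantCoeff_apply,
    ← MvPowerSeries.coeff_zero_eq_constantCoeff_apply, MvPolynomial.coeff_coe,
    ← constantCoeff_eq, map_prod] at e
  rw [show MvPowerSeries.coeff 0 (series u J) = (hilb u J 0 : ℤ) from rfl, hilb_zero hu h,
    Finset.prod_eq_one fun v _ => by simp [constantCoeff_monomial, hu v]] at e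
  norm_num at e

theorem ordH_spec (hJ : IsGr u J) (h : J ≠ ⊤) :
    VanBelow (pPolyH u J) (ordH u J) ∧ homogeneousComponent (ordH u J) (pPolyH u J) ≠ 0 := by
  obtain ⟨a, ha, ha'⟩ := exists_low (pPolyH_ne_zero hu hJ h)
  have he : ordH u J = a := by
    refine le_antisymm (Nat.sInf_le ha') (le_csInf ⟨a, ha'⟩ fun c hc => ?_)
    by_contra hlt
    push Not at hlt
    refine hc (MvPolynomial.ext _ _ fun d => ?_)
    rw [coeff_homogeneousComponent, coeff_zero]
    split_ifs with hd
    · exact ha d (by omega)
    · rfl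
  exact he ▸ ⟨ha, ha'⟩

theorem le_ordH (hJ : IsGr u J) (h : J ≠ ⊤) {c : ℕ} (hc : VanBelow (pPolyH u J) c) :
    c ≤ ordH u J := by
  classical
  by_contra hlt
  push Not at hlt
  refine (ordH_spec hu hJ h).2 (MvPolynomial.ext _ _ fun d => ?_)
  rw [coeff_homogeneousComponent, coeff_zero]
  split_ifs with hd
  · exact hc d (by omega)
  · rfl

theorem lead_nonneg (hJ : IsGr u J) {c : ℕ} (hc : c ≤ ordH u J) (d : D →₀ ℕ) :
    0 ≤ coeff d (homogeneousComponent c (pPolyH u J)) := by
  classical
  rw [coeff_homogeneousComponent]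
  split_ifs with hd
  · refine lowPos_pPolyH hu hJ d fun d' hd' => ?_
    by_cases h : J = ⊤
    · rw [h, pPolyH_top hu]; rfl
    · exact (ordH_spec hu hJ h).1 d' (by omega)
  · exact le_rfl

theorem ordH_mono (hJ : IsGr u J) (hJ' : IsGr u J') (h : J ≤ J') (h' : J' ≠ ⊤) :
    ordH u J ≤ ordH u J' := by
  induction J using WellFoundedGT.induction with
  | _ J ih =>
  rcases eq_or_lt_of_le h with rfl | hlt
  · exact le_rfl
  obtain ⟨g, δ, hg, hgJ', hgJ⟩ := exists_homogeneous_notMem hJ' hlt
  have hK : IsGr u (J ⊔ Ideal.span {g}) := hJ.sup' (isGr_span_singleton' hg)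
  have hKJ' : J ⊔ Ideal.span {g} ≤ J' := sup_le h ((Ideal.span_singleton_le_iff_mem _).2 hgJ')
  have hlt' : J < J ⊔ Ideal.span {g} :=
    lt_of_le_of_ne le_sup_left fun e => hgJ (e ▸ Submodule.mem_sup_right
      (Ideal.mem_span_singleton_self g))
  refine le_trans ?_ (ih _ hlt' hK hKJ')
  have hKne : J ⊔ Ideal.span {g} ≠ ⊤ := fun e => h' (top_unique (e ▸ hKJ'))
  refine le_ordH hu hK hKne ?_
  have hsum := pPolyH_split hu hJ hg
  have hne : J ≠ ⊤ := fun e => h' (top_unique (e ▸ h))
  have hv := (ordH_spec hu hJ hne).1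
  rw [hsum] at hv
  exact (vanBelow_of_add ((lowPos_subOne_monomial δ).mul (lowPos_pPolyH hu (isGr_colonEl hJ hg)))
    (lowPos_pPolyH hu hK) hv).2

theorem ordH_lt (hJ : IsGr u J) (hp : J.IsPrime) (hJ' : IsGr u J') (h : J < J') (h' : J' ≠ ⊤) :
    ordH u J < ordH u J' := by
  obtain ⟨g, δ, hg, hgJ', hgJ⟩ := exists_homogeneous_notMem hJ' h
  have hreg : colonEl J g = J :=
    le_antisymm (fun a ha => (hp.mem_or_mem ha).resolve_right hgJ) le_colonEl'
  have hK : IsGr u (J ⊔ Ideal.span {g}) := hJ.sup' (isGr_span_singleton' hg)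
  have hKJ' : J ⊔ Ideal.span {g} ≤ J' := sup_le h.le ((Ideal.span_singleton_le_iff_mem _).2 hgJ')
  have hKne : J ⊔ Ideal.span {g} ≠ ⊤ := fun e => h' (top_unique (e ▸ hKJ'))
  refine Nat.lt_of_lt_of_le ?_ (ordH_mono hu hK hJ' hKJ' h')
  refine le_ordH hu hK hKne ?_
  rw [pPolyH_cut hu hJ hg hreg, Nat.succ_eq_add_one, add_comm]
  exact vanBelow_mul (vanBelow_one_sub δ) (ordH_spec hu hJ hp.ne_top).1

theorem pPolyH_bot : pPolyH u (⊥ : Ideal (MvPolynomial τ ℚ)) = 1 := by
  classical
  have key : ∀ T : Finset τ, IsGr u (Ideal.span (X '' (T : Set τ)) : Ideal (MvPolynomial τ ℚ)) ∧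
      series u (Ideal.span (X '' (T : Set τ)) : Ideal (MvPolynomial τ ℚ)) =
        series u (⊥ : Ideal (MvPolynomial τ ℚ)) *
          ((∏ v ∈ T, (1 - monomial (u v) 1) : MvPolynomial D ℤ) : MvPowerSeries D ℤ) := by
    intro T
    induction T using Finset.induction with
    | empty => simp [isGr_bot']
    | insert v T hv ih =>
      have hXv : IsWeightedHomogeneous u (X v : MvPolynomial τ ℚ) (u v) :=
        isWeightedHomogeneous_X ℚ u v
      have hI : (Ideal.span (X '' (↑(insert v T) : Set τ)) : Ideal (MvPolynomial τ ℚ)) =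
          Ideal.span (X '' (T : Set τ)) ⊔ Ideal.span {X v} := by
        rw [Finset.coe_insert, Set.image_insert_eq, Ideal.span_insert, sup_comm]
      have hreg : colonEl (Ideal.span (X '' (T : Set τ)) : Ideal (MvPolynomial τ ℚ)) (X v) =
          Ideal.span (X '' (T : Set τ)) := by
        refine le_antisymm (fun a ha => ?_) le_colonEl'
        rw [mem_colonEl', mem_ideal_span_X_image] at ha
        rw [mem_ideal_span_X_image]
        intro m hm
        have hm' : m + Finsupp.single v 1 ∈ (a * X v).support := by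
          rw [mem_support_iff, coeff_mul_X]; exact mem_support_iff.1 hm
        obtain ⟨i, hi, hne⟩ := ha _ hm'
        refine ⟨i, hi, ?_⟩
        have : i ≠ v := fun e => hv (e ▸ hi)
        simpa [this] using hne
      rw [hI, series_cut hu ih.1 hXv hreg, ih.2, Finset.prod_insert hv, coe_mul]
      exact ⟨ih.1.sup' (isGr_span_singleton' hXv), by ring⟩
  obtain ⟨-, h⟩ := key Finset.univ
  have hone : (1 : MvPolynomial τ ℚ) ∉ Ideal.span (X '' ((Finset.univ : Finset τ) : Set τ)) := by
    rw [mem_ideal_span_X_image]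
    simp
  rw [series_of_all_X (J := Ideal.span (X '' ((Finset.univ : Finset τ) : Set τ))) hu fun v => Ideal.subset_span ⟨v, by simp, rfl⟩,
    if_neg (show ¬ Ideal.span (X '' ((Finset.univ : Finset τ) : Set τ)) = ⊤ from
      fun e => hone (by rw [e]; trivial))] at h
  rw [pPolyH, kPoly_eq hu isGr_bot' (K := 1) (by rw [coe_one]; exact h), map_one]

end Interface

end Hilbert

end Vale.Agent.P199.Full
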