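import Vale.Agent.P199.Full.GradeBasic

/-!
Kurosh's problem for division rings, full disproof: homogenisation with one variable `z_j` of
degree `2 e_j` for each class coordinate.
-/

noncomputable section

namespace Vale.Agent.P199.Full

open MvPolynomial

set_option linter.unusedSectionVars false

variable {σ ι : Type} [Fintype ι] {w : σ → Deg ι} {I : Ideal (MvPolynomial σ ℚ)}

/-- The class mod `2` and weight of a lifted degree. -/
def proj (ι : Type) : (Option ι →₀ ℕ) →+ Deg ι where
  toFun γ := (fun j => (γ (some j) : ZMod 2), γ none)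
  map_zero' := by ext <;> simp
  map_add' a b := by ext <;> simp

theorem proj_lift_inl (w : σ → Deg ι) (v : σ) : proj ι (lift w (Sum.inl v)) = w v := by
  refine Prod.ext (funext fun j => ?_) rfl
  show ((lift w (Sum.inl v) (some j) : ℕ) : ZMod 2) = (w v).1 j
  simp only [lift, Sum.elim_inl, Finsupp.coe_equivFunOnFinite_symm, Option.elim_some]
  have h : ∀ a : ZMod 2, a = 0 ∨ a = 1 := by decide
  rcases h ((w v).1 j) with e | e <;> rw [e] <;> rfl

theorem proj_lift_inr (w : σ → Deg ι) (j : ι) : proj ι (lift w (Sum.inr j)) = 0 := by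
  classical
  refine Prod.ext (funext fun i => ?_) ?_
  · show ((lift w (Sum.inr j) (some i) : ℕ) : ZMod 2) = 0
    simp only [lift, Sum.elim_inr, Finsupp.single_apply, Option.some.injEq]
    split <;> rfl
  · show lift w (Sum.inr j) none = 0
    simp [lift]

/-- The exponent of a product of the new variables. -/
def ze (σ : Type) (e : ι →₀ ℕ) : σ ⊕ ι →₀ ℕ := Finsupp.mapDomain Sum.inr e

theorem weight_ze_some (w : σ → Deg ι) (e : ι →₀ ℕ) (j : ι) :
    Finsupp.weight (lift w) (ze σ e) (some j) = 2 * e j := by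
  classical
  induction e using Finsupp.induction_linear with
  | zero => simp [ze]
  | add a b ha hb =>
    rw [ze, Finsupp.mapDomain_add, map_add, Finsupp.add_apply, ← ze, ← ze, ha, hb,
      Finsupp.add_apply]
    ring
  | single i n =>
    rw [ze, Finsupp.mapDomain_single, Finsupp.weight_single]
    simp only [lift, Sum.elim_inr, Finsupp.smul_apply, Finsupp.single_apply, Option.some.injEq,
      smul_eq_mul]
    split <;> ring

theorem weight_ze_none (w : σ → Deg ι) (e : ι →₀ ℕ) :
    Finsupp.weight (lift w) (ze σ e) none = 0 := by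
  classical
  induction e using Finsupp.induction_linear with
  | zero => simp [ze]
  | add a b ha hb =>
    rw [ze, Finsupp.mapDomain_add, map_add, Finsupp.add_apply, ← ze, ← ze, ha, hb]
  | single i n =>
    rw [ze, Finsupp.mapDomain_single, Finsupp.weight_single]
    simp [lift]

theorem exists_ze (w : σ → Deg ι) {δ γ : Option ι →₀ ℕ} (hp : proj ι δ = proj ι γ)
    (hle : ∀ j, δ (some j) ≤ γ (some j)) :
    ∃ e : ι →₀ ℕ, γ = δ + Finsupp.weight (lift w) (ze σ e) := by
  refine ⟨Finsupp.equivFunOnFinite.symm fun j => (γ (some j) - δ (some j)) / 2, ?_⟩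
  ext o
  rcases o with _ | j
  · rw [Finsupp.add_apply, weight_ze_none, add_zero]
    exact (congrArg Prod.snd hp).symm
  · rw [Finsupp.add_apply, weight_ze_some]
    have h := (ZMod.natCast_eq_natCast_iff' (δ (some j)) (γ (some j)) 2).1
      (congrFun (congrArg Prod.fst hp) j)
    have := hle j
    simp only [Finsupp.coe_equivFunOnFinite_symm]
    omega

theorem deh_X_inl (v : σ) : deh σ ι (X (Sum.inl v)) = X v := by simp [deh]

theorem deh_X_inr (j : ι) : deh σ ι (X (Sum.inr j)) = 1 := by simp [deh]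

theorem deh_rename (f : MvPolynomial σ ℚ) : deh σ ι (rename Sum.inl f) = f := by
  rw [deh, aeval_rename, Sum.elim_comp_inl]
  exact aeval_X_left_apply f

theorem deh_ze (e : ι →₀ ℕ) :
    deh σ ι (monomial (ze σ e) 1) = 1 := by
  classical
  rw [deh, aeval_monomial, map_one, one_mul, ze, Finsupp.prod_mapDomain_index (by simp)
    (fun _ _ _ => pow_add _ _ _)]
  simp

theorem deh_resVar (v : σ) (b : MvPolynomial (σ ⊕ ι) ℚ) :
    deh σ ι (resVar (Sum.inl v) b) = resVar v (deh σ ι b) := by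
  have : (deh σ ι).comp (resVar (Sum.inl v)) = (resVar v).comp (deh σ ι) := by
    apply algHom_ext
    rintro (u | j)
    · by_cases h : u = v <;> simp [resVar, deh, h]
    · simp [resVar, deh]
  exact DFunLike.congr_fun this b

variable [Fintype σ]

/-- The exponent of the old variables. -/
def pl (s : σ ⊕ ι →₀ ℕ) : σ →₀ ℕ := Finsupp.equivFunOnFinite.symm fun v => s (Sum.inl v)

theorem deh_monomial (s : σ ⊕ ι →₀ ℕ) (r : ℚ) : deh σ ι (monomial s r) = monomial (pl s) r := by
  rw [deh, aeval_monomial, monomial_eq, Finsupp.prod_fintype _ _ (fun _ => pow_zero _),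
    Finsupp.prod_fintype _ _ (fun _ => pow_zero _), Fintype.prod_sum_type]
  simp [pl]

theorem proj_weight (w : σ → Deg ι) (s : σ ⊕ ι →₀ ℕ) :
    proj ι (Finsupp.weight (lift w) s) = Finsupp.weight w (pl s) := by
  rw [Finsupp.weight_apply, Finsupp.weight_apply, Finsupp.sum_fintype, Finsupp.sum_fintype,
    map_sum, Fintype.sum_sum_type]
  rotate_left
  · exact fun _ => zero_smul _ _
  · exact fun _ => zero_smul _ _
  simp [map_nsmul, proj_lift_inl, proj_lift_inr, pl]

theorem deh_hom {b : MvPolynomial (σ ⊕ ι) ℚ} {γ : Option ι →₀ ℕ}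
    (hb : IsWeightedHomogeneous (lift w) b γ) :
    IsWeightedHomogeneous w (deh σ ι b) (proj ι γ) := by
  rw [b.as_sum, map_sum]
  refine IsWeightedHomogeneous.sum _ _ _ fun s hs => ?_
  rw [deh_monomial]
  exact isWeightedHomogeneous_monomial _ _ _
    (by rw [← proj_weight, hb (mem_support_iff.1 hs)])

/-- The exponent filling a degree up to `γ`. -/
def zfill (w : σ → Deg ι) (γ : Option ι →₀ ℕ) (a : σ →₀ ℕ) : σ ⊕ ι →₀ ℕ :=
  Finsupp.equivFunOnFinite.symm
    (Sum.elim a fun j => (γ (some j) - ∑ v, a v * lift w (Sum.inl v) (some j)) / 2)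

theorem weight_lift_some (w : σ → Deg ι) (s : σ ⊕ ι →₀ ℕ) (j : ι) :
    Finsupp.weight (lift w) s (some j) =
      (∑ v, pl s v * lift w (Sum.inl v) (some j)) + 2 * s (Sum.inr j) := by
  classical
  rw [Finsupp.weight_apply, Finsupp.sum_fintype,
    Fintype.sum_sum_type, Finsupp.add_apply, Finsupp.finsetSum_apply, Finsupp.finsetSum_apply]
  swap
  · exact fun _ => zero_smul _ _
  simp only [Finsupp.smul_apply, smul_eq_mul, pl, Finsupp.coe_equivFunOnFinite_symm, lift,
    Sum.elim_inr, Finsupp.single_apply, Option.some.injEq, mul_ite, mul_zero]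
  rw [Finset.sum_ite_eq' Finset.univ j, if_pos (Finset.mem_univ j), mul_comm (s _) 2]

theorem zfill_pl (w : σ → Deg ι) (s : σ ⊕ ι →₀ ℕ) :
    zfill w (Finsupp.weight (lift w) s) (pl s) = s := by
  ext x
  rcases x with v | j
  · simp [zfill, pl]
  · simp only [zfill, Finsupp.coe_equivFunOnFinite_symm, Sum.elim_inr, weight_lift_some]
    omega

theorem pl_zfill (w : σ → Deg ι) (γ : Option ι →₀ ℕ) (a : σ →₀ ℕ) : pl (zfill w γ a) = a := by
  ext v
  simp [zfill, pl]

/-- Homogenisation in degree `γ`. -/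
def hz (w : σ → Deg ι) (γ : Option ι →₀ ℕ) :
    MvPolynomial σ ℚ →ₗ[ℚ] MvPolynomial (σ ⊕ ι) ℚ :=
  (weightedHomogeneousComponent (lift w) γ).comp
    ((basisMonomials σ ℚ).constr ℚ fun a => monomial (zfill w γ a) 1)

theorem hz_monomial (w : σ → Deg ι) (γ : Option ι →₀ ℕ) (a : σ →₀ ℕ) (r : ℚ) :
    hz w γ (monomial a r) =
      weightedHomogeneousComponent (lift w) γ (monomial (zfill w γ a) r) := by
  have h : monomial a r = r • basisMonomials σ ℚ a := by
    rw [coe_basisMonomials, smul_monomial, smul_eq_mul, mul_one]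
  rw [hz, LinearMap.comp_apply, h, map_smul, Module.Basis.constr_basis, smul_monomial, smul_eq_mul,
    mul_one]

theorem hz_isHom (w : σ → Deg ι) (γ : Option ι →₀ ℕ) (f : MvPolynomial σ ℚ) :
    IsWeightedHomogeneous (lift w) (hz w γ f) γ :=
  weightedHomogeneousComponent_isWeightedHomogeneous γ _

theorem hz_deh {b : MvPolynomial (σ ⊕ ι) ℚ} {γ : Option ι →₀ ℕ}
    (hb : IsWeightedHomogeneous (lift w) b γ) : hz w γ (deh σ ι b) = b := by
  conv_lhs => rw [b.as_sum, map_sum, map_sum]
  conv_rhs => rw [b.as_sum]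
  refine Finset.sum_congr rfl fun s hs => ?_
  have hγ := hb (mem_support_iff.1 hs)
  subst hγ
  rw [deh_monomial, hz_monomial, zfill_pl]
  exact (isWeightedHomogeneous_monomial _ _ _ rfl).weightedHomogeneousComponent_same

theorem hz_deh_of_ne {c : MvPolynomial (σ ⊕ ι) ℚ} {δ γ : Option ι →₀ ℕ}
    (hc : IsWeightedHomogeneous (lift w) c δ) (h : proj ι δ ≠ proj ι γ) :
    hz w γ (deh σ ι c) = 0 := by
  rw [c.as_sum, map_sum, map_sum]
  refine Finset.sum_eq_zero fun s hs => ?_
  rw [deh_monomial, hz_monomial]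
  refine (isWeightedHomogeneous_monomial _ _ _ rfl).weightedHomogeneousComponent_ne _ fun e => h ?_
  have hδ : Finsupp.weight (lift w) s = δ := hc (mem_support_iff.1 hs)
  rw [← hδ, proj_weight, e, proj_weight, pl_zfill]

theorem hz_deh_of_le {c : MvPolynomial (σ ⊕ ι) ℚ} {δ γ : Option ι →₀ ℕ}
    (hc : IsWeightedHomogeneous (lift w) c δ) (hp : proj ι δ = proj ι γ)
    (hle : ∀ j, δ (some j) ≤ γ (some j)) :
    ∃ e, hz w γ (deh σ ι c) = monomial (ze σ e) 1 * c := by
  obtain ⟨e, he⟩ := exists_ze w hp hle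
  refine ⟨e, ?_⟩
  have h1 : deh σ ι (monomial (ze σ e) 1 * c) = deh σ ι c := by rw [map_mul, deh_ze, one_mul]
  rw [← h1]
  refine hz_deh ?_
  rw [he, add_comm δ]
  exact (isWeightedHomogeneous_monomial _ _ _ rfl).mul hc

theorem eq_of_deh_eq {b c : MvPolynomial (σ ⊕ ι) ℚ} {γ : Option ι →₀ ℕ}
    (hb : IsWeightedHomogeneous (lift w) b γ) (hc : IsWeightedHomogeneous (lift w) c γ)
    (h : deh σ ι b = deh σ ι c) : b = c := by
  rw [← hz_deh hb, h, hz_deh hc]

theorem exists_hom_lift (w : σ → Deg ι) {f : MvPolynomial σ ℚ} {m : Deg ι}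
    (hf : IsWeightedHomogeneous w f m) :
    ∃ γ b, IsWeightedHomogeneous (lift w) b γ ∧ deh σ ι b = f ∧ proj ι γ = m := by
  classical
  let inj : (σ →₀ ℕ) → (σ ⊕ ι →₀ ℕ) := Finsupp.mapDomain Sum.inl
  let K : ι → ℕ := fun j => f.support.sup fun a => Finsupp.weight (lift w) (inj a) (some j)
  let γ : Option ι →₀ ℕ := Finsupp.equivFunOnFinite.symm fun o =>
    o.elim m.2 fun j => 2 * K j + (m.1 j).val
  have hγ : proj ι γ = m := by
    refine Prod.ext (funext fun j => ?_) rfl
    show ((2 * K j + (m.1 j).val : ℕ) : ZMod 2) = m.1 j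
    rw [Nat.cast_add, Nat.cast_mul, ZMod.natCast_val, ZMod.cast_id]
    simp [show (2 : ZMod 2) = 0 from rfl]
  refine ⟨γ, hz w γ f, hz_isHom w γ f, ?_, hγ⟩
  conv_lhs => rw [f.as_sum, map_sum, map_sum]
  conv_rhs => rw [f.as_sum]
  refine Finset.sum_congr rfl fun a ha => ?_
  have hpl : pl (inj a) = a := by
    ext v
    simp [inj, pl, Finsupp.mapDomain_apply Sum.inl_injective]
  have hwa : Finsupp.weight w a = m := hf (mem_support_iff.1 ha)
  obtain ⟨e, he⟩ := hz_deh_of_le (w := w) (c := monomial (inj a) (coeff a f)) (γ := γ)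
    (isWeightedHomogeneous_monomial _ _ _ rfl) (by rw [proj_weight, hpl, hwa, hγ]) (fun j => by
      have : Finsupp.weight (lift w) (inj a) (some j) ≤ K j :=
        Finset.le_sup (f := fun a => Finsupp.weight (lift w) (inj a) (some j)) ha
      show _ ≤ 2 * K j + (m.1 j).val
      omega)
  rw [deh_monomial, hpl] at he
  rw [he, map_mul, deh_ze, one_mul, deh_monomial, hpl]

/-! ### The homogenised ideal -/

theorem homI_isGr (w : σ → Deg ι) (I : Ideal (MvPolynomial σ ℚ)) :
    IsGr (lift w) (homI w I) :=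
  isGr_span fun _ hb => hb.1

theorem deh_mem {b : MvPolynomial (σ ⊕ ι) ℚ} (hb : b ∈ homI w I) : deh σ ι b ∈ I :=
  (Ideal.span_le.2 fun _ h => h.2 : homI w I ≤ I.comap (deh σ ι)) hb

theorem homI_mem_iff {b : MvPolynomial (σ ⊕ ι) ℚ} (hb : Hom (lift w) b) :
    b ∈ homI w I ↔ deh σ ι b ∈ I :=
  ⟨deh_mem, fun h => Ideal.subset_span ⟨hb, h⟩⟩

theorem homI_mono {J : Ideal (MvPolynomial σ ℚ)} (h : I ≤ J) : homI w I ≤ homI w J :=
  Ideal.span_mono fun _ hb => ⟨hb.1, h hb.2⟩

theorem homI_ne_top (h : I ≠ ⊤) : homI w I ≠ ⊤ := fun e =>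
  (Ideal.ne_top_iff_one I).1 h (by simpa using deh_mem (w := w) (e ▸ Submodule.mem_top : (1 : MvPolynomial (σ ⊕ ι) ℚ) ∈ homI w I))

theorem map_homI (hI : IsGr w I) : (homI w I).map (deh σ ι) = I := by
  apply le_antisymm (Ideal.map_le_iff_le_comap.2 fun b hb => deh_mem hb)
  refine hI.le_of_hom fun f hf ⟨m, hm⟩ => ?_
  obtain ⟨γ, b, hb, rfl, -⟩ := exists_hom_lift w hm
  exact Ideal.mem_map_of_mem _ ((homI_mem_iff ⟨γ, hb⟩).2 hf)

theorem homI_bot : homI w (⊥ : Ideal (MvPolynomial σ ℚ)) = ⊥ := by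
  rw [eq_bot_iff, homI, Ideal.span_le]
  rintro b ⟨⟨γ, hb⟩, h⟩
  rw [SetLike.mem_coe, Submodule.mem_bot]
  exact eq_of_deh_eq hb (isWeightedHomogeneous_zero _ _ _)
    ((Submodule.mem_bot _).1 h |>.trans (map_zero _).symm)

theorem deh_surjective : Function.Surjective (deh σ ι) := fun f => ⟨_, deh_rename f⟩

theorem mem_of_ze_mul {J : Ideal (MvPolynomial (σ ⊕ ι) ℚ)}
    (hsat : ∀ j, colonEl J (X (Sum.inr j)) = J) (e : ι →₀ ℕ) {b : MvPolynomial (σ ⊕ ι) ℚ}
    (h : monomial (ze σ e) 1 * b ∈ J) : b ∈ J := by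
  classical
  induction e using Finsupp.induction generalizing b with
  | zero => simpa [ze, Finsupp.mapDomain_zero] using h
  | single_add j k e he hk ih =>
    clear he hk
    rw [ze, Finsupp.mapDomain_add, Finsupp.mapDomain_single, monomial_single_add, ← ze,
      mul_assoc] at h
    apply ih
    revert h
    generalize monomial (ze σ e) 1 * b = x
    intro h
    clear ih
    induction k generalizing x with
    | zero => simpa using h
    | succ n ihn =>
      refine ihn x ?_
      rw [← hsat j, mem_colonEl, mul_comm, ← mul_assoc, ← pow_succ']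
      exact h

/-- An ideal saturated for the new variables is the homogenisation of its dehomogenisation. -/
theorem homI_map_deh {J : Ideal (MvPolynomial (σ ⊕ ι) ℚ)} (hJ : IsGr (lift w) J)
    (hsat : ∀ j, colonEl J (X (Sum.inr j)) = J) : homI w (J.map (deh σ ι)) = J := by
  classical
  apply le_antisymm
  · rw [homI, Ideal.span_le]
    rintro b ⟨⟨γ, hb⟩, h⟩
    obtain ⟨c, hc, hcb⟩ := (Ideal.mem_map_iff_of_surjective _ deh_surjective).1 h
    let K : ℕ := (c.support.image (Finsupp.weight (lift w))).sup fun δ =>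
      Finset.univ.sup fun j : ι => δ (some j)
    let e : ι →₀ ℕ := Finsupp.equivFunOnFinite.symm fun _ => K
    refine mem_of_ze_mul hsat e ?_
    have hz' := hz_deh ((isWeightedHomogeneous_monomial (lift w) (ze σ e) (1 : ℚ) rfl).mul hb)
    rw [map_mul, deh_ze, one_mul, ← hcb, eq_sum_wcomp (u := lift w) c, map_sum, map_sum] at hz'
    rw [← hz']
    refine sum_mem fun δ hδ => ?_
    have hcδ := weightedHomogeneousComponent_isWeightedHomogeneous (w := lift w) δ c
    by_cases hp : proj ι δ = proj ι (Finsupp.weight (lift w) (ze σ e) + γ)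
    · obtain ⟨e', he'⟩ := hz_deh_of_le hcδ hp (fun j => by
        rw [Finsupp.add_apply, weight_ze_some]
        have h1 : δ (some j) ≤ K := le_trans
          (Finset.le_sup (f := fun j : ι => δ (some j)) (Finset.mem_univ j))
          (Finset.le_sup (f := fun δ : Option ι →₀ ℕ => Finset.univ.sup fun j : ι => δ (some j)) hδ)
        have h2 : e j = K := rfl
        omega)
      rw [he']
      exact Ideal.mul_mem_left _ _ (hJ c hc δ)
    · rw [hz_deh_of_ne hcδ hp]
      exact zero_mem _
  · exact hJ.le_of_hom fun b hb hom => (homI_mem_iff hom).2 (Ideal.mem_map_of_mem _ hb)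

end Vale.Agent.P199.Full
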