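import Vale.Agent.P199.Full.Homog
import Vale.Agent.P199.Full.HilbertSeries

/-!
Kurosh's problem for division rings, full disproof: properties of the mod `2` multidegree of ideals
of a polynomial ring graded by `(ι → ZMod 2) × ℕ`.
-/

noncomputable section

namespace Vale.Agent.P199.Full

open MvPolynomial

set_option linter.unusedSectionVars false
set_option linter.unusedVariables false

variable {σ ι : Type} [Fintype σ] [Fintype ι] [Nonempty ι] (w : σ → Deg ι)
  {I J P Q : Ideal (MvPolynomial σ ℚ)}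

theorem mem_homI (_hI : IsGr w I) {b : MvPolynomial (σ ⊕ ι) ℚ} (hb : Hom (lift w) b) :
    b ∈ homI w I ↔ deh σ ι b ∈ I :=
  homI_mem_iff hb

theorem pos_lift : Pos (lift w) := by
  classical
  intro x h
  obtain ⟨j⟩ := ‹Nonempty ι›
  rcases x with v | i
  · have := DFunLike.congr_fun h (some j)
    simp only [lift, Sum.elim_inl, Finsupp.coe_equivFunOnFinite_symm, Option.elim_some,
      Finsupp.coe_zero, Pi.zero_apply] at this
    split at this <;> omega
  · have := DFunLike.congr_fun h (some i)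
    simp [lift] at this

/-- Prime among homogeneous elements is prime, for gradings by a free commutative monoid. -/
theorem isPrime_of_hom {τ D : Type} [Fintype D] {u : τ → (D →₀ ℕ)}
    {J : Ideal (MvPolynomial τ ℚ)} (hJ : IsGr u J) (h0 : J ≠ ⊤)
    (h : ∀ f g, Hom u f → Hom u g → f * g ∈ J → f ∈ J ∨ g ∈ J) : J.IsPrime := by
  classical
  let _ : LinearOrder D :=
    LinearOrder.lift' (Fintype.equivFin D) (Fintype.equivFin D).injective
  refine ⟨h0, fun {f g} hfg => ?_⟩
  by_contra! hn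
  obtain ⟨a, b, ha, hb, hab⟩ := exists_top_mul (MonomialOrder.lex (σ := D)).toSyn.toAddMonoidHom
    (MonomialOrder.lex (σ := D)).toSyn.injective hJ hn.1 hn.2 hfg
  rcases h _ _ ⟨a, weightedHomogeneousComponent_isWeightedHomogeneous a f⟩
    ⟨b, weightedHomogeneousComponent_isWeightedHomogeneous b g⟩ hab with h' | h'
  exacts [ha h', hb h']

theorem homI_isPrime (hP : IsGrPrime w P) : (homI w P).IsPrime := by
  refine isPrime_of_hom (homI_isGr w P) (homI_ne_top hP.2.1) fun f g hf hg hfg => ?_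
  rw [homI_mem_iff hf, homI_mem_iff hg]
  obtain ⟨γ, hγ⟩ := hf
  obtain ⟨δ, hδ⟩ := hg
  exact hP.2.2 _ _ ⟨_, deh_hom hγ⟩ ⟨_, deh_hom hδ⟩ (by rw [← map_mul]; exact deh_mem hfg)

/-! ### The lowest part of a product -/

section Low

variable {D : Type} {P R : MvPolynomial D ℤ}

theorem hcomp_eq_zero {c k : ℕ} (h : VanBelow P c) (hk : k < c) :
    homogeneousComponent k P = 0 := by
  classical
  ext d
  rw [coeff_homogeneousComponent, coeff_zero]
  split_ifs with hd
  · exact h d (hd ▸ hk)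
  · rfl

theorem hcomp_mul_low {a b : ℕ} (hP : VanBelow P a) (hR : VanBelow R b) :
    homogeneousComponent (a + b) (P * R) = homogeneousComponent a P * homogeneousComponent b R := by
  classical
  ext d
  rw [coeff_homogeneousComponent]
  split_ifs with hd
  · rw [coeff_mul, coeff_mul]
    refine Finset.sum_congr rfl fun x hx => ?_
    rw [Finset.HasAntidiagonal.mem_antidiagonal] at hx
    have hsum : x.1.degree + x.2.degree = a + b := by rw [← map_add, hx, hd]
    rw [coeff_homogeneousComponent, coeff_homogeneousComponent]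
    rcases lt_trichotomy x.1.degree a with h | h | h
    · simp [hP _ h]
    · rw [if_pos h, if_pos (by omega)]
    · simp [hR x.2 (by omega)]
  · by_contra hne
    refine hd ?_
    have := ((homogeneousComponent_isHomogeneous a P).mul (homogeneousComponent_isHomogeneous b R))
      (Ne.symm hne)
    rw [Finsupp.degree_eq_weight_one]
    exact this

theorem hcomp_sub_mul {c : ℕ} (γ : D →₀ ℕ) (hR : VanBelow R c) :
    homogeneousComponent c (subOne (monomial γ 1) * R) = homogeneousComponent c R := by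
  have h : VanBelow (subOne (monomial γ (1 : ℤ))) 0 := fun d hd => absurd hd (Nat.not_lt_zero _)
  conv_lhs => rw [← Nat.zero_add c, hcomp_mul_low h hR, homogeneousComponent_zero,
    coeff_zero_subOne_monomial, C_1, one_mul]

/-- The linear part of `1 - t ^ γ` around `t = 1`. -/
def lin (γ : D →₀ ℕ) : MvPolynomial D ℤ :=
  homogeneousComponent 1 (1 - subOne (monomial γ 1))

theorem hcomp_cut {c : ℕ} (γ : D →₀ ℕ) (hR : VanBelow R c) :
    homogeneousComponent (c + 1) ((1 - subOne (monomial γ 1)) * R) =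
      lin γ * homogeneousComponent c R := by
  rw [add_comm c 1, hcomp_mul_low (vanBelow_one_sub γ) hR, lin]

theorem lin_eq [Fintype D] (γ : D →₀ ℕ) : lin γ = ∑ o, MvPolynomial.C (γ o : ℤ) * X o := by
  classical
  ext d
  rw [lin, coeff_homogeneousComponent, coeff_sum]
  simp only [coeff_C_mul, coeff_X]
  split_ifs with hd
  · obtain ⟨o, rfl⟩ : ∃ o, d = Finsupp.single o 1 := (Finsupp.sum_eq_one_iff d).1 hd
    rw [coeff_sub, coeff_single_subOne_monomial, coeff_one,
      if_neg (fun h => by simpa using DFunLike.congr_fun h o), Finset.sum_eq_single o]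
    · simp
    · intro i _ hi
      rw [if_neg fun h => hi (Finsupp.single_left_injective one_ne_zero h), mul_zero]
    · simp
  · refine (Finset.sum_eq_zero fun o _ => ?_).symm
    rw [if_neg fun h => hd (by rw [← h, Finsupp.degree_single]), mul_zero]

theorem lin_ne_zero [Fintype D] {γ : D →₀ ℕ} (h : γ ≠ 0) : lin γ ≠ 0 := by
  classical
  obtain ⟨o, ho⟩ := Finsupp.ne_iff.1 h
  intro h0
  have := congrArg (coeff (Finsupp.single o 1)) h0
  rw [lin, coeff_homogeneousComponent, if_pos (Finsupp.degree_single o 1), coeff_sub,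
    coeff_single_subOne_monomial, coeff_one,
    if_neg (fun e => by simpa using DFunLike.congr_fun e o), coeff_zero] at this
  simp only [Finsupp.coe_zero, Pi.zero_apply] at ho
  omega

end Low

omit [Fintype σ] [Nonempty ι] in
theorem map_lin (γ : Option ι →₀ ℕ) :
    MvPolynomial.map (Int.castRingHom (ZMod 2)) (lin γ) = ell (proj ι γ) := by
  rw [lin_eq, map_sum, Fintype.sum_option, add_comm, ell]
  simp [proj]

/-! ### Saturation -/

theorem vanBelow_mono {J J' : Ideal (MvPolynomial (σ ⊕ ι) ℚ)} (hJ : IsGr (lift w) J)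
    (hJ' : IsGr (lift w) J') (h : J ≤ J') {c : ℕ} (hc : VanBelow (pPolyH (lift w) J) c) :
    VanBelow (pPolyH (lift w) J') c := by
  have hu := pos_lift w
  by_cases h' : J' = ⊤
  · rw [h', pPolyH_top hu]; exact fun d _ => coeff_zero d
  have h0 : J ≠ ⊤ := fun e => h' (top_unique (e ▸ h))
  intro d hd
  exact (ordH_spec hu hJ' h').1 d
    (lt_of_lt_of_le hd ((le_ordH hu hJ h0 hc).trans (ordH_mono hu hJ hJ' h h')))

theorem vanBelow_homI {c : ℕ} (hc : c ≤ ord w I) : VanBelow (pPolyH (lift w) (homI w I)) c := by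
  have hu := pos_lift w
  by_cases h' : homI w I = ⊤
  · rw [h', pPolyH_top hu]; exact fun d _ => coeff_zero d
  intro d hd
  exact (ordH_spec hu (homI_isGr w I) h').1 d (lt_of_lt_of_le hd hc)

theorem colonEl_homI {b : MvPolynomial (σ ⊕ ι) ℚ} {γ : Option ι →₀ ℕ}
    (hb : IsWeightedHomogeneous (lift w) b γ) :
    colonEl (homI w I) b = homI w (colonEl I (deh σ ι b)) := by
  apply le_antisymm
  · refine ((homI_isGr w I).colon hb).le_of_hom fun g hg hgh => (homI_mem_iff hgh).2 ?_
    rw [mem_colonEl, ← map_mul]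
    exact deh_mem (mem_colonEl.1 hg)
  · rw [homI, Ideal.span_le]
    rintro g ⟨⟨δ, hδ⟩, hg⟩
    rw [SetLike.mem_coe, mem_colonEl, homI_mem_iff ⟨_, hδ.mul hb⟩, map_mul]
    exact mem_colonEl.1 hg

theorem colonEl_homI_z (j : ι) : colonEl (homI w I) (X (Sum.inr j)) = homI w I := by
  rw [colonEl_homI w (isWeightedHomogeneous_X ℚ (lift w) (Sum.inr j)), deh_X_inr]
  congr 1
  ext g
  simp [mem_colonEl]

theorem map_colonEl_z (J : Ideal (MvPolynomial (σ ⊕ ι) ℚ)) (j : ι) :
    (colonEl J (X (Sum.inr j))).map (deh σ ι) = J.map (deh σ ι) := by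
  refine le_antisymm ?_ (Ideal.map_mono (le_colonEl _))
  rw [Ideal.map_le_iff_le_comap]
  intro g hg
  have := Ideal.mem_map_of_mem (deh σ ι) (mem_colonEl.1 hg)
  rwa [map_mul, deh_X_inr, mul_one] at this

theorem sat_induction (Φ : Ideal (MvPolynomial (σ ⊕ ι) ℚ) → Prop)
    (base : ∀ J, IsGr (lift w) J → (∀ j, colonEl J (X (Sum.inr j)) = J) → Φ J)
    (step : ∀ J, IsGr (lift w) J → ∀ j, Φ (colonEl J (X (Sum.inr j))) → Φ J) :
    ∀ J, IsGr (lift w) J → Φ J := by
  intro J
  induction J using WellFoundedGT.induction with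
  | _ J ih =>
  intro hJ
  by_cases h : ∀ j, colonEl J (X (Sum.inr j)) = J
  · exact base J hJ h
  push Not at h
  obtain ⟨j, hj⟩ := h
  exact step J hJ j (ih _ (lt_of_le_of_ne (le_colonEl _) (Ne.symm hj))
    (hJ.colon (isWeightedHomogeneous_X ℚ (lift w) (Sum.inr j))))

/-- Saturating an ideal above a saturated one keeps the parts of degree at most its order. -/
theorem sat_exact {H J : Ideal (MvPolynomial (σ ⊕ ι) ℚ)} (hH : IsGr (lift w) H)
    (hHsat : ∀ j, colonEl H (X (Sum.inr j)) = H) {c : ℕ}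
    (hc : VanBelow (pPolyH (lift w) H) c) (hJ : IsGr (lift w) J) (hle : H ≤ J) :
    homogeneousComponent c (pPolyH (lift w) J) =
      homogeneousComponent c (pPolyH (lift w) (homI w (J.map (deh σ ι)))) := by
  have hu := pos_lift w
  revert hle
  refine sat_induction w (fun J => H ≤ J → homogeneousComponent c (pPolyH (lift w) J) =
      homogeneousComponent c (pPolyH (lift w) (homI w (J.map (deh σ ι))))) ?_ ?_ J hJ
  · intro J hJ hsat _
    rw [homI_map_deh hJ hsat]
  intro J hJ j ih hle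
  have hz := isWeightedHomogeneous_X ℚ (lift w) (Sum.inr j : σ ⊕ ι)
  have hzs := isGr_span_singleton (w := lift w) (f := X (Sum.inr j)) ⟨_, hz⟩
  have hv : VanBelow (pPolyH (lift w) (J ⊔ Ideal.span {X (Sum.inr j)})) (1 + c) := by
    refine vanBelow_mono w (hH.sup hzs) (hJ.sup hzs) (sup_le_sup_right hle _) ?_
    rw [pPolyH_cut hu hH hz (hHsat j)]
    exact vanBelow_mul (vanBelow_one_sub _) hc
  rw [pPolyH_split hu hJ hz, map_add, hcomp_eq_zero hv (by omega), add_zero,
    hcomp_sub_mul _ (vanBelow_mono w hH (hJ.colon hz) (hle.trans (le_colonEl _)) hc),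
    ih (hle.trans (le_colonEl _)), map_colonEl_z]

/-- Saturation does not change the lowest part mod `2`. -/
theorem sat_red {J : Ideal (MvPolynomial (σ ⊕ ι) ℚ)} (hJ : IsGr (lift w) J) {c : ℕ}
    (hc : VanBelow (pPolyH (lift w) J) c) :
    MvPolynomial.map (Int.castRingHom (ZMod 2)) (homogeneousComponent c (pPolyH (lift w) J)) =
      lam w c (J.map (deh σ ι)) := by
  have hu := pos_lift w
  revert hc
  refine sat_induction w (fun J => VanBelow (pPolyH (lift w) J) c →
      MvPolynomial.map (Int.castRingHom (ZMod 2)) (homogeneousComponent c (pPolyH (lift w) J)) =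
        lam w c (J.map (deh σ ι))) ?_ ?_ J hJ
  · intro J hJ hsat _
    rw [lam, homI_map_deh hJ hsat]
  intro J hJ j ih hc
  have hz := isWeightedHomogeneous_X ℚ (lift w) (Sum.inr j : σ ⊕ ι)
  have hcol := vanBelow_mono w hJ (hJ.colon hz) (le_colonEl _) hc
  have hsum : MvPolynomial.map (Int.castRingHom (ZMod 2))
      (homogeneousComponent c (pPolyH (lift w) (J ⊔ Ideal.span {X (Sum.inr j)}))) = 0 := by
    have hres := IsGr.res hJ (Sum.inr j)
    have hcut : pPolyH (lift w) (J ⊔ Ideal.span {X (Sum.inr j)}) =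
        (1 - subOne (monomial (lift w (Sum.inr j)) 1)) *
          pPolyH (lift w) (res (Sum.inr j) J) := by
      rw [sup_span_X_res, pPolyH_cut hu hres hz (colonEl_X_res _ _)]
    have hv : VanBelow ((1 - subOne (monomial (lift w (Sum.inr j)) 1)) *
        pPolyH (lift w) (res (Sum.inr j) J)) c :=
      hcut ▸ vanBelow_mono w hJ (hJ.sup (isGr_span_singleton ⟨_, hz⟩)) le_sup_left hc
    have hlin0 : MvPolynomial.map (Int.castRingHom (ZMod 2))
        (lin (lift w (Sum.inr j))) = 0 := by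
      rw [map_lin, proj_lift_inr]
      simp [ell]
    rw [hcut]
    rcases c with _ | c
    · rw [hcomp_eq_zero (vanBelow_mul (vanBelow_one_sub _)
        (fun d hd => absurd hd (Nat.not_lt_zero _) : VanBelow _ 0)) (by omega), map_zero]
    have hr : VanBelow (pPolyH (lift w) (res (Sum.inr j) J)) c := by
      by_cases h0 : pPolyH (lift w) (res (Sum.inr j) J) = 0
      · rw [h0]; exact fun d _ => coeff_zero d
      obtain ⟨a, ha, ha'⟩ := exists_low h0
      rcases le_or_gt c a with h | h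
      · exact fun d hd => ha d (by omega)
      · exfalso
        refine mul_ne_zero (lin_ne_zero (hu (Sum.inr j))) ha' ?_
        rw [← hcomp_cut _ ha]
        exact hcomp_eq_zero hv (by omega)
    rw [hcomp_cut _ hr, map_mul, hlin0, zero_mul]
  rw [pPolyH_split hu hJ hz, map_add, map_add, hcomp_sub_mul _ hcol, hsum, add_zero, ih hcol,
    map_colonEl_z]

/-! ### The interface -/

theorem lam_bot : ord w (⊥ : Ideal (MvPolynomial σ ℚ)) = 0 ∧
    lam w 0 (⊥ : Ideal (MvPolynomial σ ℚ)) = 1 := by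
  have h : homogeneousComponent 0 (pPolyH (lift w) (homI w (⊥ : Ideal (MvPolynomial σ ℚ)))) = 1 := by
    rw [homI_bot, pPolyH_bot (pos_lift w), homogeneousComponent_zero]
    simp
  refine ⟨Nat.eq_zero_of_le_zero (Nat.sInf_le ?_), ?_⟩
  · show homogeneousComponent 0 (pPolyH (lift w) (homI w ⊥)) ≠ 0
    rw [h]; exact one_ne_zero
  · rw [lam, h, map_one]

theorem homI_top : homI w (⊤ : Ideal (MvPolynomial σ ℚ)) = ⊤ :=
  (Ideal.eq_top_iff_one _).2 ((homI_mem_iff ⟨0, isWeightedHomogeneous_one ℚ _⟩).2 trivial)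

theorem lam_top (c : ℕ) : lam w c (⊤ : Ideal (MvPolynomial σ ℚ)) = 0 := by
  rw [lam, homI_top, pPolyH_top (pos_lift w), map_zero, map_zero]

theorem lam_eq_zero_of_lt {c : ℕ} (h : c < ord w I) : lam w c I = 0 := by
  rw [lam, hcomp_eq_zero (vanBelow_homI w le_rfl) h, map_zero]

theorem lam_isHomogeneous (c : ℕ) : (lam w c I).IsHomogeneous c :=
  (homogeneousComponent_isHomogeneous c _).map _

theorem ord_mono (hI : IsGr w I) (hJ : IsGr w J) (h : I ≤ J) (h' : J ≠ ⊤) :
    ord w I ≤ ord w J :=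
  ordH_mono (pos_lift w) (homI_isGr w I) (homI_isGr w J) (homI_mono h) (homI_ne_top h')

theorem ord_lt (hP : IsGrPrime w P) (hJ : IsGr w J) (h : P < J) (h' : J ≠ ⊤) :
    ord w P < ord w J := by
  refine ordH_lt (pos_lift w) (homI_isGr w P) (homI_isPrime w hP) (homI_isGr w J)
    (lt_of_le_of_ne (homI_mono h.le) fun e => h.ne ?_) (homI_ne_top h')
  rw [← map_homI (w := w) hP.1, e, map_homI hJ]

omit [Nonempty ι] in
theorem map_sup_lift (hI : IsGr w I) {b : MvPolynomial (σ ⊕ ι) ℚ} :
    (homI w I ⊔ Ideal.span {b}).map (deh σ ι) = I ⊔ Ideal.span {deh σ ι b} := by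
  rw [Ideal.map_sup, map_homI hI, Ideal.map_span, Set.image_singleton]

theorem lam_split (hI : IsGr w I) {f : MvPolynomial σ ℚ} {m : Deg ι}
    (hf : IsWeightedHomogeneous w f m) {c : ℕ} (hc : c ≤ ord w I) :
    lam w c I = lam w c (colonEl I f) + lam w c (I ⊔ Ideal.span {f}) := by
  obtain ⟨γ, b, hb, rfl, -⟩ := exists_hom_lift w hf
  have hH := homI_isGr w I
  have hbs := isGr_span_singleton (w := lift w) (f := b) ⟨γ, hb⟩
  have hv := vanBelow_homI w hc
  have h1 : VanBelow (pPolyH (lift w) (colonEl (homI w I) b)) c :=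
    vanBelow_mono w hH (hH.colon hb) (le_colonEl _) hv
  conv_lhs => rw [lam, pPolyH_split (pos_lift w) hH hb, map_add, map_add, hcomp_sub_mul _ h1,
    sat_red w (hH.sup hbs) (vanBelow_mono w hH (hH.sup hbs) le_sup_left hv), map_sup_lift w hI,
    colonEl_homI w hb]
  rfl

theorem lam_cut (hI : IsGr w I) {f : MvPolynomial σ ℚ} {m : Deg ι}
    (hf : IsWeightedHomogeneous w f m) (hreg : colonEl I f = I) {c : ℕ} (hc : c ≤ ord w I) :
    lam w (c + 1) (I ⊔ Ideal.span {f}) = ell m * lam w c I := by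
  obtain ⟨γ, b, hb, rfl, rfl⟩ := exists_hom_lift w hf
  have hH := homI_isGr w I
  have hreg' : colonEl (homI w I) b = homI w I := by rw [colonEl_homI w hb, hreg]
  have hv := vanBelow_homI w hc
  have hcut := pPolyH_cut (pos_lift w) hH hb hreg'
  have h2 : VanBelow (pPolyH (lift w) (homI w I ⊔ Ideal.span {b})) (c + 1) := by
    rw [hcut, add_comm c 1]
    exact vanBelow_mul (vanBelow_one_sub _) hv
  rw [← map_sup_lift w hI, ← sat_red w (hH.sup (isGr_span_singleton ⟨γ, hb⟩)) h2, hcut,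
    hcomp_cut _ hv, map_mul, map_lin]
  rfl

theorem ord_cut (hI : IsGr w I) {f : MvPolynomial σ ℚ} {m : Deg ι}
    (hf : IsWeightedHomogeneous w f m) (hreg : colonEl I f = I)
    (h : I ⊔ Ideal.span {f} ≠ ⊤) : ord w I + 1 ≤ ord w (I ⊔ Ideal.span {f}) := by
  obtain ⟨γ, b, hb, rfl, -⟩ := exists_hom_lift w hf
  have hu := pos_lift w
  have hH := homI_isGr w I
  have hreg' : colonEl (homI w I) b = homI w I := by rw [colonEl_homI w hb, hreg]
  have hJ := hH.sup (isGr_span_singleton (w := lift w) (f := b) ⟨γ, hb⟩)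
  have hle : homI w I ⊔ Ideal.span {b} ≤ homI w (I ⊔ Ideal.span {deh σ ι b}) := by
    refine sup_le (homI_mono le_sup_left) ?_
    rw [Ideal.span_singleton_le_iff_mem, homI_mem_iff ⟨γ, hb⟩]
    exact Submodule.mem_sup_right (Ideal.mem_span_singleton_self _)
  have hne : homI w I ⊔ Ideal.span {b} ≠ ⊤ := fun e =>
    homI_ne_top (w := w) h (top_unique (e ▸ hle))
  refine le_trans ?_ (ordH_mono hu hJ (homI_isGr w _) hle (homI_ne_top h))
  refine le_ordH hu hJ hne ?_
  rw [pPolyH_cut hu hH hb hreg', add_comm _ 1]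
  exact vanBelow_mul (vanBelow_one_sub _) (vanBelow_homI w le_rfl)

theorem ord_sup_X (hI : IsGr w I) {v : σ} (hv : res v I = I) (h : I ≠ ⊤) :
    ord w (I ⊔ Ideal.span {X v}) = ord w I + 1 := by
  have hu := pos_lift w
  have hH := homI_isGr w I
  have hx := isWeightedHomogeneous_X ℚ (lift w) (Sum.inl v : σ ⊕ ι)
  have hres : ∀ g ∈ I ⊔ Ideal.span {X v}, resVar v g ∈ I := by
    intro g hg
    have := Ideal.mem_map_of_mem (resVar v) hg
    rw [Ideal.map_sup, Ideal.map_span, Set.image_singleton] at this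
    rw [show resVar v (X v : MvPolynomial σ ℚ) = 0 by simp [resVar], Ideal.span_singleton_zero,
      sup_bot_eq] at this
    exact hv ▸ this
  have heq : homI w (I ⊔ Ideal.span {X v}) = homI w I ⊔ Ideal.span {X (Sum.inl v)} := by
    apply le_antisymm
    · conv_lhs => rw [homI]
      rw [Ideal.span_le]
      rintro b ⟨⟨γ, hb⟩, hd⟩
      rw [SetLike.mem_coe, ← sub_add_cancel b (resVar (Sum.inl v) b)]
      refine add_mem (Submodule.mem_sup_right (sub_resVar_mem _ b)) (Submodule.mem_sup_left ?_)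
      rw [homI_mem_iff ⟨γ, resVar_hom _ hb⟩, deh_resVar]
      exact hres _ hd
    · refine sup_le (homI_mono le_sup_left) ?_
      rw [Ideal.span_singleton_le_iff_mem, homI_mem_iff ⟨_, hx⟩, deh_X_inl]
      exact Submodule.mem_sup_right (Ideal.mem_span_singleton_self _)
  have hreg : colonEl (homI w I) (X (Sum.inl v)) = homI w I := by
    rw [colonEl_homI w hx, deh_X_inl]
    have := colonEl_X_res v I
    rw [hv] at this
    rw [this]
  have hne' : I ⊔ Ideal.span {X v} ≠ ⊤ := fun e => (Ideal.ne_top_iff_one I).1 h (by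
    simpa using hres 1 (e ▸ Submodule.mem_top))
  refine le_antisymm ?_ (ord_cut w hI (isWeightedHomogeneous_X ℚ w v) ?_ hne')
  · refine Nat.sInf_le ?_
    show homogeneousComponent _ (pPolyH (lift w) (homI w _)) ≠ 0
    rw [heq, pPolyH_cut hu hH hx hreg, hcomp_cut _ (vanBelow_homI w le_rfl)]
    exact mul_ne_zero (lin_ne_zero (hu (Sum.inl v)))
      (ordH_spec hu hH (homI_ne_top h)).2
  · have := colonEl_X_res v I
    rwa [hv] at this

/-- Descending along splits until a prime is reached. -/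
theorem exists_prime_of {T : Set σ} (Φ : Ideal (MvPolynomial σ ℚ) → Prop)
    (hne : ∀ I, IsGr w I → Φ I → I ≠ ⊤)
    (hsplit : ∀ I f m, IsGr w I → IsWeightedHomogeneous w f m → Φ I →
      Φ (colonEl I f) ∨ Φ (I ⊔ Ideal.span {f})) :
    ∀ I, IsGr w I → SuppOn T I → Φ I → ∃ P, IsGrPrime w P ∧ SuppOn T P ∧ I ≤ P ∧ Φ P := by
  intro I
  induction I using WellFoundedGT.induction with
  | _ I ih =>
  intro hI hS hΦ
  by_cases hP : ∀ f g, f ∈ supported ℚ T → g ∈ supported ℚ T → Hom w f → Hom w g → f * g ∈ I →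
      f ∈ I ∨ g ∈ I
  · exact ⟨I, isGrPrime_of_supported hI hS (hne I hI hΦ) hP, hS, le_rfl, hΦ⟩
  push Not at hP
  obtain ⟨f, g, hfT, hgT, ⟨m, hm⟩, hgh, hfg, hf, hg⟩ := hP
  rcases hsplit I f m hI hm hΦ with h | h
  · have hlt : I < colonEl I f := lt_of_le_of_ne (le_colonEl _) fun e => hg (by
      rw [e, mem_colonEl, mul_comm]; exact hfg)
    obtain ⟨P, h1, h2, h3, h4⟩ := ih _ hlt (hI.colon hm) (hS.colon hfT) h
    exact ⟨P, h1, h2, (le_colonEl _).trans h3, h4⟩
  · have hlt : I < I ⊔ Ideal.span {f} := lt_of_le_of_ne le_sup_left fun e => hf (by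
      rw [e]; exact Submodule.mem_sup_right (Ideal.mem_span_singleton_self f))
    obtain ⟨P, h1, h2, h3, h4⟩ :=
      ih _ hlt (hI.sup (isGr_span_singleton ⟨m, hm⟩)) (hS.sup (suppOn_span_singleton hfT)) h
    exact ⟨P, h1, h2, le_sup_left.trans h3, h4⟩

theorem exists_prime {S : Set σ} (hI : IsGr w I) (hS : SuppOn S I) {c : ℕ} (hc : c ≤ ord w I)
    (𝔞 : Ideal (F2X ι)) (h : lam w c I ∉ 𝔞) :
    ∃ P, IsGrPrime w P ∧ SuppOn S P ∧ I ≤ P ∧ ord w P = c ∧ lam w c P ∉ 𝔞 := by
  have hnt : ∀ J : Ideal (MvPolynomial σ ℚ), lam w c J ∉ 𝔞 → J ≠ ⊤ := fun J hJ e =>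
    hJ (by rw [e, lam_top]; exact zero_mem _)
  obtain ⟨P, h1, h2, h3, h4, h5⟩ := exists_prime_of w (T := S)
    (fun J => c ≤ ord w J ∧ lam w c J ∉ 𝔞) (fun J _ hJ => hnt J hJ.2) (fun J f m hJ hf hΦ => by
      have hcol := hJ.colon hf
      have hsup := hJ.sup (isGr_span_singleton (w := w) (f := f) ⟨m, hf⟩)
      by_cases h' : lam w c (colonEl J f) ∈ 𝔞
      · have h'' : lam w c (J ⊔ Ideal.span {f}) ∉ 𝔞 := fun e => hΦ.2 (by
          rw [lam_split w hJ hf hΦ.1]; exact add_mem h' e)
        exact Or.inr ⟨hΦ.1.trans (ord_mono w hJ hsup le_sup_left (hnt _ h'')), h''⟩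
      · exact Or.inl ⟨hΦ.1.trans (ord_mono w hJ hcol (le_colonEl _) (hnt _ h')), h'⟩)
    I hI hS ⟨hc, h⟩
  refine ⟨P, h1, h2, h3, le_antisymm ?_ h4, h5⟩
  exact le_of_not_gt fun hlt => h5 (by rw [lam_eq_zero_of_lt w hlt]; exact zero_mem _)

theorem exists_prime_ord (hI : IsGr w I) (h : I ≠ ⊤) :
    ∃ P, IsGrPrime w P ∧ I ≤ P ∧ ord w P = ord w I := by
  have hu := pos_lift w
  let c := ord w I
  let Φ : Ideal (MvPolynomial σ ℚ) → Prop := fun J => c ≤ ord w J ∧
    homogeneousComponent c (pPolyH (lift w) (homI w J)) ≠ 0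
  have hnt : ∀ J, homogeneousComponent c (pPolyH (lift w) (homI w J)) ≠ 0 → J ≠ ⊤ :=
    fun J hJ e => hJ (by rw [e, homI_top, pPolyH_top hu, map_zero])
  obtain ⟨P, h1, -, h3, h4, h5⟩ := exists_prime_of w (T := Set.univ) Φ
    (fun J _ hJ => hnt J hJ.2) (fun J f m hJ hf hΦ => by
      obtain ⟨γ, b, hb, rfl, -⟩ := exists_hom_lift w hf
      have hcol := hJ.colon hf
      have hsup := hJ.sup (isGr_span_singleton (w := w) (f := deh σ ι b) ⟨m, hf⟩)
      have hH := homI_isGr w J
      have hv := vanBelow_homI w hΦ.1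
      have hbs := isGr_span_singleton (w := lift w) (f := b) ⟨γ, hb⟩
      have e := congrArg (homogeneousComponent c) (pPolyH_split hu hH hb)
      rw [map_add, hcomp_sub_mul _ (vanBelow_mono w hH (hH.colon hb) (le_colonEl _) hv),
        colonEl_homI w hb, sat_exact w hH (colonEl_homI_z w) hv (hH.sup hbs) le_sup_left,
        map_sup_lift w hJ] at e
      by_cases h' : homogeneousComponent c (pPolyH (lift w) (homI w (colonEl J (deh σ ι b)))) = 0
      · rw [h', zero_add] at e
        have h'' := fun e' => hΦ.2 (e.trans e')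
        exact Or.inr ⟨hΦ.1.trans (ord_mono w hJ hsup le_sup_left (hnt _ h'')), h''⟩
      · exact Or.inl ⟨hΦ.1.trans (ord_mono w hJ hcol (le_colonEl _) (hnt _ h')), h'⟩)
    I hI (suppOn_univ I)
    ⟨le_rfl, (ordH_spec hu (homI_isGr w I) (homI_ne_top h)).2⟩
  exact ⟨P, h1, h3, le_antisymm (Nat.sInf_le h5) h4⟩

end Vale.Agent.P199.Full
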