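import Vale.Agent.P199.Full.Invariant
import Vale.Agent.P199.Full.HilbertDim

/-!
Kurosh's problem for division rings, full disproof: the order of a homogeneous prime as a
codimension, and its superadditivity over disjoint sets of variables.
-/

noncomputable section

namespace Vale.Agent.P199.Full

open MvPolynomial

variable {σ ι : Type} [Fintype σ] [Fintype ι] [Nonempty ι] (w : σ → Deg ι)
  {P C Q : Ideal (MvPolynomial σ ℚ)}

theorem ord_trdeg (hP : IsGrPrime w P) :
    ord w P ≤ Fintype.card σ + Fintype.card ι ∧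
      Algebra.trdeg ℚ (MvPolynomial (σ ⊕ ι) ℚ ⧸ homI w P) =
        ((Fintype.card σ + Fintype.card ι - ord w P : ℕ) : Cardinal) := by
  have h := ordH_trdeg (pos_lift w) (homI_isGr w P) (homI_isPrime w hP)
  rwa [Fintype.card_sum] at h

/-- The coordinates in `σ ⊕ ι` of a set of variables. -/
def withZ (S : Set σ) : Set (σ ⊕ ι) := Sum.inl '' S ∪ Set.range Sum.inr

omit [Nonempty ι] in
theorem deh_slice (S : Set σ) {μ : σ ⊕ ι →₀ ℕ} (hμ : ↑μ.support ⊆ (withZ (ι := ι) S)ᶜ)
    (b : MvPolynomial (σ ⊕ ι) ℚ) :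
    deh σ ι (slice (withZ S) μ b) = slice S (pl μ) (deh σ ι b) := by
  classical
  induction b using MvPolynomial.induction_on' with
  | add p q hp hq => simp only [map_add, hp, hq]
  | monomial s a =>
    have hpl : ∀ v, pl (inPart (withZ S) s) v = inPart S (pl s) v := fun v => by
      simp [pl, inPart_apply, withZ]
    have hiff : inPart (withZ S)ᶜ s = μ ↔ inPart Sᶜ (pl s) = pl μ := by
      constructor
      · rintro rfl
        ext v
        simp [pl, inPart_apply, withZ]
      · intro h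
        ext x
        rcases x with v | j
        · have := DFunLike.congr_fun h v
          simpa [pl, inPart_apply, withZ] using this
        · have h0 : μ (Sum.inr j) = 0 := by
            by_contra hne
            exact hμ (Finsupp.mem_support_iff.2 hne) (Or.inr ⟨j, rfl⟩)
          simp [inPart_apply, withZ, h0]
    rw [slice_monomial, deh_monomial, slice_monomial]
    by_cases h : inPart (withZ S)ᶜ s = μ
    · rw [if_pos h, if_pos (hiff.1 h), deh_monomial]
      congr 2
      ext v
      exact hpl v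
    · rw [if_neg h, if_neg (fun h' => h (hiff.2 h')), map_zero]

omit [Nonempty ι] in
theorem suppOn_homI {S : Set σ} (hS : SuppOn S C) : SuppOn (withZ S) (homI w C) := by
  classical
  intro f hf
  refine Submodule.span_le.2 ?_ hf
  rintro b ⟨hb, hbC⟩
  show b ∈ Ideal.span _
  rw [← sum_slice (withZ S) b]
  refine Ideal.sum_mem _ fun μ hμ => Ideal.mul_mem_left _ _ (Ideal.subset_span ⟨?_, ?_⟩)
  · refine Ideal.subset_span ⟨hom_slice hb μ, ?_⟩
    rw [deh_slice S (support_of_mem_outs hμ)]
    exact hS.slice_mem hbC _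
  · exact slice_mem_supported μ b

/-- The image of a variable in a quotient. -/
def vq {τ : Type} (J : Ideal (MvPolynomial τ ℚ)) (v : τ) : MvPolynomial τ ℚ ⧸ J :=
  Ideal.Quotient.mkₐ ℚ J (X v)

theorem indepOn_vq_iff {τ : Type} (J : Ideal (MvPolynomial τ ℚ)) (s : Set τ) :
    AlgebraicIndepOn ℚ (vq J) s ↔ ∀ p ∈ supported ℚ s, p ∈ J → p = 0 := by
  have h : ∀ p : MvPolynomial τ ℚ, aeval (vq J) p = Ideal.Quotient.mkₐ ℚ J p := fun p => by
    show aeval (fun v => Ideal.Quotient.mkₐ ℚ J (X v)) p = _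
    rw [← comp_aeval_apply, aeval_X_left_apply]
  have h0 := algebraicIndependent_comp_subtype (R := ℚ) (x := vq J) (s := s)
  simp only [h, Ideal.Quotient.mkₐ_eq_mk, Ideal.Quotient.eq_zero_iff_mem] at h0
  exact h0

/-- The image of a variable in the quotient by the homogenised ideal. -/
abbrev xq (P : Ideal (MvPolynomial σ ℚ)) (v : σ ⊕ ι) : MvPolynomial (σ ⊕ ι) ℚ ⧸ homI w P :=
  vq (homI w P) v

omit [Nonempty ι] in
theorem indep_range_inr (hP : IsGrPrime w P) :
    AlgebraicIndepOn ℚ (xq w P) (Set.range Sum.inr : Set (σ ⊕ ι)) := by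
  classical
  refine (indepOn_vq_iff (homI w P) _).2 fun p hp hmem => ?_
  ext d
  rw [coeff_zero]
  by_contra hd
  have hsupp := supp_of_supported hp (mem_support_iff.2 hd)
  have hinl : ∀ e : σ ⊕ ι →₀ ℕ, coeff e p ≠ 0 → ∀ v, e (Sum.inl v) = 0 := fun e he v => by
    by_contra hne
    obtain ⟨j, hj⟩ := supp_of_supported hp (mem_support_iff.2 he) (Finsupp.mem_support_iff.2 hne)
    cases hj
  have hinj : ∀ e : σ ⊕ ι →₀ ℕ, coeff e p ≠ 0 →
      Finsupp.weight (lift w) e = Finsupp.weight (lift w) d → e = d := fun e he h => by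
    ext x
    rcases x with v | j
    · rw [hinl e he v, hinl d hd v]
    · have h1 := DFunLike.congr_fun h (some j)
      rw [weight_lift_some, weight_lift_some] at h1
      simp only [pl, Finsupp.coe_equivFunOnFinite_symm, hinl e he, hinl d hd, zero_mul,
        Finset.sum_const_zero] at h1
      omega
  have hc : weightedHomogeneousComponent (lift w) (Finsupp.weight (lift w) d) p =
      monomial d (coeff d p) := by
    ext e
    rw [coeff_weightedHomogeneousComponent, coeff_monomial]
    by_cases hde : d = e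
    · subst hde; simp
    · rw [if_neg hde]
      split_ifs with he
      · by_contra hne
        exact hde (hinj e hne he).symm
      · rfl
  have h1 := deh_mem (homI_isGr w P p hmem (Finsupp.weight (lift w) d))
  rw [hc, deh_monomial, show pl d = 0 from Finsupp.ext fun v => hinl d hd v, monomial_zero'] at h1
  exact hP.2.1 (Ideal.eq_top_of_isUnit_mem _ h1 ((isUnit_iff_ne_zero.2 hd).map C))

/-- A maximal independent set of the variables of `S` and the new ones. -/
theorem exists_indep (hP : IsGrPrime w P) (S : Set σ) :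
    ∃ A : Finset (σ ⊕ ι), (↑A : Set (σ ⊕ ι)) ⊆ withZ S ∧ (∀ j, Sum.inr j ∈ A) ∧
      AlgebraicIndepOn ℚ (xq w P) (↑A : Set (σ ⊕ ι)) ∧
      ∀ v ∈ withZ (ι := ι) S,
        IsAlgebraic (Algebra.adjoin ℚ (xq w P '' (↑A : Set (σ ⊕ ι)))) (xq w P v) := by
  classical
  have := homI_isPrime w hP
  let good : Finset (σ ⊕ ι) → Prop := fun A => (↑A : Set (σ ⊕ ι)) ⊆ withZ S ∧
    (∀ j, Sum.inr j ∈ A) ∧ AlgebraicIndepOn ℚ (xq w P) (↑A : Set (σ ⊕ ι))
  have hne : ((Finset.univ : Finset (Finset (σ ⊕ ι))).filter good).Nonempty := by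
    refine ⟨Finset.univ.image Sum.inr, Finset.mem_filter.2 ⟨Finset.mem_univ _, ?_, by simp, ?_⟩⟩
    · intro x hx
      simp only [Finset.coe_image, Set.mem_image] at hx
      obtain ⟨j, -, rfl⟩ := hx
      exact Or.inr ⟨j, rfl⟩
    · simpa using indep_range_inr w hP
  obtain ⟨A, hA, hmax⟩ := Finset.exists_max_image _ Finset.card hne
  obtain ⟨h1, h2, h3⟩ := (Finset.mem_filter.1 hA).2
  refine ⟨A, h1, h2, h3, fun v hv => ?_⟩
  by_cases hvA : v ∈ A
  · have hmem : xq w P v ∈ Algebra.adjoin ℚ (xq w P '' (↑A : Set (σ ⊕ ι))) :=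
      Algebra.subset_adjoin ⟨v, hvA, rfl⟩
    exact isAlgebraic_algebraMap
      (⟨_, hmem⟩ : Algebra.adjoin ℚ (xq w P '' (↑A : Set (σ ⊕ ι))))
  by_contra halg
  have hins : AlgebraicIndepOn ℚ (xq w P) (↑(insert v A) : Set (σ ⊕ ι)) := by
    rw [Finset.coe_insert, AlgebraicIndepOn.insert_iff (by simpa using hvA)]
    exact ⟨h3, halg⟩
  have hcard := hmax (insert v A) (Finset.mem_filter.2 ⟨Finset.mem_univ _,
    by rw [Finset.coe_insert]; exact Set.insert_subset hv h1,
    fun j => Finset.mem_insert_of_mem (h2 j), hins⟩)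
  rw [Finset.card_insert_of_notMem hvA] at hcard
  omega

theorem card_add_le {S : Set σ} (hC : IsGrPrime w C) (hS : SuppOn S C) (hle : C ≤ P)
    {A : Finset (σ ⊕ ι)} (hA : (↑A : Set (σ ⊕ ι)) ⊆ withZ S)
    (hind : AlgebraicIndepOn ℚ (xq w P) (↑A : Set (σ ⊕ ι))) [DecidablePred (· ∈ S)] :
    A.card + (Finset.univ.filter fun v => v ∉ S).card + ord w C ≤
      Fintype.card σ + Fintype.card ι := by
  classical
  set U := (Finset.univ.filter fun v => v ∉ S).image (Sum.inl : σ → σ ⊕ ι)
  have hUS : ∀ x ∈ U, x ∉ withZ (ι := ι) S := fun x hx h => by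
    obtain ⟨v, hv, rfl⟩ := Finset.mem_image.1 hx
    rcases h with ⟨u, hu, hu'⟩ | ⟨j, hj⟩
    · cases hu'; exact (Finset.mem_filter.1 hv).2 hu
    · cases hj
  have hW : AlgebraicIndepOn ℚ (xq w C) (↑(A ∪ U) : Set (σ ⊕ ι)) := by
    refine (indepOn_vq_iff (homI w C) _).2 fun p hp hmem => ?_
    rw [← sum_slice (withZ S) p]
    refine Finset.sum_eq_zero fun μ _ => ?_
    have hsl := homI_mono hle ((suppOn_homI w hS).slice_mem hmem μ)
    have hsup : slice (withZ S) μ p ∈ supported ℚ (↑A : Set (σ ⊕ ι)) := by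
      rw [p.as_sum, map_sum]
      refine Subalgebra.sum_mem _ fun d hd => ?_
      rw [slice_monomial]
      split_ifs
      · refine monomial_mem_supported (fun x hx => ?_) _
        have hxS := support_inPart (withZ S) d hx
        rw [Finset.mem_coe, Finsupp.mem_support_iff, inPart_apply, if_pos hxS] at hx
        have hxW := supp_of_supported hp hd (Finsupp.mem_support_iff.2 hx)
        rcases Finset.mem_union.1 hxW with hxA | hxU
        · exact hxA
        · exact absurd hxS (hUS x hxU)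
      · exact zero_mem _
    rw [(indepOn_vq_iff (homI w P) _).1 hind _ hsup hsl, mul_zero]
  have hcard := hW.cardinalMk_le_trdeg
  obtain ⟨hle', htr⟩ := ord_trdeg w hC
  rw [htr] at hcard
  simp only [Finset.coe_sort_coe, Cardinal.mk_coe_finset, Nat.cast_le] at hcard
  rw [
    Finset.card_union_of_disjoint (Finset.disjoint_left.2 fun x hxA hxU => hUS x hxU (hA hxA)),
    Finset.card_image_of_injective _ Sum.inl_injective] at hcard
  omega

theorem ord_add_le {S T : Set σ} (hC : IsGrPrime w C) (hCS : SuppOn S C) (hQ : IsGrPrime w Q)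
    (hQT : SuppOn T Q) (hST : Disjoint S T) (hP : IsGrPrime w P) (h1 : C ≤ P) (h2 : Q ≤ P) :
    ord w C + ord w Q ≤ ord w P := by
  classical
  obtain ⟨A, hAS, hAz, hAi, hAalg⟩ := exists_indep w hP S
  obtain ⟨B, hBT, hBz, hBi, hBalg⟩ := exists_indep w hP T
  have hA := card_add_le w hC hCS h1 hAS hAi
  have hB := card_add_le w hQ hQT h2 hBT hBi
  set U := ((Finset.univ.filter fun v => v ∉ S ∧ v ∉ T)).image (Sum.inl : σ → σ ⊕ ι)
  set W := A ∪ B ∪ U
  have := homI_isPrime w hP
  set R := Algebra.adjoin ℚ (xq w P '' (↑W : Set (σ ⊕ ι)))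
  have halg : ∀ x, IsAlgebraic R (xq w P x) := by
    intro x
    have mono : ∀ F : Finset (σ ⊕ ι), F ⊆ W → ∀ y,
        IsAlgebraic (Algebra.adjoin ℚ (xq w P '' (↑F : Set (σ ⊕ ι)))) (y : MvPolynomial (σ ⊕ ι) ℚ ⧸ homI w P) →
          IsAlgebraic R y := by
      intro F hF y hy
      have hle : Algebra.adjoin ℚ (xq w P '' (↑F : Set (σ ⊕ ι))) ≤ R :=
        Algebra.adjoin_mono (Set.image_mono (Finset.coe_subset.2 hF))
      obtain ⟨q, hq0, hq⟩ := hy
      refine ⟨q.map (Subalgebra.inclusion hle).toRingHom, ?_, ?_⟩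
      · exact (Polynomial.map_ne_zero_iff (Subalgebra.inclusion_injective hle)).2 hq0
      · rw [Polynomial.aeval_def, Polynomial.eval₂_map]
        exact hq
    by_cases hxS : x ∈ withZ (ι := ι) S
    · exact mono A (fun _ h => by simp [W, h]) _ (hAalg x hxS)
    by_cases hxT : x ∈ withZ (ι := ι) T
    · exact mono B (fun _ h => by simp [W, h]) _ (hBalg x hxT)
    rcases x with v | j
    · have hv : Sum.inl v ∈ W := by
        simp only [W, U, Finset.mem_union, Finset.mem_image, Finset.mem_filter]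
        exact Or.inr ⟨v, ⟨Finset.mem_univ _, fun h => hxS (Or.inl ⟨v, h, rfl⟩),
          fun h => hxT (Or.inl ⟨v, h, rfl⟩)⟩, rfl⟩
      exact isAlgebraic_algebraMap (⟨_, Algebra.subset_adjoin ⟨_, hv, rfl⟩⟩ : R)
    · exact absurd (Or.inr ⟨j, rfl⟩) hxS
  have : Algebra.IsAlgebraic R (MvPolynomial (σ ⊕ ι) ℚ ⧸ homI w P) := ⟨fun y => by
    obtain ⟨p, rfl⟩ := Ideal.Quotient.mk_surjective y
    induction p using MvPolynomial.induction_on with
    | C a =>
      exact isAlgebraic_algebraMap (algebraMap ℚ R a)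
    | add p q hp hq => rw [map_add]; exact hp.add hq
    | mul_X p v hp => rw [map_mul]; exact hp.mul (halg v)⟩
  have htop := Algebra.IsAlgebraic.trdeg_le_cardinalMk (R := ℚ) (s := xq w P '' (↑W : Set (σ ⊕ ι)))
    (A := MvPolynomial (σ ⊕ ι) ℚ ⧸ homI w P)
  obtain ⟨hP', htr⟩ := ord_trdeg w hP
  have hW : ((Fintype.card σ + Fintype.card ι - ord w P : ℕ) : Cardinal) ≤ (W.card : Cardinal) := by
    rw [← htr]
    exact htop.trans (Cardinal.mk_image_le.trans (Cardinal.mk_coe_finset (s := W)).le)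
  rw [Nat.cast_le] at hW
  have hAB : (A ∪ B).card + Fintype.card ι ≤ A.card + B.card := by
    rw [← Finset.card_union_add_card_inter A B]
    refine Nat.add_le_add_left ?_ _
    rw [← Finset.card_univ, ← Finset.card_image_of_injective _ (Sum.inr_injective (α := σ))]
    exact Finset.card_le_card fun x hx => by
      obtain ⟨j, -, rfl⟩ := Finset.mem_image.1 hx
      exact Finset.mem_inter.2 ⟨hAz j, hBz j⟩
  have hWc : W.card ≤ (A ∪ B).card + U.card := Finset.card_union_le _ _
  rw [Finset.card_image_of_injective _ Sum.inl_injective] at hWc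
  have hsum : (Finset.univ.filter fun v => v ∉ S ∧ v ∉ T).card + Fintype.card σ =
      (Finset.univ.filter fun v => v ∉ S).card + (Finset.univ.filter fun v => v ∉ T).card := by
    rw [← Finset.card_union_add_card_inter (Finset.univ.filter fun v => v ∉ S),
      Finset.filter_and, add_comm, ← Finset.card_univ]
    congr 2
    ext v
    simp only [Finset.mem_union, Finset.mem_filter, Finset.mem_univ, true_and, true_iff]
    by_contra hcon
    obtain ⟨hs, ht⟩ := not_or.1 hcon
    exact Set.disjoint_left.1 hST (not_not.1 hs) (not_not.1 ht)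
  omega

end Vale.Agent.P199.Full
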