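import Mathlib.RingTheory.Congruence.Basic
import Mathlib.RingTheory.Congruence.Hom
import Mathlib.Algebra.Algebra.Defs
import Mathlib.Order.Filter.Ultrafilter.Defs

/-!
Ultraproducts of division rings and of algebras over fields.
-/

noncomputable section

universe u v

namespace Vale.Agent.P199.Full

variable {ι : Type*} (U : Ultrafilter ι)

/-- Equality almost everywhere along `U`. -/
def ultraCon (R : ι → Type u) [∀ i, Ring (R i)] : RingCon (∀ i, R i) where
  r f g := ∀ᶠ i in (U : Filter ι), f i = g i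
  iseqv := ⟨fun _ => Filter.Eventually.of_forall fun _ => rfl,
    fun h => h.mono fun _ hi => hi.symm, fun h h' => (h.and h').mono fun _ hi => hi.1.trans hi.2⟩
  add' h h' := (h.and h').mono fun i hi => by simp only [Pi.add_apply, hi.1, hi.2]
  mul' h h' := (h.and h').mono fun i hi => by simp only [Pi.mul_apply, hi.1, hi.2]

/-- The ultraproduct of a family of rings. -/
abbrev Ultra (R : ι → Type u) [∀ i, Ring (R i)] := (ultraCon U R).Quotient

variable {U} {R : ι → Type u} [∀ i, Ring (R i)]

theorem ultra_mk_eq {f g : ∀ i, R i} :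
    (ultraCon U R).mk' f = (ultraCon U R).mk' g ↔ ∀ᶠ i in (U : Filter ι), f i = g i :=
  (ultraCon U R).eq

theorem ultra_mk_surjective : Function.Surjective (ultraCon U R).mk' := fun x =>
  Quotient.inductionOn' x fun f => ⟨f, rfl⟩

section Field

variable (U) (F : ι → Type u) [∀ i, Field (F i)]

instance : CommRing (Ultra U F) :=
  { (inferInstance : Ring (Ultra U F)) with
    mul_comm := fun x y => by
      obtain ⟨f, rfl⟩ := ultra_mk_surjective x
      obtain ⟨g, rfl⟩ := ultra_mk_surjective y
      rw [← map_mul, ← map_mul, mul_comm] }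

theorem ultra_nontrivial (D : ι → Type u) [∀ i, Ring (D i)] [∀ i, Nontrivial (D i)] :
    Nontrivial (Ultra U D) :=
  ⟨⟨(ultraCon U D).mk' 1, (ultraCon U D).mk' 0, fun h => by
    obtain ⟨i, hi⟩ := (ultra_mk_eq.1 h).exists
    exact one_ne_zero hi⟩⟩

theorem ultra_isUnit_or_eq_zero {D : ι → Type u} [∀ i, DivisionRing (D i)] (x : Ultra U D) :
    IsUnit x ∨ x = 0 := by
  classical
  obtain ⟨f, rfl⟩ := ultra_mk_surjective x
  rcases Ultrafilter.em U (fun i => f i = 0) with h | h
  · refine Or.inr ?_
    rw [← map_zero (ultraCon U D).mk', ultra_mk_eq]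
    exact h
  · refine Or.inl ⟨⟨(ultraCon U D).mk' f, (ultraCon U D).mk' (fun i => (f i)⁻¹), ?_, ?_⟩, rfl⟩
    · rw [← map_mul, ← map_one (ultraCon U D).mk', ultra_mk_eq]
      exact h.mono fun i hi => mul_inv_cancel₀ hi
    · rw [← map_mul, ← map_one (ultraCon U D).mk', ultra_mk_eq]
      exact h.mono fun i hi => inv_mul_cancel₀ hi

instance ultraDivisionRing (D : ι → Type u) [∀ i, DivisionRing (D i)] :
    DivisionRing (Ultra U D) :=
  have := ultra_nontrivial U D
  DivisionRing.ofIsUnitOrEqZero (ultra_isUnit_or_eq_zero U)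

instance ultraField : Field (Ultra U F) :=
  { ultraDivisionRing U F, (inferInstance : CommRing (Ultra U F)) with }

/-- The structure map of an ultraproduct of algebras. -/
def ultraMap (A : ι → Type u) [∀ i, Ring (A i)] [∀ i, Algebra (F i) (A i)] :
    Ultra U F →+* Ultra U A :=
  (ultraCon U F).lift ((ultraCon U A).mk'.comp (Pi.ringHom fun i =>
    (algebraMap (F i) (A i)).comp (Pi.evalRingHom F i))) fun f g h => by
    rw [RingCon.ker_apply]
    show (ultraCon U A).mk' _ = (ultraCon U A).mk' _
    rw [ultra_mk_eq]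
    exact h.mono fun i hi => congrArg (algebraMap (F i) (A i)) hi

theorem ultraMap_mk (A : ι → Type u) [∀ i, Ring (A i)] [∀ i, Algebra (F i) (A i)] (f : ∀ i, F i) :
    ultraMap U F A ((ultraCon U F).mk' f) = (ultraCon U A).mk' fun i => algebraMap (F i) (A i) (f i) :=
  rfl

instance ultraAlgebra (A : ι → Type u) [∀ i, Ring (A i)] [∀ i, Algebra (F i) (A i)] :
    Algebra (Ultra U F) (Ultra U A) :=
  (ultraMap U F A).toAlgebra' fun c x => by
    obtain ⟨f, rfl⟩ := ultra_mk_surjective c
    obtain ⟨g, rfl⟩ := ultra_mk_surjective x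
    rw [ultraMap_mk, ← map_mul, ← map_mul]
    congr 1
    funext i
    exact Algebra.commutes (f i) (g i)

theorem ultra_algebraMap_mk (A : ι → Type u) [∀ i, Ring (A i)] [∀ i, Algebra (F i) (A i)]
    (f : ∀ i, F i) : algebraMap (Ultra U F) (Ultra U A) ((ultraCon U F).mk' f) =
      (ultraCon U A).mk' fun i => algebraMap (F i) (A i) (f i) :=
  rfl

end Field

end Vale.Agent.P199.Full
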