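import Vale.Agent.P199.Full.Words
import Vale.Agent.P199.Full.Ultra
import Vale.Agent.P199.Full.AlgDiv

/-!
Kurosh's problem for division rings, full disproof: the limit of the stages.
-/

noncomputable section

namespace Vale.Agent.P199.Full

/-- A code for words. -/
def Term.code : Term → ℕ
  | .gen i => Nat.pair 0 i
  | .one => Nat.pair 1 0
  | .add s t => Nat.pair 2 (Nat.pair s.code t.code)
  | .neg t => Nat.pair 3 t.code
  | .mul s t => Nat.pair 4 (Nat.pair s.code t.code)
  | .tr t => Nat.pair 5 t.code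

theorem Term.code_injective : Function.Injective Term.code := by
  intro s
  induction s with
  | gen i =>
    intro t h
    cases t <;> simp [Term.code, Nat.pair_eq_pair] at h ⊢
    exact Fin.ext h
  | one =>
    intro t h
    cases t <;> simp [Term.code, Nat.pair_eq_pair] at h ⊢
  | add s t ihs iht =>
    intro u h
    cases u <;> simp [Term.code, Nat.pair_eq_pair] at h ⊢
    exact ⟨ihs h.1, iht h.2⟩
  | neg s ih =>
    intro u h
    cases u <;> simp [Term.code, Nat.pair_eq_pair] at h ⊢
    exact ih h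
  | mul s t ihs iht =>
    intro u h
    cases u <;> simp [Term.code, Nat.pair_eq_pair] at h ⊢
    exact ⟨ihs h.1, iht h.2⟩
  | tr s ih =>
    intro u h
    cases u <;> simp [Term.code, Nat.pair_eq_pair] at h ⊢
    exact ih h

theorem exists_enum : ∃ e : ℕ → Term, Function.Surjective e := by
  have : Countable Term := Term.code_injective.countable
  have : Nonempty Term := ⟨.one⟩
  exact exists_surjective_nat Term

/-- The `m`-th power of a word. -/
def Term.pw (t : Term) : ℕ → Term
  | 0 => .one
  | m + 1 => .mul (t.pw m) t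

theorem Term.eval_pw {K A : Type} [CommRing K] [Ring A] [Algebra K A] (τ : A →ₗ[K] K)
    (g : Fin 3 → A) (t : Term) : ∀ m, (t.pw m).eval τ g = t.eval τ g ^ m
  | 0 => by simp [Term.pw, Term.eval]
  | m + 1 => by simp [Term.pw, Term.eval, Term.eval_pw τ g t m, pow_succ]

theorem hankel_injective {K D : Type} [Field K] [DivisionRing D] [Algebra K D] (τ : D →ₗ[K] K)
    (τ1 : τ 1 = 1) {y : D} (hy : IsIntegral K y) (v : Fin (minpoly K y).natDegree → K)
    (hv : ∀ i : Fin (minpoly K y).natDegree, τ (y ^ (i : ℕ) * ∑ j, v j • y ^ (j : ℕ)) = 0) :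
    v = 0 := by
  have hli := linearIndependent_pow (K := K) y
  obtain ⟨u, hu⟩ : ∃ u : D, ∑ j, v j • y ^ (j : ℕ) = u := ⟨_, rfl⟩
  rw [hu] at hv
  have hzero : ∀ w ∈ Submodule.span K
      (Set.range fun i : Fin (minpoly K y).natDegree => y ^ (i : ℕ)), τ (w * u) = 0 := by
    intro w hw
    induction hw using Submodule.span_induction with
    | mem w hw => obtain ⟨i, rfl⟩ := hw; exact hv i
    | zero => rw [zero_mul, map_zero]
    | add a b _ _ ha hb => rw [add_mul, map_add, ha, hb, add_zero]
    | smul r a _ ha => rw [smul_mul_assoc, map_smul, ha, smul_zero]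
  have hua : u ∈ Algebra.adjoin K ({y} : Set D) := by
    rw [← hu]
    refine Subalgebra.sum_mem _ fun j _ => ?_
    exact Subalgebra.smul_mem _ (pow_mem (Algebra.subset_adjoin (Set.mem_singleton y)) _) _
  by_contra hv0
  have hu0 : u ≠ 0 := by
    intro h0
    rw [h0] at hu
    exact hv0 (funext (Fintype.linearIndependent_iff.1 hli v hu))
  have halg : IsAlgebraic K u :=
    (IsIntegral.of_mem_of_fg _ hy.fg_adjoin_singleton u hua).isAlgebraic
  have hinv : u⁻¹ ∈ Algebra.adjoin K ({y} : Set D) := inv_mem_of_algebraic _ hua halg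
  rw [Algebra.adjoin_singleton_eq_range_aeval, AlgHom.mem_range] at hinv
  have hex : ∃ q : Polynomial K, u⁻¹ = Polynomial.aeval y q := by
    obtain ⟨p, hp⟩ := hinv
    exact ⟨p, hp.symm⟩
  have h1 := hzero u⁻¹ (hy.mem_span_pow hex)
  rw [inv_mul_cancel₀ hu0, τ1] at h1
  exact one_ne_zero h1

/-- Minimal polynomials have coefficients in a field containing the traces of all powers. -/
theorem algebraic_of_traces {K D : Type} [Field K] [DivisionRing D] [Algebra K D] (τ : D →ₗ[K] K)
    (τ1 : τ 1 = 1) (F : Subfield K) {y : D}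
    (hy : IsIntegral K y) (htr : ∀ m, τ (y ^ m) ∈ F) : IsAlgebraic F y := by
  classical
  set m := (minpoly K y).natDegree with hm
  obtain ⟨c, hc⟩ := (Submodule.mem_span_range_iff_exists_fun K).1
    (hy.mem_span_pow (y := y ^ m) ⟨Polynomial.X ^ m, (Polynomial.aeval_X_pow y).symm⟩)
  let H : Matrix (Fin m) (Fin m) F := fun i j => ⟨τ (y ^ ((i : ℕ) + j)), htr _⟩
  let r : Fin m → F := fun i => ⟨τ (y ^ ((i : ℕ) + m)), htr _⟩
  have hHK : ∀ (v : Fin m → K) (i : Fin m),
      ∑ j, (H i j : K) * v j = τ (y ^ (i : ℕ) * ∑ j, v j • y ^ (j : ℕ)) := by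
    intro v i
    rw [Finset.mul_sum, map_sum]
    refine Finset.sum_congr rfl fun j _ => ?_
    rw [mul_smul_comm, ← pow_add, map_smul, smul_eq_mul, mul_comm]
  have hdet : IsUnit H.det := by
    rw [isUnit_iff_ne_zero]
    intro h0
    obtain ⟨v, hv0, hv⟩ := Matrix.exists_mulVec_eq_zero_iff.2
      (show (F.subtype.mapMatrix H).det = 0 by rw [← RingHom.map_det, h0, map_zero])
    refine hv0 (hankel_injective τ τ1 hy v fun i => ?_)
    rw [← hHK v i]
    exact congrFun hv i
  let cF := H⁻¹.mulVec r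
  have hcF : H.mulVec cF = r := by
    rw [Matrix.mulVec_mulVec, Matrix.mul_nonsing_inv H hdet, Matrix.one_mulVec]
  have hcc : c = fun j => (cF j : K) := by
    refine sub_eq_zero.1 (hankel_injective τ τ1 hy _ fun i => ?_)
    rw [← hHK]
    simp only [Pi.sub_apply, mul_sub, Finset.sum_sub_distrib]
    rw [sub_eq_zero, hHK c i, hc, ← pow_add]
    show τ (y ^ ((i : ℕ) + m)) = _
    have := congrArg (fun x : F => (x : K)) (congrFun hcF i)
    simp only [Matrix.mulVec, dotProduct, AddSubmonoidClass.coe_finsetSum, Subfield.coe_mul] at this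
    exact this.symm
  refine IsIntegral.isAlgebraic ⟨Polynomial.X ^ m -
    ∑ j : Fin m, Polynomial.C (cF j) * Polynomial.X ^ (j : ℕ), ?_, ?_⟩
  · exact Polynomial.monic_X_pow_sub (Polynomial.degree_sum_fin_lt cF)
  · rw [← Polynomial.aeval_def, map_sub, map_sum, Polynomial.aeval_X_pow, sub_eq_zero, ← hc]
    refine Finset.sum_congr rfl fun j _ => ?_
    rw [map_mul, Polynomial.aeval_C, Polynomial.aeval_X_pow, ← Algebra.smul_def, hcc]
    exact (Subfield.smul_def (cF j) (y ^ (j : ℕ))).symm

section Field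

variable {K D : Type} [Field K] [DivisionRing D] [Algebra K D]

theorem isAlgebraic_adjoin (τ : D →ₗ[K] K) (τ1 : τ 1 = 1) (g : Fin 3 → D) (S : Set K)
    (hS : S = Set.range fun t : Term => τ (t.eval τ g))
    (hint : ∀ t : Term, IsIntegral K (t.eval τ g)) :
    ∀ x ∈ Algebra.adjoin (Subfield.closure S) (Set.range g), IsAlgebraic (Subfield.closure S) x := by
  have hcl : ∀ z ∈ Subring.closure S, ∃ t : Term, t.eval τ g = algebraMap K D z := by
    intro z hz
    induction hz using Subring.closure_induction with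
    | mem z hz => rw [hS] at hz; obtain ⟨t, rfl⟩ := hz; exact ⟨t.tr, rfl⟩
    | zero => exact ⟨Term.one.add Term.one.neg, by simp [Term.eval]⟩
    | one => exact ⟨Term.one, by simp [Term.eval]⟩
    | add a b _ _ ha hb =>
      obtain ⟨s, hs⟩ := ha; obtain ⟨t, ht⟩ := hb
      exact ⟨s.add t, by rw [Term.eval, hs, ht, map_add]⟩
    | neg a _ ha => obtain ⟨s, hs⟩ := ha; exact ⟨s.neg, by rw [Term.eval, hs, map_neg]⟩
    | mul a b _ _ ha hb =>
      obtain ⟨s, hs⟩ := ha; obtain ⟨t, ht⟩ := hb
      exact ⟨s.mul t, by rw [Term.eval, hs, ht, map_mul]⟩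
  have hrep : ∀ x ∈ Algebra.adjoin (Subfield.closure S) (Set.range g),
      ∃ b ∈ Subring.closure S, b ≠ 0 ∧ ∃ t : Term, t.eval τ g = algebraMap K D b * x := by
    intro x hx
    induction hx using Algebra.adjoin_induction with
    | mem x hx =>
      obtain ⟨j, rfl⟩ := hx
      exact ⟨1, one_mem _, one_ne_zero, .gen j, by simp [Term.eval]⟩
    | algebraMap r =>
      obtain ⟨y, hy, z, hz, hyz⟩ := Subfield.mem_closure_iff.1 r.2
      rw [show algebraMap (Subfield.closure S) D r = algebraMap K D (r : K) from rfl]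
      by_cases hz0 : z = 0
      · refine ⟨1, one_mem _, one_ne_zero, Term.one.add Term.one.neg, ?_⟩
        show Term.eval τ g _ = algebraMap K D 1 * algebraMap K D (r : K)
        rw [← hyz, hz0, div_zero]
        simp [Term.eval]
      · obtain ⟨t, ht⟩ := hcl y hy
        refine ⟨z, hz, hz0, t, ?_⟩
        show _ = algebraMap K D z * algebraMap K D (r : K)
        rw [ht, ← map_mul, ← hyz, mul_div_cancel₀ _ hz0]
    | add x y _ _ hx hy =>
      obtain ⟨b, hb, hb0, s, hs⟩ := hx; obtain ⟨c, hc, hc0, t, ht⟩ := hy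
      obtain ⟨sb, hsb⟩ := hcl b hb; obtain ⟨sc, hsc⟩ := hcl c hc
      refine ⟨b * c, mul_mem hb hc, mul_ne_zero hb0 hc0, (sc.mul s).add (sb.mul t), ?_⟩
      rw [Term.eval, Term.eval, Term.eval, hs, ht, hsb, hsc, map_mul, mul_add, ← mul_assoc,
        ← mul_assoc, Algebra.commutes c (algebraMap K D b)]
    | mul x y _ _ hx hy =>
      obtain ⟨b, hb, hb0, s, hs⟩ := hx; obtain ⟨c, hc, hc0, t, ht⟩ := hy
      refine ⟨b * c, mul_mem hb hc, mul_ne_zero hb0 hc0, s.mul t, ?_⟩
      rw [Term.eval, hs, ht, map_mul]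
      simp only [mul_assoc]
      rw [← mul_assoc x, ← Algebra.commutes c x, mul_assoc]
  intro x hx
  obtain ⟨b, hb, hb0, t, ht⟩ := hrep x hx
  have halgt : IsAlgebraic (Subfield.closure S) (t.eval τ g) :=
    algebraic_of_traces τ τ1 _ (hint t) fun m =>
      Subfield.subset_closure (hS ▸ ⟨t.pw m, congrArg τ (Term.eval_pw τ g t m)⟩)
  have hb' : b⁻¹ ∈ Subfield.closure S := inv_mem (Subfield.subring_closure_le _ hb)
  have : x = (⟨b⁻¹, hb'⟩ : Subfield.closure S) • t.eval τ g := by
    rw [ht, Subfield.smul_def, Algebra.smul_def, ← mul_assoc, ← map_mul]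
    show x = algebraMap K D (b⁻¹ * b) * x
    rw [inv_mul_cancel₀ hb0, map_one, one_mul]
  rw [this]
  exact (halgt.isIntegral.smul _).isAlgebraic

theorem infinite_adjoin (g : Fin 3 → D) (F : Subfield K)
    (hbig : ∀ (d : ℕ) (f : Fin d → D), 1 ∈ Submodule.span K (Set.range f) →
      (∀ j l, f j * f l ∈ Submodule.span K (Set.range f)) →
      ∃ j, g j ∉ Submodule.span K (Set.range f)) :
    ¬ Module.Finite F (Algebra.adjoin F (Set.range g)) := by
  intro hfin
  let b := Module.finBasis F (Algebra.adjoin F (Set.range g))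
  have key : ∀ x ∈ Algebra.adjoin F (Set.range g),
      x ∈ Submodule.span K (Set.range fun j => (b j : D)) := by
    intro x hx
    have := congrArg (fun y : Algebra.adjoin F (Set.range g) => (y : D)) (b.sum_repr ⟨x, hx⟩)
    simp only [AddSubmonoidClass.coe_finsetSum, SetLike.val_smul] at this
    rw [← this]
    refine sum_mem fun j _ => ?_
    rw [Subfield.smul_def]
    exact Submodule.smul_mem _ _ (Submodule.subset_span ⟨j, rfl⟩)
  obtain ⟨j, hj⟩ := hbig _ (fun j => (b j : D)) (key 1 (one_mem _))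
    fun j l => key _ (mul_mem (b j).2 (b l).2)
  exact hj (key _ (Algebra.subset_adjoin ⟨j, rfl⟩))

theorem kurosh_of_data (τ : D →ₗ[K] K) (τ1 : τ 1 = 1) (g : Fin 3 → D)
    (hint : ∀ t : Term, IsIntegral K (t.eval τ g))
    (hbig : ∀ (d : ℕ) (f : Fin d → D), 1 ∈ Submodule.span K (Set.range f) →
      (∀ j l, f j * f l ∈ Submodule.span K (Set.range f)) →
      ∃ j, g j ∉ Submodule.span K (Set.range f)) :
    ∃ (F D : Type) (_ : Field F) (_ : DivisionRing D) (_ : Algebra F D) (S : Finset D),
      Algebra.IsAlgebraic F D ∧ Algebra.adjoin F (S : Set D) = ⊤ ∧ ¬ Module.Finite F D ∧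
      Algebra.IsAlgebraic (Subring.center D) D ∧ Algebra.adjoin (Subring.center D) (S : Set D) = ⊤ ∧
      ¬ Module.Finite (Subring.center D) D := by
  classical
  let F : Subfield K := Subfield.closure (Set.range fun t : Term => τ (t.eval τ g))
  let A : Subalgebra F D := Algebra.adjoin F (Set.range g)
  have halgA : ∀ x ∈ A, IsAlgebraic F x := isAlgebraic_adjoin τ τ1 g _ rfl hint
  let _ : DivisionRing A := DivisionRing.ofIsUnitOrEqZero (isUnit_or_eq_zero_of_algebraic A halgA)
  let gA : Fin 3 → A := fun j => ⟨g j, Algebra.subset_adjoin ⟨j, rfl⟩⟩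
  have halg : Algebra.IsAlgebraic F A := ⟨fun x =>
    (isAlgebraic_algHom_iff A.val Subtype.val_injective).1 (halgA x x.2)⟩
  have hgen : Algebra.adjoin F ((Finset.univ.image gA : Finset A) : Set A) = ⊤ := by
    have : ((Finset.univ.image gA : Finset A) : Set A) = Set.range gA := by simp
    rw [this]
    refine Subalgebra.map_injective (f := A.val) Subtype.val_injective ?_
    rw [AlgHom.map_adjoin, Algebra.map_top, Subalgebra.range_val, ← Set.range_comp]
    rfl
  have hinf : ¬ Module.Finite F A := infinite_adjoin g F hbig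
  refine ⟨F, A, inferInstance, inferInstance, inferInstance, Finset.univ.image gA, halg, hgen, hinf,
    isAlgebraic_center (k := F), adjoin_center_eq_top hgen, ?_⟩
  exact infinite_over_center (Finset.finite_toSet _) hgen hinf

end Field

section

variable {ι : Type} (U : Ultrafilter ι) {K D : ι → Type} [∀ i, Field (K i)]
  [∀ i, DivisionRing (D i)] [∀ i, Algebra (K i) (D i)]

/-- An ultraproduct of linear forms. -/
def ultraForm (τ : ∀ i, D i →ₗ[K i] K i) : Ultra U D →ₗ[Ultra U K] Ultra U K where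
  toFun x := Quotient.liftOn' x (fun f => (ultraCon U K).mk' fun i => τ i (f i))
    fun f g h => ultra_mk_eq.2 (h.mono fun i hi => congrArg (τ i) hi)
  map_add' x y := by
    obtain ⟨f, rfl⟩ := ultra_mk_surjective x
    obtain ⟨g, rfl⟩ := ultra_mk_surjective y
    rw [← map_add]
    show (ultraCon U K).mk' _ = (ultraCon U K).mk' _ + (ultraCon U K).mk' _
    rw [← map_add]
    congr 1
    funext i
    exact map_add (τ i) (f i) (g i)
  map_smul' c x := by
    obtain ⟨a, rfl⟩ := ultra_mk_surjective c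
    obtain ⟨f, rfl⟩ := ultra_mk_surjective x
    rw [Algebra.smul_def, ultra_algebraMap_mk, ← map_mul]
    show (ultraCon U K).mk' _ = (ultraCon U K).mk' a * (ultraCon U K).mk' _
    rw [← map_mul]
    congr 1
    funext i
    show τ i (algebraMap (K i) (D i) (a i) * f i) = a i * τ i (f i)
    rw [← Algebra.smul_def, map_smul, smul_eq_mul]

theorem ultraForm_mk (τ : ∀ i, D i →ₗ[K i] K i) (f : ∀ i, D i) :
    ultraForm U τ ((ultraCon U D).mk' f) = (ultraCon U K).mk' fun i => τ i (f i) :=
  rfl

theorem eval_ultra (τ : ∀ i, D i →ₗ[K i] K i) (g : ∀ i, Fin 3 → D i) : ∀ t : Term,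
    t.eval (ultraForm U τ) (fun j => (ultraCon U D).mk' fun i => g i j) =
      (ultraCon U D).mk' fun i => t.eval (τ i) (g i)
  | .gen j => rfl
  | .one => (map_one _).symm
  | .add s t => by
    rw [Term.eval, eval_ultra τ g s, eval_ultra τ g t, ← map_add]; rfl
  | .neg t => by
    rw [Term.eval, eval_ultra τ g t, ← map_neg]; rfl
  | .mul s t => by
    rw [Term.eval, eval_ultra τ g s, eval_ultra τ g t, ← map_mul]; rfl
  | .tr t => by
    rw [Term.eval, eval_ultra τ g t, ultraForm_mk, ultra_algebraMap_mk]; rfl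

theorem integral_ultra (d : ℕ) (f : ∀ i, D i) (h : ∀ᶠ i in (U : Filter ι),
    ¬ LinearIndependent (K i) fun j : Fin (d + 1) => f i ^ (j : ℕ)) :
    IsIntegral (Ultra U K) ((ultraCon U D).mk' f) := by
  classical
  have hc : ∀ i, ∃ c : Fin (d + 1) → K i,
      (¬ LinearIndependent (K i) fun j : Fin (d + 1) => f i ^ (j : ℕ)) →
        (∑ j, c j • f i ^ (j : ℕ)) = 0 ∧ ∃ j, c j ≠ 0 := by
    intro i
    by_cases hi : LinearIndependent (K i) fun j : Fin (d + 1) => f i ^ (j : ℕ)
    · exact ⟨0, fun h => absurd hi h⟩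
    · obtain ⟨c, hc⟩ := Fintype.not_linearIndependent_iff.1 hi
      exact ⟨c, fun _ => hc⟩
  choose c hc using hc
  let p : Polynomial (Ultra U K) :=
    ∑ j : Fin (d + 1), Polynomial.C ((ultraCon U K).mk' fun i => c i j) * Polynomial.X ^ (j : ℕ)
  have hp : p ≠ 0 := by
    intro hp0
    have hj : ∀ j, ∀ᶠ i in (U : Filter ι), c i j = 0 := by
      intro j
      have := congrArg (fun q => Polynomial.coeff q (j : ℕ)) hp0
      simp only [p, Polynomial.finsetSum_coeff, Polynomial.coeff_C_mul_X_pow, Fin.val_inj,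
        Finset.sum_ite_eq, Finset.mem_univ, if_true, Polynomial.coeff_zero] at this
      rw [← map_zero (ultraCon U K).mk', ultra_mk_eq] at this
      exact this
    obtain ⟨i, hi, hall⟩ := (h.and (Filter.eventually_all.2 hj)).exists
    obtain ⟨-, j, hj'⟩ := hc i hi
    exact hj' (hall j)
  refine (show IsAlgebraic (Ultra U K) ((ultraCon U D).mk' f) from ⟨p, hp, ?_⟩).isIntegral
  have e : ∀ j : Fin (d + 1), Polynomial.aeval ((ultraCon U D).mk' f)
      (Polynomial.C ((ultraCon U K).mk' fun i => c i j) * Polynomial.X ^ (j : ℕ)) =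
      (ultraCon U D).mk' ((fun i => algebraMap (K i) (D i) (c i j)) * f ^ (j : ℕ)) := fun j => by
    rw [map_mul, Polynomial.aeval_C, Polynomial.aeval_X_pow, ultra_algebraMap_mk, map_mul, map_pow]
  rw [map_sum, Finset.sum_congr rfl fun j _ => e j, ← map_sum,
    ← map_zero (ultraCon U D).mk', ultra_mk_eq]
  refine h.mono fun i hi => ?_
  simp only [Finset.sum_apply, Pi.mul_apply, Pi.pow_apply, Pi.zero_apply, ← Algebra.smul_def]
  exact (hc i hi).1

end

theorem ultra_big {K D : ℕ → Type} [∀ i, Field (K i)] [∀ i, DivisionRing (D i)]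
    [∀ i, Algebra (K i) (D i)] {U : Ultrafilter ℕ} (hU : ∀ m, ∀ᶠ n in (U : Filter ℕ), m < n)
    (g : ∀ i, Fin 3 → D i)
    (hbig : ∀ n, ∀ A : Subalgebra (K n) (D n), Module.finrank (K n) A ≤ n → ∃ i, g n i ∉ A)
    (d : ℕ) (F : Fin d → Ultra U D)
    (h1 : 1 ∈ Submodule.span (Ultra U K) (Set.range F))
    (h2 : ∀ j l, F j * F l ∈ Submodule.span (Ultra U K) (Set.range F)) :
    ∃ j, (ultraCon U D).mk' (fun i => g i j) ∉ Submodule.span (Ultra U K) (Set.range F) := by
  classical
  by_contra hall
  push Not at hall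
  choose f hf using fun j => ultra_mk_surjective (F j)
  have key : ∀ x' : ∀ n, D n, (ultraCon U D).mk' x' ∈ Submodule.span (Ultra U K) (Set.range F) →
      ∀ᶠ n in (U : Filter ℕ), x' n ∈ Submodule.span (K n) (Set.range fun j => f j n) := by
    intro x' hx'
    obtain ⟨c, hc⟩ := (Submodule.mem_span_range_iff_exists_fun _).1 hx'
    choose a ha using fun j => ultra_mk_surjective (c j)
    have e1 : (ultraCon U D).mk' x' = (ultraCon U D).mk' fun n => ∑ j, a j n • f j n := by
      rw [← hc, show (fun n => ∑ j, a j n • f j n) =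
        ∑ j, (fun n => algebraMap (K n) (D n) (a j n)) * f j from
          funext fun n => by simp [Algebra.smul_def], map_sum]
      refine Finset.sum_congr rfl fun j _ => ?_
      rw [map_mul, ← ultra_algebraMap_mk, ha, hf, ← Algebra.smul_def]
    exact (ultra_mk_eq.1 e1).mono fun n hn => hn ▸
      sum_mem fun j _ => Submodule.smul_mem _ _ (Submodule.subset_span ⟨j, rfl⟩)
  have k1 := key 1 (by rw [map_one]; exact h1)
  have k2 := Filter.eventually_all.2 fun j => Filter.eventually_all.2 fun l =>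
    key (f j * f l) (by rw [map_mul, hf, hf]; exact h2 j l)
  have k3 := Filter.eventually_all.2 fun j => key (fun n => g n j) (hall j)
  obtain ⟨n, ⟨⟨hn1, hn2⟩, hn3⟩, hn⟩ := (((k1.and k2).and k3).and (hU d)).exists
  let W := Submodule.span (K n) (Set.range fun j => f j n)
  have hW : ∀ u v, u ∈ W → v ∈ W → u * v ∈ W := by
    intro u v hu hv
    induction hu using Submodule.span_induction with
    | mem u hu =>
      obtain ⟨j, rfl⟩ := hu
      induction hv using Submodule.span_induction with
      | mem v hv => obtain ⟨l, rfl⟩ := hv; exact hn2 j l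
      | zero => simp
      | add a c _ _ ha hc => rw [mul_add]; exact add_mem ha hc
      | smul r a _ ha => rw [mul_smul_comm]; exact Submodule.smul_mem _ _ ha
    | zero => simp
    | add a c _ _ ha hc => rw [add_mul]; exact add_mem ha hc
    | smul r a _ ha => rw [smul_mul_assoc]; exact Submodule.smul_mem _ _ ha
  have hdim : Module.finrank (K n) W ≤ d :=
    (finrank_range_le_card (R := K n) fun j => f j n).trans (le_of_eq (Fintype.card_fin _))
  obtain ⟨j, hj⟩ := hbig n (W.toSubalgebra hn1 hW) (hdim.trans hn.le)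
  exact hj (hn3 j)

theorem kurosh_false (h : ∀ (n L : ℕ) (w : Fin n → Term), Nonempty (Stage w L)) :
    ∃ (F D : Type) (_ : Field F) (_ : DivisionRing D) (_ : Algebra F D) (S : Finset D),
      Algebra.IsAlgebraic F D ∧ Algebra.adjoin F (S : Set D) = ⊤ ∧ ¬ Module.Finite F D ∧
      Algebra.IsAlgebraic (Subring.center D) D ∧ Algebra.adjoin (Subring.center D) (S : Set D) = ⊤ ∧
      ¬ Module.Finite (Subring.center D) D := by
  classical
  obtain ⟨e, he⟩ := exists_enum
  let st : ∀ n : ℕ, Stage (fun i : Fin n => e i) n := fun n => (h n n _).some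
  let U : Ultrafilter ℕ := Filter.hyperfilter ℕ
  have hU : ∀ m, ∀ᶠ n in (U : Filter ℕ), m < n := fun m => by
    apply Filter.hyperfilter_le_cofinite
    rw [Nat.cofinite_eq_atTop]
    exact Filter.eventually_gt_atTop m
  refine kurosh_of_data (K := Ultra U fun n => (st n).K) (D := Ultra U fun n => (st n).D)
    (ultraForm U fun n => (st n).τ) ?_
    (fun j => (ultraCon U fun n => (st n).D).mk' fun n => (st n).g j) (fun t => ?_)
    (ultra_big (D := fun n => (st n).D) hU (fun n => (st n).g) fun n => (st n).big)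
  · rw [← map_one (ultraCon U fun n => (st n).D).mk', ultraForm_mk,
      ← map_one (ultraCon U fun n => (st n).K).mk']
    congr 1
    funext n
    exact (st n).τ_one
  · obtain ⟨i, rfl⟩ := he t
    rw [eval_ultra U (fun n => (st n).τ) (fun n => (st n).g) (e i)]
    refine integral_ultra U (bound i) _ ?_
    exact (hU i).mono fun n hn => (st n).deg_le ⟨i, hn⟩

end Vale.Agent.P199.Full
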