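import Vale.Agent.P199.Full.Invariant
import Vale.Agent.P199.Full.HilbertDim
import Vale.Agent.P199.Full.QHom

/-!
Kurosh's problem for division rings, full disproof: the field and the division algebra attached
to a prime of the class-graded polynomial ring.

The scalars are the fraction field of the homogenised ring modulo the homogenised prime; the
parameter `z j` is the image of the homogenising variable and `ev` divides by the powers of
`∏ j, z j` so that homogeneous elements of weight `0` evaluate multiplicatively up to `carry`.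
-/

noncomputable section

namespace Vale.Agent.P199.Full

open MvPolynomial

set_option linter.unusedSectionVars false

/-- The field, parameters and evaluation attached to a prime. -/
structure Model {N : ℕ} {σ : Type} [Fintype σ] (w : σ → Deg (QI N)) (J : Ideal (MvPolynomial σ ℚ)) where
  /-- The scalars. -/
  K : Type
  [instK : Field K]
  [instA : Algebra ℚ K]
  /-- The parameters of the quaternion algebras. -/
  z : QI N → K
  z_ne : ∀ i, z i ≠ 0
  /-- The evaluation. -/
  ev : MvPolynomial σ ℚ →ₗ[ℚ] K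
  ev_one : ev 1 = 1
  ev_mul : ∀ f g γ δ, IsWeightedHomogeneous w f ((γ, 0) : Deg (QI N)) →
    IsWeightedHomogeneous w g ((δ, 0) : Deg (QI N)) → ev (f * g) = carry z γ δ * ev f * ev g
  ev_eq_zero : ∀ f m, IsWeightedHomogeneous w f m → (ev f = 0 ↔ f ∈ J)
  dom : ∀ a b : QT z, a * b = 0 → a = 0 ∨ b = 0
  gen : IntermediateField.adjoin ℚ (Set.range z ∪ Set.range fun v => ev (X v)) = ⊤
  trdeg : Algebra.trdeg ℚ K = ((Fintype.card σ + 2 * N - ord w J : ℕ) : Cardinal)

attribute [instance] Model.instK Model.instA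

variable {σ ι : Type} [Fintype σ] [Fintype ι]

/-- The natural number lifting a class coordinate. -/
def bit (a : ZMod 2) : ℕ := if a = 1 then 1 else 0

theorem bit_add (a b : ZMod 2) :
    bit a + bit b = bit (a + b) + 2 * if a = 1 ∧ b = 1 then 1 else 0 := by
  revert a b; decide

theorem bit_cast (a : ZMod 2) : (bit a : ZMod 2) = a := by
  revert a; decide

/-- The class count of an exponent in one coordinate. -/
def classCount (w : σ → Deg ι) (j : ι) (d : σ →₀ ℕ) : ℕ := ∑ v, d v * bit ((w v).1 j)

theorem classCount_add (w : σ → Deg ι) (j : ι) (a b : σ →₀ ℕ) :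
    classCount w j (a + b) = classCount w j a + classCount w j b := by
  simp [classCount, add_mul, Finset.sum_add_distrib]

theorem classCount_mod (w : σ → Deg ι) (j : ι) (d : σ →₀ ℕ) :
    classCount w j d % 2 = bit ((Finsupp.weight w d).1 j) := by
  have h : (classCount w j d : ZMod 2) = (Finsupp.weight w d).1 j := by
    rw [classCount, Finsupp.weight_apply, Finsupp.sum_fintype _ _ (by simp), Nat.cast_sum,
      Prod.fst_sum, Finset.sum_apply]
    simp [bit_cast, nsmul_eq_mul]
  rw [← h]
  generalize classCount w j d = n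
  rcases Nat.mod_two_eq_zero_or_one n with hn | hn <;> rw [hn, ← ZMod.natCast_mod n 2, hn] <;> rfl

variable {N : ℕ}

/-- The lifted homogenising exponents of an exponent `d` at height `T`. -/
def homExp (w : σ → Deg ι) (T : ℕ) (d : σ →₀ ℕ) : (σ ⊕ ι) →₀ ℕ :=
  Finsupp.equivFunOnFinite.symm
    (Sum.elim (fun v => d v) fun j => (T - d.degree) + classCount w j d / 2)

theorem weight_homExp (w : σ → Deg ι) (T : ℕ) (d : σ →₀ ℕ) (hT : d.degree ≤ T) :
    Finsupp.weight (lift w) (homExp w T d) = Finsupp.equivFunOnFinite.symm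
      (fun o => o.elim (Finsupp.weight w d).2 fun j => 2 * T - bit ((Finsupp.weight w d).1 j)) := by
  classical
  ext o
  rw [Finsupp.weight_apply, Finsupp.sum_fintype _ _ (by simp), Fintype.sum_sum_type,
    Finsupp.add_apply, Finsupp.finsetSum_apply, Finsupp.finsetSum_apply]
  simp only [homExp, Finsupp.coe_equivFunOnFinite_symm, Sum.elim_inl, Sum.elim_inr,
    Finsupp.smul_apply, smul_eq_mul, lift]
  cases o with
  | none =>
    simp [Finsupp.weight_apply, Finsupp.sum_fintype, Prod.snd_sum]
  | some j =>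
    simp only [Option.elim_some, Finsupp.single_apply, Option.some.injEq, mul_ite, mul_zero,
      Finset.sum_ite_eq', Finset.mem_univ, if_true]
    have h1 : ∑ v, d v * (if (w v).1 j = 1 then 1 else 2) + classCount w j d = 2 * d.degree := by
      rw [classCount, ← Finset.sum_add_distrib, Finsupp.degree_eq_sum, Finset.mul_sum]
      refine Finset.sum_congr rfl fun v _ => ?_
      simp only [bit]
      split_ifs <;> ring
    simp only [mul_ite, mul_one] at h1
    have h2 := classCount_mod w j d
    have h3 : bit ((Finsupp.weight w d).1 j) ≤ 1 := by simp only [bit]; split_ifs <;> omega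
    simp only [mul_one]
    omega

/-- Evaluation of a monomial. -/
def evMon {K : Type} [Field K] (w : σ → Deg ι) (x : σ → K) (z : ι → K) (d : σ →₀ ℕ) : K :=
  (∏ v, (x v / ∏ j, z j) ^ d v) * ∏ j, z j ^ (classCount w j d / 2)

theorem evMon_add {K : Type} [Field K] (w : σ → Deg (QI N)) (x : σ → K) (z : QI N → K)
    (a b : σ →₀ ℕ) : evMon w x z (a + b) =
      carry z (Finsupp.weight w a).1 (Finsupp.weight w b).1 * evMon w x z a * evMon w x z b := by
  classical
  have hc : carry z (Finsupp.weight w a).1 (Finsupp.weight w b).1 *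
      (∏ j, z j ^ (classCount w j a / 2)) * (∏ j, z j ^ (classCount w j b / 2)) =
      ∏ j, z j ^ (classCount w j (a + b) / 2) := by
    rw [carry, ← Finset.prod_mul_distrib, ← Finset.prod_mul_distrib]
    refine Finset.prod_congr rfl fun j _ => ?_
    have h1 := classCount_mod w j a
    have h2 := classCount_mod w j b
    have h3 := bit_add ((Finsupp.weight w a).1 j) ((Finsupp.weight w b).1 j)
    have hle : bit ((Finsupp.weight w a).1 j + (Finsupp.weight w b).1 j) ≤ 1 := by
      simp only [bit]; split_ifs <;> omega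
    rw [classCount_add]
    split_ifs with h
    · rw [if_pos h] at h3
      rw [show (classCount w j a + classCount w j b) / 2 =
        1 + classCount w j a / 2 + classCount w j b / 2 by omega, pow_add, pow_add, pow_one]
    · rw [if_neg h] at h3
      rw [one_mul, ← pow_add, show (classCount w j a + classCount w j b) / 2 =
        classCount w j a / 2 + classCount w j b / 2 by omega]
  simp only [evMon, Finsupp.add_apply, pow_add, Finset.prod_mul_distrib]
  rw [← hc]; ring

/-! ### The evaluation map -/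

section Eval

variable (w : σ → Deg (QI N)) {K : Type} [Field K] [Algebra ℚ K]
  (q : MvPolynomial (σ ⊕ QI N) ℚ →ₐ[ℚ] K)

/-- The evaluation attached to a map of the homogenised ring. -/
def modelEv : MvPolynomial σ ℚ →ₗ[ℚ] K :=
  (basisMonomials σ ℚ).constr ℚ (evMon w (fun v => q (X (Sum.inl v))) fun j => q (X (Sum.inr j)))

theorem modelEv_monomial (d : σ →₀ ℕ) (a : ℚ) :
    modelEv w q (monomial d a) =
      a • evMon w (fun v => q (X (Sum.inl v))) (fun j => q (X (Sum.inr j))) d := by
  have h : modelEv w q (monomial d (1 : ℚ)) =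
      evMon w (fun v => q (X (Sum.inl v))) (fun j => q (X (Sum.inr j))) d := by
    rw [modelEv, ← congrFun (coe_basisMonomials (σ := σ) (R := ℚ)) d]
    exact Module.Basis.constr_basis _ ℚ _ d
  rw [show monomial d a = a • monomial d (1 : ℚ) by rw [smul_monomial, smul_eq_mul, mul_one],
    map_smul, h]

theorem modelEv_one : modelEv w q 1 = 1 := by
  rw [← C_1, ← monomial_zero', modelEv_monomial]
  simp [evMon, classCount]

theorem modelEv_X (v : σ) :
    modelEv w q (X v) = q (X (Sum.inl v)) / ∏ j, q (X (Sum.inr j)) := by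
  classical
  have h : ∀ j, classCount w j (Finsupp.single v 1) / 2 = 0 := fun j => by
    simp only [classCount]
    rw [Finset.sum_eq_single v (fun u _ hu => by simp [Ne.symm hu]) (by simp),
      Finsupp.single_eq_same, one_mul]
    simp only [bit]
    split_ifs <;> simp
  rw [X, modelEv_monomial, one_smul, evMon, Finset.prod_eq_single v
    (fun u _ hu => by simp [hu]) (by simp)]
  simp [h]

theorem modelEv_mul {f g : MvPolynomial σ ℚ} {γ δ : Deg (QI N)}
    (hf : IsWeightedHomogeneous w f γ) (hg : IsWeightedHomogeneous w g δ) :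
    modelEv w q (f * g) =
      carry (fun j => q (X (Sum.inr j))) γ.1 δ.1 * modelEv w q f * modelEv w q g := by
  classical
  conv_lhs => rw [f.as_sum, g.as_sum, Finset.sum_mul_sum, map_sum]
  conv_rhs => rw [f.as_sum, g.as_sum, map_sum, map_sum, mul_assoc, Finset.sum_mul_sum, Finset.mul_sum]
  refine Finset.sum_congr rfl fun a ha => ?_
  rw [map_sum, Finset.mul_sum]
  refine Finset.sum_congr rfl fun b hb => ?_
  rw [monomial_mul, modelEv_monomial, modelEv_monomial, modelEv_monomial, evMon_add,
    hf (mem_support_iff.1 ha), hg (mem_support_iff.1 hb)]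
  simp only [Algebra.smul_def, map_mul]
  ring

theorem modelEv_eq_zero {J : Ideal (MvPolynomial σ ℚ)} [Nonempty (QI N)] (hJ : IsGr w J)
    (hq : ∀ b, q b = 0 ↔ b ∈ homI w J) (hz : ∀ j, q (X (Sum.inr j)) ≠ 0)
    {f : MvPolynomial σ ℚ} {m : Deg (QI N)} (hf : IsWeightedHomogeneous w f m) :
    modelEv w q f = 0 ↔ f ∈ J := by
  classical
  set T := f.support.sup Finsupp.degree with hT
  set F : MvPolynomial (σ ⊕ QI N) ℚ :=
    ∑ d ∈ f.support, monomial (homExp w T d) (coeff d f) with hF
  have hle : ∀ d ∈ f.support, d.degree ≤ T := fun d hd => Finset.le_sup (f := Finsupp.degree) hd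
  have hFh : Hom (lift w) F := by
    refine ⟨Finsupp.equivFunOnFinite.symm (fun o => o.elim m.2 fun j => 2 * T - bit (m.1 j)),
      IsWeightedHomogeneous.sum _ _ _ fun d hd => isWeightedHomogeneous_monomial _ _ _ ?_⟩
    rw [weight_homExp w T d (hle d hd), hf (mem_support_iff.1 hd)]
  have hdeh : deh σ (QI N) F = f := by
    conv_rhs => rw [f.as_sum]
    rw [hF, map_sum]
    refine Finset.sum_congr rfl fun d _ => ?_
    rw [deh_monomial]
    congr 2
    ext v
    simp [pl, homExp]
  have hqF : q F = (∏ j, q (X (Sum.inr j))) ^ T * modelEv w q f := by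
    conv_rhs => rw [f.as_sum]
    rw [hF, map_sum, map_sum, Finset.mul_sum]
    refine Finset.sum_congr rfl fun d hd => ?_
    rw [modelEv_monomial, monomial_eq, map_mul, ← algebraMap_eq, AlgHom.commutes, Algebra.smul_def,
      mul_left_comm]
    congr 1
    have hs : (∏ j, q (X (Sum.inr j))) ≠ 0 := Finset.prod_ne_zero_iff.2 fun j _ => hz j
    rw [Finsupp.prod_fintype _ _ (by simp), Fintype.prod_sum_type, map_mul, map_prod, map_prod]
    simp only [map_pow, map_mul, homExp, Finsupp.coe_equivFunOnFinite_symm, Sum.elim_inl, Sum.elim_inr,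
      evMon, pow_add, Finset.prod_mul_distrib, Finset.prod_pow, div_pow, Finset.prod_div_distrib,
      Finset.prod_pow_eq_pow_sum, ← Finsupp.degree_eq_sum]
    rw [show T = (T - d.degree) + d.degree from (Nat.sub_add_cancel (hle d hd)).symm, pow_add]
    field_simp
    rw [Nat.add_sub_cancel]
    ring
  rw [← hdeh, ← mem_homI w hJ hFh, ← hq, hqF, hdeh, mul_eq_zero, or_iff_right]
  exact pow_ne_zero _ (Finset.prod_ne_zero_iff.2 fun j _ => hz j)

end Eval

/-! ### Top components -/

section Top

variable {τ M O : Type} [AddCancelCommMonoid M] [AddCommMonoid O] [LinearOrder O]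
  [IsOrderedCancelAddMonoid O] (u : τ → M) (φ : M →+ O) (H : Ideal (MvPolynomial τ ℚ))

/-- All components outside `H` have degree at most `a`. -/
def TopLe (f : MvPolynomial τ ℚ) (a : M) : Prop :=
  ∀ m, weightedHomogeneousComponent u m f ∉ H → φ m ≤ φ a

variable {u φ H}

theorem topLe_of_hom {f : MvPolynomial τ ℚ} {a : M} (hf : IsWeightedHomogeneous u f a) :
    TopLe u φ H f a := fun m hm => by
  rcases comp_of_isWH hf m with e | e
  · exact absurd (e ▸ H.zero_mem) hm
  · by_cases h : m = a
    · rw [h]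
    · exact absurd (hf.weightedHomogeneousComponent_ne m h ▸ H.zero_mem) hm

theorem topLe_mul (_hH : IsGr u H) (hφ : Function.Injective φ) {f g : MvPolynomial τ ℚ} {a b : M}
    (hf : TopLe u φ H f a) (hg : TopLe u φ H g b) :
    TopLe u φ H (f * g) (a + b) ∧ weightedHomogeneousComponent u (a + b) (f * g) -
      weightedHomogeneousComponent u a f * weightedHomogeneousComponent u b g ∈ H := by
  classical
  let fc := fun i => weightedHomogeneousComponent u i f
  let gc := fun i => weightedHomogeneousComponent u i g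
  let F := insert a (f.support.image (Finsupp.weight u))
  let G := insert b (g.support.image (Finsupp.weight u))
  have hzero : ∀ (p : MvPolynomial τ ℚ) (i : M), i ∉ p.support.image (Finsupp.weight u) →
      weightedHomogeneousComponent u i p = 0 := fun p i hi =>
    weightedHomogeneousComponent_eq_zero' _ _ fun d hd he => hi (Finset.mem_image.2 ⟨d, hd, he⟩)
  have hsum : ∀ (p : MvPolynomial τ ℚ) (s : Finset M), p.support.image (Finsupp.weight u) ⊆ s →
      ∑ i ∈ s, weightedHomogeneousComponent u i p = p := fun p s hs => by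
    conv_rhs => rw [← sum_weightedHomogeneousComponent u p]
    rw [finsum_eq_sum_of_support_subset _ (s := s) fun i hi => ?_]
    by_contra h
    exact hi (hzero p i fun h' => h (hs h'))
  have hexp : ∀ m, weightedHomogeneousComponent u m (f * g) =
      ∑ i ∈ F, ∑ j ∈ G, if i + j = m then fc i * gc j else 0 := fun m => by
    conv_lhs => rw [← hsum f F (Finset.subset_insert _ _), ← hsum g G (Finset.subset_insert _ _),
      Finset.sum_mul_sum, map_sum]
    refine Finset.sum_congr rfl fun i _ => ?_
    rw [map_sum]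
    refine Finset.sum_congr rfl fun j _ => ?_
    rw [weightedHomogeneousComponent_of_mem
      ((weightedHomogeneousComponent_isWeightedHomogeneous i f).mul
        (weightedHomogeneousComponent_isWeightedHomogeneous j g))]
    by_cases h : i + j = m
    · rw [if_pos h.symm, if_pos h]
    · rw [if_neg (Ne.symm h), if_neg h]
  constructor
  · intro m hm
    by_contra hlt
    push Not at hlt
    refine hm ?_
    rw [hexp]
    refine sum_mem fun i _ => sum_mem fun j _ => ?_
    split_ifs with h
    · by_cases hi : fc i ∈ H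
      · exact H.mul_mem_right _ hi
      by_cases hj : gc j ∈ H
      · exact H.mul_mem_left _ hj
      have := add_le_add (hf i hi) (hg j hj)
      rw [← map_add, ← map_add, h] at this
      exact absurd this (not_le.2 hlt)
    · exact H.zero_mem
  · rw [hexp, ← Finset.sum_product', ← Finset.add_sum_erase (a := (a, b))
      _ _ (Finset.mem_product.2 ⟨Finset.mem_insert_self _ _, Finset.mem_insert_self _ _⟩),
      if_pos rfl, add_sub_cancel_left]
    refine sum_mem fun x hx => ?_
    obtain ⟨hne, -⟩ := Finset.mem_erase.1 hx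
    split_ifs with h
    · by_cases hi : fc x.1 ∈ H
      · exact H.mul_mem_right _ hi
      by_cases hj : gc x.2 ∈ H
      · exact H.mul_mem_left _ hj
      have h1 := hf x.1 hi
      have h2 := hg x.2 hj
      have h3 : φ x.1 + φ x.2 = φ a + φ b := by rw [← map_add, ← map_add, h]
      have h4 : φ x.1 = φ a := by
        refine le_antisymm h1 (le_of_not_gt fun h' => ?_)
        exact absurd h3 (add_lt_add_of_lt_of_le h' h2).ne
      rw [h4] at h3
      exact absurd (Prod.ext (hφ h4) (hφ (add_left_cancel h3))) hne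
    · exact H.zero_mem

theorem topLe_prod (hH : IsGr u H) (hφ : Function.Injective φ) {κ : Type} (s : Finset κ)
    (f : κ → MvPolynomial τ ℚ) (a : κ → M) (h : ∀ i ∈ s, TopLe u φ H (f i) (a i)) :
    TopLe u φ H (∏ i ∈ s, f i) (∑ i ∈ s, a i) ∧
      weightedHomogeneousComponent u (∑ i ∈ s, a i) (∏ i ∈ s, f i) -
        ∏ i ∈ s, weightedHomogeneousComponent u (a i) (f i) ∈ H := by
  classical
  induction s using Finset.induction with
  | empty =>
    refine ⟨by simpa using topLe_of_hom (H := H) (φ := φ) (isWeightedHomogeneous_one ℚ u), ?_⟩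
    rw [Finset.prod_empty, Finset.prod_empty, Finset.sum_empty,
      (isWeightedHomogeneous_one ℚ u).weightedHomogeneousComponent_same, sub_self]
    exact H.zero_mem
  | insert x s hx ih =>
    obtain ⟨h1, h2⟩ := ih fun i hi => h i (Finset.mem_insert_of_mem hi)
    obtain ⟨h3, h4⟩ := topLe_mul hH hφ (h x (Finset.mem_insert_self _ _)) h1
    rw [Finset.prod_insert hx, Finset.prod_insert hx, Finset.sum_insert hx]
    refine ⟨h3, ?_⟩
    have := add_mem h4 (H.mul_mem_left (weightedHomogeneousComponent u (a x) (f x)) h2)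
    rw [mul_sub] at this
    simpa using this

end Top

/-! ### Structure constants and maps -/

theorem map_coc {R S : Type} [CommRing R] [CommRing S] (φ : R →+* S) (z : QI N → R)
    (γ δ : Gam N) : φ (coc z γ δ) = coc (fun i => φ (z i)) γ δ := by
  simp [coc, sgn, carry, map_prod, apply_ite φ]

theorem det_mat_map {R S : Type} [CommRing R] [CommRing S] (φ : R →+* S) (z : QI N → R)
    (z' : QI N → S) (hz : ∀ i, φ (z i) = z' i) (x : QT z) :
    φ (mat x).det = (mat (⟨fun γ => φ (x.co γ)⟩ : QT z')).det := by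
  rw [RingHom.map_det]
  congr 1
  ext ε δ
  simp [mat, map_coc, hz]

theorem det_mat_smul_eq_zero {R : Type} [CommRing R] {z : QI N → R} (x : QT z) (c : R)
    (h : (mat x).det = 0) : (mat (c • x)).det = 0 := by
  have : mat (c • x) = c • mat x := by
    ext ε δ
    simp [mat, mul_assoc]
  rw [this, Matrix.det_smul, h, mul_zero]

/-- The lift of a class. -/
def gamLift (γ : Gam N) : Option (QI N) →₀ ℕ :=
  Finsupp.equivFunOnFinite.symm fun o => o.elim 0 fun j => bit (γ j)

theorem proj_gamLift (γ : Gam N) : proj (QI N) (gamLift γ) = (γ, 0) := by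
  refine Prod.ext (funext fun j => ?_) ?_ <;> simp [proj, gamLift, bit_cast]

/-- The degree of the collected squares. -/
def carryDeg (γ δ : Gam N) : Option (QI N) →₀ ℕ :=
  Finsupp.equivFunOnFinite.symm fun o => o.elim 0 fun j => if γ j = 1 ∧ δ j = 1 then 2 else 0

theorem gamLift_add (γ δ : Gam N) : gamLift γ + gamLift δ = gamLift (γ + δ) + carryDeg γ δ := by
  ext o
  cases o with
  | none => simp [gamLift, carryDeg]
  | some j =>
    simp only [gamLift, carryDeg, Finsupp.add_apply, Finsupp.coe_equivFunOnFinite_symm,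
      Option.elim_some, Pi.add_apply]
    rw [bit_add]
    split_ifs <;> simp

theorem isWH_coc (w : σ → Deg (QI N)) (γ δ : Gam N) :
    IsWeightedHomogeneous (lift w)
      (coc (fun i => X (Sum.inr i) : QI N → MvPolynomial (σ ⊕ QI N) ℚ) γ δ) (carryDeg γ δ) := by
  classical
  have h2 : carryDeg γ δ = ∑ j, if γ j = 1 ∧ δ j = 1 then lift w (Sum.inr j) else 0 := by
    ext o
    rw [Finsupp.finsetSum_apply]
    cases o with
    | none => simp [carryDeg, lift, apply_ite (fun e : Option (QI N) →₀ ℕ => e none)]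
    | some i =>
      rw [Finset.sum_eq_single i]
      · split_ifs with h <;> simp [carryDeg, lift, h]
      · intro j _ hj
        split_ifs <;> simp [lift, hj]
      · simp
  rw [coc, ← zero_add (carryDeg γ δ), h2]
  refine IsWeightedHomogeneous.mul ?_ (IsWeightedHomogeneous.prod _ _ _ fun j _ => ?_)
  · rw [sgn]
    refine Finset.prod_induction _ (fun s => IsWeightedHomogeneous (lift w) s 0)
      (fun a b ha hb => by simpa using ha.mul hb) (isWeightedHomogeneous_one ℚ _) fun j _ => ?_
    split_ifs
    · rw [← C_1, ← C_neg]; exact isWeightedHomogeneous_C _ _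
    · exact isWeightedHomogeneous_one ℚ _
  · split_ifs
    · exact isWeightedHomogeneous_X ℚ _ _
    · exact isWeightedHomogeneous_one ℚ _

/-- No coordinate vector outside the homogenised prime has singular matrix modulo it. -/
theorem det_lift_notMem [Nonempty (QI N)] (w : σ → Deg (QI N)) {J : Ideal (MvPolynomial σ ℚ)}
    (hJ : IsGrPrime w J) (hJ2 : ∀ v, (w v).2 ≠ 0 → X v ∈ J)
    (hdiv : ∀ ξ : QT (one1 N σ), H0 w ξ → (∃ γ, ξ.co γ ∉ J) → (mat ξ).det ∉ J)
    (P : QT (fun i => X (Sum.inr i) : QI N → MvPolynomial (σ ⊕ QI N) ℚ))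
    (hP : ∃ γ, P.co γ ∉ homI w J) : (mat P).det ∉ homI w J := by
  classical
  intro hdet
  set H := homI w J with hH
  have hHgr : IsGr (lift w) H := isGr_span fun b hb => hb.1
  have hHp : H.IsPrime := homI_isPrime w hJ
  -- multiplying by the product of the new variables makes all shifts available
  let s : MvPolynomial (σ ⊕ QI N) ℚ := ∏ j, X (Sum.inr j)
  let sd : Option (QI N) →₀ ℕ := ∑ j, lift w (Sum.inr j)
  have hs : IsWeightedHomogeneous (lift w) s sd :=
    IsWeightedHomogeneous.prod _ _ _ fun j _ => isWeightedHomogeneous_X ℚ _ _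
  have hsH : s ∉ H := fun h => by
    obtain ⟨j, -, hj⟩ := hHp.prod_mem_iff.1 h
    rw [hH, mem_homI w hJ.1 ⟨_, isWeightedHomogeneous_X ℚ _ _⟩] at hj
    simp [deh] at hj
    exact hJ.2.1 ((Ideal.eq_top_iff_one J).2 hj)
  have hshift : ∀ γ : Gam N, gamLift γ ≤ sd := fun γ o => by
    simp only [sd, Finsupp.finsetSum_apply]
    cases o with
    | none => simp [gamLift]
    | some j =>
      refine le_trans ?_ (Finset.single_le_sum
        (f := fun i => lift w (Sum.inr i) (some j)) (fun i _ => Nat.zero_le _) (Finset.mem_univ j))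
      simp [gamLift, lift, bit]
      split_ifs <;> omega
  set P' : QT (fun i => X (Sum.inr i) : QI N → MvPolynomial (σ ⊕ QI N) ℚ) := s • P with hP'
  have hdet' : (mat P').det ∈ H := by
    have : mat P' = s • mat P := by ext ε δ; simp [hP', mat, mul_assoc]
    rw [this, Matrix.det_smul]
    exact H.mul_mem_left _ hdet
  let _ : LinearOrder (Option (QI N)) :=
    LinearOrder.lift' (Fintype.equivFin _) (Fintype.equivFin _).injective
  let φ := (MonomialOrder.lex (σ := Option (QI N))).toSyn.toAddMonoidHom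
  have hφ : Function.Injective φ := (MonomialOrder.lex (σ := Option (QI N))).toSyn.injective
  let cand : Finset (Option (QI N) →₀ ℕ) := Finset.univ.biUnion fun γ : Gam N =>
    (((P'.co γ).support.image (Finsupp.weight (lift w))).filter
      fun m => weightedHomogeneousComponent (lift w) m (P'.co γ) ∉ H).image (· + gamLift γ)
  have hcand : ∀ γ m, weightedHomogeneousComponent (lift w) m (P'.co γ) ∉ H →
      m + gamLift γ ∈ cand := fun γ m hm => by
    refine Finset.mem_biUnion.2 ⟨γ, Finset.mem_univ _, Finset.mem_image_of_mem _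
      (Finset.mem_filter.2 ⟨?_, hm⟩)⟩
    by_contra h
    refine hm ?_
    rw [weightedHomogeneousComponent_eq_zero' _ _ fun d hd he =>
      h (Finset.mem_image.2 ⟨d, hd, he⟩)]
    exact H.zero_mem
  obtain ⟨γ₀, hγ₀⟩ := hP
  have hγ₀' : P'.co γ₀ ∉ H := by
    simp only [hP', QT.co_smul, Pi.smul_apply, smul_eq_mul]
    exact fun h => (hHp.mem_or_mem h).elim hsH hγ₀
  obtain ⟨m₀, hm₀⟩ : ∃ m, weightedHomogeneousComponent (lift w) m (P'.co γ₀) ∉ H := by
    by_contra h
    push Not at h
    exact hγ₀' (IsGr.mem_of_components (w := lift w) _ h)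
  obtain ⟨A, hA, hAmax⟩ := Finset.exists_max_image cand φ ⟨_, hcand γ₀ m₀ hm₀⟩
  obtain ⟨γ₁, -, hA'⟩ := Finset.mem_biUnion.1 hA
  obtain ⟨m₁, hm₁, hAm⟩ := Finset.mem_image.1 hA'
  have hm₁' := (Finset.mem_filter.1 hm₁).2
  have hsd : ∀ γ m, weightedHomogeneousComponent (lift w) m (P'.co γ) ≠ 0 → sd ≤ m := by
    intro γ m hm
    by_contra hle
    refine hm ?_
    simp only [hP', QT.co_smul, Pi.smul_apply, smul_eq_mul]
    rw [mul_comm, whc_mul _ hs, if_neg hle]
  have hAle : ∀ γ, gamLift γ ≤ A := fun γ => by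
    have h1 : weightedHomogeneousComponent (lift w) m₁ (P'.co γ₁) ≠ 0 :=
      fun h => hm₁' (h ▸ H.zero_mem)
    exact (hshift γ).trans ((hsd γ₁ m₁ h1).trans (hAm ▸ le_self_add))
  let ξ₀ : QT (fun i => X (Sum.inr i) : QI N → MvPolynomial (σ ⊕ QI N) ℚ) :=
    ⟨fun γ => weightedHomogeneousComponent (lift w) (A - gamLift γ) (P'.co γ)⟩
  have hξ₀h : ∀ γ, IsWeightedHomogeneous (lift w) (ξ₀.co γ) (A - gamLift γ) := fun γ =>
    weightedHomogeneousComponent_isWeightedHomogeneous _ _
  have htop : ∀ γ, TopLe (lift w) φ H (P'.co γ) (A - gamLift γ) := by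
    intro γ m hm
    have h := hAmax _ (hcand γ m hm)
    rw [← tsub_add_cancel_of_le (hAle γ), map_add, map_add] at h
    exact le_of_add_le_add_right h
  let deg : Gam N → Gam N → (Option (QI N) →₀ ℕ) := fun ε δ =>
    A - gamLift (ε - δ) + carryDeg (ε - δ) δ
  have hentry : ∀ ε δ, TopLe (lift w) φ H (mat P' ε δ) (deg ε δ) ∧
      weightedHomogeneousComponent (lift w) (deg ε δ) (mat P' ε δ) - mat ξ₀ ε δ ∈ H := by
    intro ε δ
    have hc := isWH_coc w (ε - δ) δ
    refine ⟨(topLe_mul hHgr hφ (htop _) (topLe_of_hom hc)).1, ?_⟩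
    have := (topLe_mul hHgr hφ (htop (ε - δ)) (topLe_of_hom hc)).2
    rw [hc.weightedHomogeneousComponent_same] at this
    exact this
  have hdegsum : ∀ π : Equiv.Perm (Gam N),
      ∑ δ, deg (π δ) δ = Fintype.card (Gam N) • A := fun π => by
    have h : ∀ δ, deg (π δ) δ + gamLift (π δ) = A + gamLift δ := fun δ => by
      have h1 := gamLift_add (π δ - δ) δ
      rw [sub_add_cancel] at h1
      calc deg (π δ) δ + gamLift (π δ)
          = A - gamLift (π δ - δ) + (gamLift (π δ) + carryDeg (π δ - δ) δ) := by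
            simp only [deg]; rw [add_assoc, add_comm (carryDeg _ _)]
        _ = A - gamLift (π δ - δ) + gamLift (π δ - δ) + gamLift δ := by rw [← h1, add_assoc]
        _ = _ := by rw [tsub_add_cancel_of_le (hAle _)]
    refine add_right_cancel (b := ∑ δ, gamLift δ) ?_
    conv_lhs => arg 2; rw [← Equiv.sum_comp π]
    rw [← Finset.sum_add_distrib, Finset.sum_congr rfl fun δ _ => h δ, Finset.sum_add_distrib]
    simp
  have hdet₀ : (mat ξ₀).det ∈ H := by
    have hcomp := hHgr _ hdet' (Fintype.card (Gam N) • A)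
    rw [Matrix.det_apply'] at hcomp ⊢
    rw [map_sum] at hcomp
    refine (Submodule.sub_mem_iff_right H hcomp).1 ?_
    rw [← Finset.sum_sub_distrib]
    refine sum_mem fun π _ => ?_
    rw [← map_intCast (C : ℚ →+* MvPolynomial (σ ⊕ QI N) ℚ), weightedHomogeneousComponent_C_mul,
      ← mul_sub]
    refine H.mul_mem_left _ ?_
    rw [← hdegsum π]
    have h1 := (topLe_prod hHgr hφ Finset.univ (fun δ => mat P' (π δ) δ) (fun δ => deg (π δ) δ)
      fun δ _ => (hentry _ _).1).2
    have h2 : ∏ δ, weightedHomogeneousComponent (lift w) (deg (π δ) δ) (mat P' (π δ) δ) -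
        ∏ δ, mat ξ₀ (π δ) δ ∈ H := by
      rw [← Ideal.Quotient.eq, map_prod, map_prod]
      exact Finset.prod_congr rfl fun δ _ => Ideal.Quotient.eq.2 (hentry _ _).2
    have := add_mem h1 h2
    rwa [sub_add_sub_cancel] at this
  -- dehomogenise
  let ξ : QT (one1 N σ) := ⟨fun γ => deh σ (QI N) (ξ₀.co γ)⟩
  have hξdet : (mat ξ).det ∈ J := by
    have : deh σ (QI N) (mat ξ₀).det = (mat ξ).det :=
      det_mat_map (deh σ (QI N)).toRingHom _ (one1 N σ) (fun i => by simp [deh, one1]) ξ₀
    rw [← this]
    exact deh_mem hdet₀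
  have hγ₁ : A - gamLift γ₁ = m₁ := by rw [← hAm, add_tsub_cancel_right]
  have hξ₁ : ξ.co γ₁ ∉ J := fun h => hm₁' (by
    rw [hH, mem_homI w hJ.1 ⟨_, weightedHomogeneousComponent_isWeightedHomogeneous m₁ _⟩, ← hγ₁]
    exact h)
  obtain ⟨h₀, k, hk⟩ : ∃ (h₀ : Gam N) (k : ℕ), proj (QI N) A = (h₀, k) := ⟨_, _, rfl⟩
  have hcls : ∀ γ, IsWeightedHomogeneous w (ξ.co γ) ((γ + h₀, k) : Deg (QI N)) := fun γ => by
    have h := deh_hom (hξ₀h γ)
    have e : proj (QI N) (A - gamLift γ) + (γ, 0) = (h₀, k) := by
      rw [← proj_gamLift, ← map_add, tsub_add_cancel_of_le (hAle γ), hk]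
    have e' : proj (QI N) (A - gamLift γ) = (γ + h₀, k) := by
      generalize proj (QI N) (A - gamLift γ) = ab at e ⊢
      obtain ⟨a, b⟩ := ab
      simp only [Prod.mk_add_mk, Prod.mk.injEq, add_zero] at e
      refine Prod.ext (funext fun j => ?_) e.2
      have hj := congrFun e.1 j
      simp only [Pi.add_apply] at hj ⊢
      rw [← hj]
      exact (by decide : ∀ p r : ZMod 2, p = r + (p + r)) _ _
    rwa [e'] at h
  have hk0 : k = 0 := by
    by_contra hk0
    refine hξ₁ ?_
    rw [(ξ.co γ₁).as_sum]
    refine sum_mem fun d hd => ?_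
    obtain ⟨v, hv, hw⟩ : ∃ v, d v ≠ 0 ∧ (w v).2 ≠ 0 := by
      by_contra hc
      push Not at hc
      have h2 : (Finsupp.weight w d).2 = k :=
        congrArg Prod.snd (hcls γ₁ (mem_support_iff.1 hd))
      refine hk0 ?_
      rw [← h2, Finsupp.weight_apply, Finsupp.sum, Prod.snd_sum]
      exact Finset.sum_eq_zero fun v hv => by simp [hc v (Finsupp.mem_support_iff.1 hv)]
    exact Ideal.mem_of_dvd J (X_dvd_monomial.2 (Or.inr hv)) (hJ2 v hw)
  subst hk0
  -- move to classes `(γ, 0)`
  let η : QT (one1 N σ) := ξ * QT.E h₀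
  have hη : ∀ ε, η.co ε = ξ.co (ε - h₀) * coc (one1 N σ) (ε - h₀) h₀ := fun ε => by
    simp only [η, QT.co_mul]
    rw [Finset.sum_eq_single (ε - h₀)]
    · simp [QT.E]
    · intro γ _ hγ
      have : ε - γ ≠ h₀ := fun h => hγ (by rw [← h, sub_sub_cancel])
      simp [QT.E, this]
    · simp
  have hH0 : H0 w η := fun ε => by
    rw [hη]
    have := isWH_sign (hcls (ε - h₀)) (ε - h₀) h₀
    rwa [sub_add_cancel] at this
  refine hdiv η hH0 ⟨γ₁ + h₀, ?_⟩ ?_
  · rw [hη, add_sub_cancel_right]
    intro h
    refine hξ₁ ?_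
    have := J.mul_mem_right (coc (one1 N σ) γ₁ h₀) h
    rwa [coc, carry_one, mul_one, mul_assoc, sgn_sq, mul_one] at this
  · simp only [η, mat_mul, Matrix.det_mul]
    exact J.mul_mem_right _ hξdet

/-! ### The model -/

theorem exists_model {N : ℕ} {σ : Type} [Fintype σ] [Nonempty (QI N)] (w : σ → Deg (QI N))
    {J : Ideal (MvPolynomial σ ℚ)} (hJ : IsGrPrime w J) (hJ2 : ∀ v, (w v).2 ≠ 0 → X v ∈ J)
    (hdiv : ∀ ξ : QT (one1 N σ), H0 w ξ → (∃ γ, ξ.co γ ∉ J) → (mat ξ).det ∉ J) :
    Nonempty (Model w J) := by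
  classical
  have hp : (homI w J).IsPrime := homI_isPrime w hJ
  set B := MvPolynomial (σ ⊕ QI N) ℚ ⧸ homI w J
  let K := FractionRing B
  let q : MvPolynomial (σ ⊕ QI N) ℚ →ₐ[ℚ] K :=
    (IsScalarTower.toAlgHom ℚ B K).comp (Ideal.Quotient.mkₐ ℚ (homI w J))
  have hq : ∀ b, q b = 0 ↔ b ∈ homI w J := fun b => by
    show algebraMap B K (Ideal.Quotient.mk _ b) = 0 ↔ _
    rw [map_eq_zero_iff _ (IsFractionRing.injective B K), Ideal.Quotient.eq_zero_iff_mem]
  have hz : ∀ i, q (X (Sum.inr i)) ≠ 0 := fun i h => by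
    rw [hq, mem_homI w hJ.1 ⟨_, isWeightedHomogeneous_X ℚ _ _⟩] at h
    simp [deh] at h
    exact hJ.2.1 ((Ideal.eq_top_iff_one J).2 h)
  refine ⟨{
    K := K
    z := fun i => q (X (Sum.inr i))
    z_ne := hz
    ev := modelEv w q
    ev_one := modelEv_one w q
    ev_mul := fun f g γ δ hf hg => modelEv_mul w q hf hg
    ev_eq_zero := fun f m hf => modelEv_eq_zero w q hJ.1 hq hz hf
    dom := ?_
    gen := ?_
    trdeg := ?_ }⟩
  · intro a b hab
    by_contra hc
    push Not at hc
    have hdet := det_mat_eq_zero_of_mul hc.2 hab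
    obtain ⟨⟨c, hc0⟩, hcm⟩ := IsLocalization.exist_integer_multiples_of_finite (nonZeroDivisors B) a.co
    choose p hp' using hcm
    choose P hP using fun γ => Ideal.Quotient.mk_surjective (p γ)
    have hPq : ∀ γ, q (P γ) = algebraMap B K c * a.co γ := fun γ => by
      show algebraMap B K (Ideal.Quotient.mk _ (P γ)) = _
      rw [hP, hp', Algebra.smul_def]
    have hc0' : algebraMap B K c ≠ 0 :=
      IsFractionRing.to_map_ne_zero_of_mem_nonZeroDivisors hc0
    have hdet2 := det_mat_smul_eq_zero a (algebraMap B K c) hdet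
    have heq : (⟨fun γ => q (P γ)⟩ : QT fun i => q (X (Sum.inr i))) = algebraMap B K c • a :=
      QT.ext (funext fun γ => by show q (P γ) = _; rw [hPq]; rfl)
    rw [← heq] at hdet2
    obtain ⟨γ, hγ⟩ : ∃ γ, a.co γ ≠ 0 := by
      by_contra h
      push Not at h
      exact hc.1 (QT.ext (funext h))
    refine det_lift_notMem w hJ hJ2 hdiv ⟨P⟩ ⟨γ, fun h => ?_⟩ ((hq _).1 ?_)
    · rw [← hq, hPq, mul_eq_zero] at h
      exact h.elim hc0' hγ
    · exact (det_mat_map q.toRingHom _ _ (fun i => rfl) ⟨P⟩).trans hdet2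
  · refine eq_top_iff.2 fun x _ => ?_
    set L := IntermediateField.adjoin ℚ ((Set.range fun i => q (X (Sum.inr i))) ∪
      Set.range fun v => modelEv w q (X v)) with hL
    have hzL : ∀ i, q (X (Sum.inr i)) ∈ L := fun i =>
      IntermediateField.subset_adjoin ℚ _ (Or.inl ⟨i, rfl⟩)
    have hpoly : ∀ b, q b ∈ L := by
      intro b
      induction b using MvPolynomial.induction_on with
      | C r => rw [← algebraMap_eq, AlgHom.commutes]; exact L.algebraMap_mem r
      | add p p' hp hp' => rw [map_add]; exact add_mem hp hp'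
      | mul_X p u hp =>
        rw [map_mul]
        refine mul_mem hp ?_
        rcases u with v | i
        · have h1 : modelEv w q (X v) ∈ L :=
            IntermediateField.subset_adjoin ℚ _ (Or.inr ⟨v, rfl⟩)
          have h2 : q (X (Sum.inl v)) = modelEv w q (X v) * ∏ j, q (X (Sum.inr j)) := by
            rw [modelEv_X, div_mul_cancel₀ _ (Finset.prod_ne_zero_iff.2 fun j _ => hz j)]
          rw [h2]
          exact mul_mem h1 (prod_mem fun j _ => hzL j)
        · exact hzL i
    obtain ⟨a, b, -, rfl⟩ := IsFractionRing.div_surjective (A := B) x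
    obtain ⟨a, rfl⟩ := Ideal.Quotient.mk_surjective a
    obtain ⟨b, rfl⟩ := Ideal.Quotient.mk_surjective b
    exact div_mem (hpoly a) (hpoly b)
  · have h : Algebra.trdeg ℚ B = ((Fintype.card (σ ⊕ QI N) - ord w J : ℕ) : Cardinal) :=
      (ordH_trdeg (pos_lift w) (homI_isGr w J) hp).2
    have : Algebra.IsAlgebraic B K := IsLocalization.isAlgebraic K (nonZeroDivisors B)
    have h' := trdeg_add_eq (R := ℚ) (S := B) (A := K)
    rw [trdeg_eq_zero (R := B) (A := K), add_zero] at h'
    rw [← h', h]
    simp [Fintype.card_prod, Fintype.card_sum, mul_comm]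

end Vale.Agent.P199.Full
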