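import Vale.Agent.P199.Full.Elim
import Vale.Agent.P199.Full.InvariantDim

/-!
Kurosh's problem for division rings, full disproof: the multidegree of the sum of a prime and an
ideal in disjoint sets of variables.
-/

noncomputable section

namespace Vale.Agent.P199.Full

open MvPolynomial

set_option linter.unusedSectionVars false

variable {σ ι : Type} [Fintype σ] [Fintype ι] [Nonempty ι] (w : σ → Deg ι)

theorem ord_sup_le {C I : Ideal (MvPolynomial σ ℚ)} {S T : Set σ} (hC : IsGrPrime w C)
    (hCS : SuppOn S C) (hI : IsGr w I) (hIT : SuppOn T I) (hST : Disjoint S T) (hI' : I ≠ ⊤)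
    {c : ℕ} (hc : c ≤ ord w I) : ord w C + c ≤ ord w (C ⊔ I) := by
  have hne : C ⊔ I ≠ ⊤ :=
    sup_ne_top (hCS.mono hST.subset_compl_right) hIT hC.2.1 hI'
  obtain ⟨P, hP, hle, ho⟩ := exists_prime_ord w (hC.1.sup hI) hne
  have hQ : IsGrPrime w (restrictTo T P) := isGrPrime_restrictTo hP
  have h := ord_add_le w hC hCS hQ suppOn_restrictTo hST hP (le_sup_left.trans hle) restrictTo_le
  have h' := ord_mono w hI hQ.1 (le_restrictTo hIT (le_sup_right.trans hle)) hQ.2.1
  omega

theorem lam_product_aux {C : Ideal (MvPolynomial σ ℚ)} {S : Set σ} (hw : ∀ v, ell (w v) ≠ 0)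
    (hC : IsGrPrime w C) (hCS : SuppOn S C) (T : Finset σ) (hST : Disjoint S (T : Set σ))
    (I : Ideal (MvPolynomial σ ℚ)) (hI : IsGr w I) (hIT : SuppOn (T : Set σ) I) (c : ℕ)
    (hc : I ≠ ⊤ → c ≤ ord w I) :
    lam w (ord w C + c) (C ⊔ I) = lam w (ord w C) C * lam w c I := by
  classical
  induction T using Finset.strongInduction generalizing I c with
  | _ T ihT =>
  induction I using WellFoundedGT.induction generalizing c with
  | _ I ihI =>
  by_cases hI' : I = ⊤
  · rw [hI', sup_top_eq, lam_top, lam_top, mul_zero]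
  have hcI := hc hI'
  by_cases hpr : ∀ f g, f ∈ supported ℚ (T : Set σ) → g ∈ supported ℚ (T : Set σ) → Hom w f →
      Hom w g → f * g ∈ I → f ∈ I ∨ g ∈ I
  swap
  · push Not at hpr
    obtain ⟨f, g, hfT, -, ⟨m, hm⟩, -, hfg, hf, hg⟩ := hpr
    have hlt1 : I < colonEl I f := lt_of_le_of_ne (le_colonEl _) fun e => hg (by
      rw [e, mem_colonEl, mul_comm]; exact hfg)
    have hlt2 : I < I ⊔ Ideal.span {f} := lt_of_le_of_ne le_sup_left fun e => hf (by
      rw [e]; exact Submodule.mem_sup_right (Ideal.mem_span_singleton_self f))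
    have hcol := hI.colon hm
    have hsup := hI.sup (isGr_span_singleton (w := w) (f := f) ⟨m, hm⟩)
    rw [lam_split w (hC.1.sup hI) hm (ord_sup_le w hC hCS hI hIT hST hI' hcI),
      colonEl_sup (hCS.mono hST.subset_compl_right) hIT hfT, sup_assoc,
      ihI _ hlt1 hcol (hIT.colon hfT) c
        (fun h => hcI.trans (ord_mono w hI hcol (le_colonEl _) h)),
      ihI _ hlt2 hsup (hIT.sup (suppOn_span_singleton hfT)) c
        (fun h => hcI.trans (ord_mono w hI hsup le_sup_left h)),
      ← mul_add, ← lam_split w hI hm hcI]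
  have hP : IsGrPrime w I := isGrPrime_of_supported hI hIT hI' hpr
  rcases T.eq_empty_or_nonempty with rfl | ⟨v, hv⟩
  · rw [Finset.coe_empty] at hIT
    obtain rfl := eq_bot_of_suppOn_empty hI' hIT
    rw [ord_bot] at hcI
    obtain rfl : c = 0 := by omega
    rw [sup_bot_eq, add_zero, (lam_bot w).2, mul_one]
  have hvS : v ∉ S := fun h => Set.disjoint_left.1 hST h hv
  have hlt : T.erase v ⊂ T := Finset.erase_ssubset hv
  have hST' : Disjoint S (↑(T.erase v) : Set σ) :=
    hST.mono_right (Finset.coe_subset.2 (Finset.erase_subset v T))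
  have hJ := hI.res v
  have hJT : SuppOn (↑(T.erase v) : Set σ) (res v I) := by
    rw [Finset.coe_erase]; exact suppOn_res_diff hIT v
  have ih := fun d hd => ihT _ hlt hST' (res v I) hJ hJT d hd
  have hvc : colonEl (C ⊔ res v I) (X v) = C ⊔ res v I :=
    ((hCS.mono (Set.subset_compl_singleton_iff.2 hvS)).sup (suppOn_res v I)).colon_X (by simp)
  have hX : IsWeightedHomogeneous w (X v : MvPolynomial σ ℚ) (w v) :=
    isWeightedHomogeneous_X ℚ w v
  have hrescol : colonEl (res v I) (X v) = res v I := (suppOn_res v I).colon_X (by simp)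
  by_cases hvI : (X v : MvPolynomial σ ℚ) ∈ I
  · have hPe : res v I ⊔ Ideal.span {X v} = I := by
      rw [← sup_span_X_res]
      exact sup_eq_left.2 ((Ideal.span_singleton_le_iff_mem _).2 hvI)
    have hne : res v I ≠ ⊤ := fun h => hI' (by rw [← hPe, h, top_sup_eq])
    have ho := ord_sup_X w hJ (res_eq_self (suppOn_res v I)) hne
    rw [hPe] at ho
    rcases hcI.lt_or_eq with hlt' | rfl
    · have h := ord_sup_le w hC hCS hI hIT hST hI' le_rfl
      rw [lam_eq_zero_of_lt w hlt', mul_zero, lam_eq_zero_of_lt w (by omega)]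
    have hle := ord_sup_le w hC hCS hJ hJT hST' hne le_rfl
    have e1 := lam_cut w (hC.1.sup hJ) hX hvc hle
    have e2 := lam_cut w hJ hX hrescol (le_refl (ord w (res v I)))
    rw [sup_assoc, hPe] at e1
    rw [hPe] at e2
    rw [ho, ← add_assoc, e1, e2, ih _ fun _ => le_rfl]
    ring
  · have hcol : colonEl I (X v) = I := hP.colon ⟨_, hX⟩ hvI
    have hvT : X v ∈ supported ℚ (T : Set σ) := X_mem_supported.2 hv
    have hcol' : colonEl (C ⊔ I) (X v) = C ⊔ I := by
      rw [colonEl_sup (hCS.mono hST.subset_compl_right) hIT hvT, hcol]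
    have hle := ord_sup_le w hC hCS hI hIT hST hI' hcI
    have e1 := lam_cut w (hC.1.sup hI) hX hcol' hle
    have e2 := lam_cut w hI hX hcol hcI
    rw [sup_assoc, sup_span_X_res] at e1
    rw [sup_span_X_res] at e2
    refine mul_left_cancel₀ (hw v) ?_
    by_cases hne : res v I = ⊤
    · rw [hne, top_sup_eq, sup_top_eq, lam_top] at e1
      rw [hne, top_sup_eq, lam_top] at e2
      rw [← e1, mul_left_comm, ← e2, mul_zero]
    have hne' : res v I ⊔ Ideal.span {X v} ≠ ⊤ :=
      sup_ne_top (T := ({v} : Set σ)) (suppOn_res v I) (suppOn_span_singleton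
        (X_mem_supported.2 rfl)) hne (fun h => by
          have := (Ideal.span_singleton_eq_top.1 h).map (eval (0 : σ → ℚ))
          simp at this)
    have ho : c ≤ ord w (res v I) := by
      have h1 := ord_cut w hI hX hcol (by rwa [sup_span_X_res])
      rw [sup_span_X_res, ord_sup_X w hJ (res_eq_self (suppOn_res v I)) hne] at h1
      omega
    have e3 := lam_cut w (hC.1.sup hJ) hX hvc (ord_sup_le w hC hCS hJ hJT hST' hne ho)
    have e4 := lam_cut w hJ hX hrescol ho
    rw [sup_assoc] at e3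
    rw [← e1, e3, ih c fun _ => ho, mul_left_comm (ell (w v)) (lam w (ord w C) C) (lam w c I),
      ← e2, e4]
    ring

theorem lam_product (hw : ∀ v, ell (w v) ≠ 0) {C I : Ideal (MvPolynomial σ ℚ)} {S T : Set σ}
    (hC : IsGrPrime w C) (hCS : SuppOn S C) (hI : IsGr w I) (hIT : SuppOn T I)
    (hST : Disjoint S T) (hI' : I ≠ ⊤) {c : ℕ} (hc : c ≤ ord w I) :
    ord w C + c ≤ ord w (C ⊔ I) ∧
      lam w (ord w C + c) (C ⊔ I) = lam w (ord w C) C * lam w c I := by
  classical
  refine ⟨ord_sup_le w hC hCS hI hIT hST hI' hc, ?_⟩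
  obtain ⟨T, rfl⟩ : ∃ F : Finset σ, T = ↑F := ⟨T.toFinset, (Set.coe_toFinset T).symm⟩
  exact lam_product_aux w hw hC hCS T hST I hI hIT c fun _ => hc

end Vale.Agent.P199.Full
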