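import Vale.Agent.P199.Full.Block
import Vale.Agent.P199.Full.Division
import Vale.Agent.P199.Full.Model
import Vale.Agent.P199.Full.Product

/-!
Kurosh's problem for division rings, full disproof: the prime of the finite stage.
-/

noncomputable section

namespace Vale.Agent.P199.Full

open MvPolynomial

/-- Number of quaternion factors of a stage. -/
abbrev stN (n L : ℕ) : ℕ := n + 4 + L

/-- Variables of a stage: coordinates of the generators, of the words, and the free ones. -/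
abbrev stVar (n L : ℕ) : Type :=
  (Fin 3 × Yc (stN n L)) ⊕ (Fin n × Yc (stN n L)) ⊕ Gam (stN n L)

/-- Degrees of the variables. -/
def stDeg (n L : ℕ) : stVar n L → Deg (QI (stN n L)) :=
  Sum.elim (fun p => (p.2.1, 0)) (Sum.elim (fun p => (p.2.1, 0)) fun c => (c, 1))

/-- The general generators. -/
def gX (n L : ℕ) (i : Fin 3) : QT (one1 (stN n L) (stVar n L)) :=
  genel fun γ => Sum.inl (i, γ)

/-- The general values of the words, without trace. -/
def yX (n L : ℕ) (k : Fin n) : QT (one1 (stN n L) (stVar n L)) :=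
  genel fun γ => Sum.inr (Sum.inl (k, γ))

/-- The free variables. -/
def uF (n L : ℕ) : Finset (stVar n L) :=
  Finset.univ.map ⟨fun c : Gam (stN n L) => Sum.inr (Sum.inr c),
    fun _ _ h => Sum.inr_injective (Sum.inr_injective h)⟩

variable {n L : ℕ}

theorem mem_uF {v : stVar n L} :
    v ∈ uF n L ↔ v ∈ Set.range fun c : Gam (stN n L) => (Sum.inr (Sum.inr c) : stVar n L) := by
  simp [uF]
  exact Iff.rfl

theorem stDeg_snd {v : stVar n L} (h : v ∉ uF n L) : (stDeg n L v).2 = 0 := by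
  rcases v with _ | _ | c
  · rfl
  · rfl
  · exact absurd (mem_uF.2 ⟨c, rfl⟩) h

theorem ell_stDeg (v : stVar n L) : ell (stDeg n L v) ≠ 0 := by
  rcases v with ⟨i, γ⟩ | ⟨k, γ⟩ | c
  · exact ell_ne_zero_of_class γ.2 0
  · exact ell_ne_zero_of_class γ.2 0
  · exact ell_ne_zero_of_weight c

instance : Nonempty (QI (stN n L)) := ⟨(⟨0, by show 0 < n + 4 + L; omega⟩, true)⟩

/-- The variables other than the free ones. -/
abbrev nonU (n L : ℕ) : Set (stVar n L) :=
  (Set.range fun c : Gam (stN n L) => (Sum.inr (Sum.inr c) : stVar n L))ᶜ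

theorem supported_of_weight_zero {f : MvPolynomial (stVar n L) ℚ} {γ : Gam (stN n L)}
    (hf : IsWeightedHomogeneous (stDeg n L) f (γ, 0)) : f ∈ supported ℚ (nonU n L) := by
  classical
  refine supported_of_supp fun d hd v hv => ?_
  rintro ⟨c, rfl⟩
  have h : (Finsupp.weight (stDeg n L) d).2 = 0 := by rw [hf (mem_support_iff.1 hd)]
  rw [Finsupp.weight_apply, Finsupp.sum, Prod.snd_sum] at h
  have := Finset.sum_eq_zero_iff.1 h _ hv
  rw [Prod.smul_snd] at this
  exact Finsupp.mem_support_iff.1 hv (by simpa [stDeg] using this)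

theorem det_mem_supported {α β : Type} [Fintype α] [DecidableEq α] {T : Set β}
    {A : Matrix α α (MvPolynomial β ℚ)} (h : ∀ a b, A a b ∈ supported ℚ T) :
    A.det ∈ supported ℚ T := by
  rw [Matrix.det_apply]
  exact Subalgebra.sum_mem _ fun σ _ =>
    zsmul_mem (Subalgebra.prod_mem _ fun a _ => h _ _) _

theorem geom_le (M : ℕ) : ∀ n ≤ M + 1,
    ∑ k ∈ Finset.range n, 2 ^ (M - k) + 2 ^ (M + 1 - n) = 2 ^ (M + 1)
  | 0, _ => by simp
  | n + 1, h => by
    rw [Finset.sum_range_succ, ← geom_le M n (by omega), add_assoc,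
      show M + 1 - (n + 1) = M - n by omega, show M + 1 - n = M - n + 1 by omega, pow_succ]
    ring

/-- The product of the blocks. -/
theorem exists_blocks (n L : ℕ) (s : Finset (Fin n)) :
    ∃ C, IsGrPrime (stDeg n L) C ∧
      SuppOn {v | ∃ k ∈ s, ∃ γ, v = Sum.inr (Sum.inl (k, γ))} C ∧
      ord (stDeg n L) C ≤ ∑ k ∈ s, 2 ^ (2 * stN n L - (k.1 + 4)) ∧
      lam (stDeg n L) (ord (stDeg n L) C) C ≠ 0 ∧
      ∀ k ∈ s, ∀ f : Fin (2 ^ (k.1 + 4) + 1) → Gam (stN n L), minorDet (yX n L k) f ∈ C := by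
  classical
  induction s using Finset.induction with
  | empty =>
    refine ⟨⊥, isGrPrime_bot _, suppOn_bot _, ?_, ?_, by simp⟩
    · rw [ord_bot]; exact Nat.zero_le _
    · rw [ord_bot, (lam_bot _).2]; exact one_ne_zero
  | insert a s ha ih =>
    obtain ⟨C, hC, hCS, hCo, hCl, hCm⟩ := ih
    have hlt : a.1 + 4 ≤ stN n L := by
      show a.1 + 4 ≤ n + 4 + L
      have := a.2
      omega
    obtain ⟨P, hP, hPS, hPo, hPl, hPm⟩ := exists_block (i := a.1 + 4) hlt (stDeg n L) ell_stDeg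
      (fun γ : Yc (stN n L) => (Sum.inr (Sum.inl (a, γ)) : stVar n L))
      (fun γ δ h => (Prod.ext_iff.1 (Sum.inl_injective (Sum.inr_injective h))).2) (fun _ => rfl)
    have hdisj : Disjoint {v : stVar n L | ∃ k ∈ s, ∃ γ, v = Sum.inr (Sum.inl (k, γ))}
        (Set.range fun γ : Yc (stN n L) => (Sum.inr (Sum.inl (a, γ)) : stVar n L)) := by
      rw [Set.disjoint_left]
      rintro v ⟨k, hk, γ, rfl⟩ ⟨δ, hδ⟩
      exact ha ((show a = k from (Prod.ext_iff.1 (Sum.inl_injective (Sum.inr_injective hδ))).1) ▸ hk)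
    obtain ⟨ho, hl⟩ := lam_product (stDeg n L) ell_stDeg hC hCS hP.1 hPS hdisj hP.2.1 le_rfl
    have hS : SuppOn {v | ∃ k ∈ insert a s, ∃ γ, v = Sum.inr (Sum.inl (k, γ))} (C ⊔ P) := by
      refine (hCS.mono ?_).sup (hPS.mono ?_)
      · rintro v ⟨k, hk, γ, rfl⟩
        exact ⟨k, Finset.mem_insert_of_mem hk, γ, rfl⟩
      · rintro v ⟨γ, rfl⟩
        exact ⟨a, Finset.mem_insert_self a s, γ, rfl⟩
    obtain ⟨Q, hQ, hQS, hle, hQo, hQl⟩ := exists_prime_of_notMem (stDeg n L)
      (hC.1.sup hP.1) hS ho (𝔞 := ⊥) (by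
        rw [hl, Ideal.mem_bot]; exact mul_ne_zero hCl hPl)
    refine ⟨Q, hQ, hQS, ?_, by rwa [Ideal.mem_bot] at hQl, fun k hk f => ?_⟩
    · rw [hQo, Finset.sum_insert ha]; omega
    · rcases Finset.mem_insert.1 hk with rfl | hk
      · exact hle (Ideal.mem_sup_right (hPm f))
      · exact hle (Ideal.mem_sup_left (hCm k hk f))

/-- The prime of a stage. -/
theorem exists_link (n L : ℕ) (wd : Fin n → Term) :
    ∃ J, IsGrPrime (stDeg n L) J ∧ (∀ v, (stDeg n L v).2 ≠ 0 → X v ∈ J) ∧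
      (∀ ξ : QT (one1 (stN n L) (stVar n L)), H0 (stDeg n L) ξ →
        (∃ γ, ξ.co γ ∉ J) → (mat ξ).det ∉ J) ∧
      (∀ (k : Fin n) (γ : Yc (stN n L)),
        X (Sum.inr (Sum.inl (k, γ))) -
          ((wd k).eval (QT.tau (one1 (stN n L) (stVar n L))) (gX n L)).co γ ∈ J) ∧
      (∀ (k : Fin n) (f : Fin (2 ^ (k.1 + 4) + 1) → Gam (stN n L)),
        minorDet (yX n L k) f ∈ J) ∧
      ord (stDeg n L) J ≤ 2 ^ (2 * stN n L - 3) +
        n * Fintype.card (Yc (stN n L)) + Fintype.card (Gam (stN n L)) := by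
  classical
  obtain ⟨C, hC, hCS, hCo, hCl, hCm⟩ := exists_blocks n L Finset.univ
  have hCT : SuppOn (nonU n L) C := hCS.mono (by
    rintro v ⟨k, -, γ, rfl⟩ ⟨c, hc⟩
    simp at hc)
  set g := fun k : Fin n => (wd k).eval (QT.tau (one1 (stN n L) (stVar n L))) (gX n L)
  have hg : ∀ k, H0 (stDeg n L) (g k) :=
    fun k => H0.eval (fun i => h0_genel _ fun _ => rfl) (wd k)
  have hfh : ∀ p : Fin n × Yc (stN n L), IsWeightedHomogeneous (stDeg n L)
      (X (Sum.inr (Sum.inl p)) - (g p.1).co p.2.1) ((p.2.1, 0) : Deg (QI (stN n L))) :=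
    fun p => (weightedHomogeneousSubmodule ℚ _ _).sub_mem
      (isWeightedHomogeneous_X ℚ (stDeg n L) (Sum.inr (Sum.inl p))) (hg p.1 p.2.1)
  obtain ⟨P, hP, hPT, hCP, hPf, hPo, hPl⟩ := exists_prime_cut (stDeg n L) hC hCT ⊥
    (by rwa [Ideal.mem_bot]) (Finset.univ : Finset (Fin n × Yc (stN n L)))
    (fun p => X (Sum.inr (Sum.inl p)) - (g p.1).co p.2.1) (fun p => (p.2.1, 0))
    (fun p _ => hfh p) (fun p _ => supported_of_weight_zero (hfh p))
    (fun p _ => Or.inr (by rw [Ideal.mem_bot]; exact ell_ne_zero_of_class p.2.2 0))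
  have hF : ∀ v ∈ uF n L, v ∉ nonU n L := fun v hv h => h (mem_uF.1 hv)
  obtain ⟨hJ, hJo, -⟩ := sup_span_X (stDeg n L) hP hPT (uF n L) hF
  refine ⟨_, hJ, fun v hv => ?_, fun ξ hξ hne => ?_, fun k γ => ?_, fun k f => ?_, ?_⟩
  · by_contra h
    exact hv (stDeg_snd fun hm => h (Ideal.mem_sup_right (Ideal.subset_span ⟨v, hm, rfl⟩)))
  · obtain ⟨γ, hγ⟩ := hne
    have hs : ∀ γ, ξ.co γ ∈ supported ℚ (nonU n L) := fun γ => supported_of_weight_zero (hξ γ)
    have hd : (mat ξ).det ∈ supported ℚ (nonU n L) := det_mem_supported fun a b => by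
      refine mul_mem (hs _) ?_
      rw [coc, carry_one, mul_one, sgn]
      refine Subalgebra.prod_mem _ fun j _ => ?_
      split_ifs
      · exact neg_mem (one_mem _)
      · exact one_mem _
    have hmain := det_notMem (stDeg n L) ell_stDeg
      (fun c : Gam (stN n L) => (Sum.inr (Sum.inr c) : stVar n L))
      (fun _ _ h => Sum.inr_injective (Sum.inr_injective h)) (fun _ => rfl)
      (fun v hv => stDeg_snd fun hm => hv (mem_uF.1 hm)) hP hPT
      (by rwa [Ideal.mem_bot] at hPl) hξ hs ⟨γ, fun h => hγ (Ideal.mem_sup_left h)⟩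
    rw [mem_sup_span_X hPT _ hF, kill_of_supported (fun v hv hm => hF v hm hv) hd]
    exact hmain
  · exact Ideal.mem_sup_left (hPf (k, γ) (Finset.mem_univ _))
  · exact Ideal.mem_sup_left (hCP (hCm k (Finset.mem_univ k) f))
  · rw [hJo, uF, Finset.card_map, Finset.card_univ]
    have h1 : ∑ k : Fin n, 2 ^ (2 * stN n L - (k.1 + 4)) ≤ 2 ^ (2 * stN n L - 3) := by
      rw [Fin.sum_univ_eq_sum_range fun k => 2 ^ (2 * stN n L - (k + 4))]
      calc ∑ k ∈ Finset.range n, 2 ^ (2 * stN n L - (k + 4))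
          = ∑ k ∈ Finset.range n, 2 ^ (2 * stN n L - 4 - k) :=
            Finset.sum_congr rfl fun k _ => by congr 1; omega
        _ ≤ 2 ^ (2 * stN n L - 4 + 1) :=
            le_of_add_le_left (geom_le (2 * stN n L - 4) n
              (by show n ≤ 2 * (n + 4 + L) - 4 + 1; omega)).le
        _ = 2 ^ (2 * stN n L - 3) := by
            congr 1; show 2 * (n + 4 + L) - 4 + 1 = 2 * (n + 4 + L) - 3; omega
    rw [Finset.card_univ, Fintype.card_prod, Fintype.card_fin] at hPo
    omega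

end Vale.Agent.P199.Full
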