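import Vale.Agent.P199.Full.Link
import Vale.Agent.P199.Full.Degenerate

/-!
Kurosh's problem for division rings, full disproof: the finite stage.
-/

noncomputable section

namespace Vale.Agent.P199.Full

open MvPolynomial

theorem map_sgn {N : ℕ} {R S : Type} [CommRing R] [CommRing S] (φ : R →+* S) (γ δ : Gam N) :
    φ (sgn γ δ) = sgn γ δ := by
  rw [sgn, sgn, map_prod]
  exact Finset.prod_congr rfl fun j _ => by split_ifs <;> simp

theorem carry_ne_zero {N : ℕ} {K : Type} [Field K] {z : QI N → K} (hz : ∀ i, z i ≠ 0)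
    (γ δ : Gam N) : carry z γ δ ≠ 0 :=
  Finset.prod_ne_zero_iff.2 fun i _ => by split_ifs <;> simp [hz i]

theorem center_QT {N : ℕ} {K : Type} [Field K] [CharZero K] {z : QI N → K} (hz : ∀ i, z i ≠ 0) :
    ∀ x : QT z, (∀ y, y * x = x * y) → ∀ γ, γ ≠ 0 → x.co γ = 0 := by
  classical
  intro x hx γ hγ
  obtain ⟨⟨k, b⟩, hk⟩ := Function.ne_iff.1 hγ
  have hk1 : γ (k, b) = 1 := by
    have h2 : ∀ a : ZMod 2, a = 0 ∨ a = 1 := by decide
    exact (h2 _).resolve_left hk
  let δ : Gam N := Pi.single (k, !b) 1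
  have h := congrArg (fun a : QT z => a.co (γ + δ)) (hx (QT.E δ))
  simp only [QT.co_mul] at h
  rw [Finset.sum_eq_single δ (fun a _ ha => by simp [QT.E, Pi.single_eq_of_ne ha])
      (fun h => absurd (Finset.mem_univ _) h),
    Finset.sum_eq_single γ (fun a _ ha => by
      have : γ + δ - a ≠ δ := fun e => ha (by
        rw [sub_eq_iff_eq_add, add_comm δ] at e
        exact (add_right_cancel e).symm)
      simp [QT.E, Pi.single_eq_of_ne this])
      (fun h => absurd (Finset.mem_univ _) h)] at h
  simp only [QT.E, add_sub_cancel_left, add_sub_cancel_right, Pi.single_eq_same, one_mul, mul_one,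
    coc] at h
  have hc : carry z δ γ = carry z γ δ := Finset.prod_congr rfl fun i _ => by simp only [and_comm]
  rw [hc] at h
  have hδb : δ (k, !b) = 1 := Pi.single_eq_same _ _
  have hδ0 : ∀ i, i ≠ (k, !b) → δ i = 0 := fun i hi => Pi.single_eq_of_ne hi _
  have hs : (sgn δ γ : K) ≠ sgn γ δ := by
    cases b with
    | false =>
      have h1 : (sgn δ γ : K) = -1 := by
        rw [sgn, Finset.prod_eq_single k (fun j _ hj => if_neg fun h => by
          rw [hδ0 _ (by simp [hj])] at h; exact absurd h.1 (by decide))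
          (fun h => absurd (Finset.mem_univ _) h)]
        exact if_pos ⟨hδb, hk1⟩
      have h2 : (sgn γ δ : K) = 1 := Finset.prod_eq_one fun j _ => if_neg fun h => by
        rw [hδ0 _ (by simp)] at h; exact absurd h.2 (by decide)
      rw [h1, h2]; norm_num
    | true =>
      have h1 : (sgn γ δ : K) = -1 := by
        rw [sgn, Finset.prod_eq_single k (fun j _ hj => if_neg fun h => by
          rw [hδ0 _ (by simp [hj])] at h; exact absurd h.2 (by decide))
          (fun h => absurd (Finset.mem_univ _) h)]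
        exact if_pos ⟨hk1, hδb⟩
      have h2 : (sgn δ γ : K) = 1 := Finset.prod_eq_one fun j _ => if_neg fun h => by
        rw [hδ0 _ (by simp)] at h; exact absurd h.1 (by decide)
      rw [h1, h2]; norm_num
  have h3 : (x.co γ * (sgn δ γ - sgn γ δ)) * carry z γ δ = 0 := by linear_combination h
  exact ((mul_eq_zero.1 ((mul_eq_zero.1 h3).resolve_right (carry_ne_zero hz γ δ)))).resolve_right
    (sub_ne_zero.2 hs)

section

variable {N : ℕ} {σ : Type} [Fintype σ] {w : σ → Deg (QI N)} {J : Ideal (MvPolynomial σ ℚ)}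

attribute [local instance] Model.instK Model.instA

variable (M : Model w J)

/-- The image of an element in the algebra of a model. -/
def toQT (x : QT (one1 N σ)) : QT M.z := ⟨fun γ => M.ev (x.co γ)⟩

theorem toQT_co (x : QT (one1 N σ)) (γ : Gam N) : (toQT M x).co γ = M.ev (x.co γ) := rfl

theorem toQT_zero : toQT M 0 = 0 := QT.ext (funext fun _ => map_zero M.ev)

theorem toQT_one : toQT M 1 = 1 := QT.ext <| funext fun γ => by
  rw [toQT_co, QT.co_one, QT.co_one]
  rcases eq_or_ne γ 0 with rfl | h
  · rw [Pi.single_eq_same, Pi.single_eq_same, M.ev_one]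
  · rw [Pi.single_eq_of_ne h, Pi.single_eq_of_ne h, map_zero]

theorem toQT_add (x y : QT (one1 N σ)) : toQT M (x + y) = toQT M x + toQT M y :=
  QT.ext (funext fun _ => map_add M.ev _ _)

theorem toQT_neg (x : QT (one1 N σ)) : toQT M (-x) = -toQT M x :=
  QT.ext (funext fun _ => map_neg M.ev _)

theorem toQT_mul {x y : QT (one1 N σ)} (hx : H0 w x) (hy : H0 w y) :
    toQT M (x * y) = toQT M x * toQT M y := by
  refine QT.ext (funext fun ε => ?_)
  simp only [toQT_co, QT.co_mul, map_sum]
  refine Finset.sum_congr rfl fun γ _ => ?_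
  rw [coc, carry_one, mul_one, ← map_sgn (C : ℚ →+* MvPolynomial σ ℚ), mul_comm, ← smul_eq_C_mul,
    map_smul, M.ev_mul _ _ _ _ (hx γ) (hy _), coc, ← map_sgn (algebraMap ℚ M.K), Algebra.smul_def]
  ring

theorem toQT_algebraMap (r : MvPolynomial σ ℚ) :
    toQT M (algebraMap _ (QT (one1 N σ)) r) = algebraMap M.K (QT M.z) (M.ev r) :=
  QT.ext <| funext fun γ => by
    rw [toQT_co, QT.co_algebraMap, QT.co_algebraMap]
    rcases eq_or_ne γ 0 with rfl | h
    · rw [Pi.single_eq_same, Pi.single_eq_same]
    · rw [Pi.single_eq_of_ne h, Pi.single_eq_of_ne h, map_zero]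

theorem toQT_pow {x : QT (one1 N σ)} (hx : H0 w x) : ∀ j : ℕ, toQT M (x ^ j) = toQT M x ^ j
  | 0 => by rw [pow_zero, pow_zero, toQT_one]
  | j + 1 => by rw [pow_succ, pow_succ, toQT_mul M (hx.pow j) hx, toQT_pow hx j]

theorem toQT_eval {g : Fin 3 → QT (one1 N σ)} (hg : ∀ i, H0 w (g i)) : ∀ t : Term,
    toQT M (t.eval (QT.tau (one1 N σ)) g) = t.eval (QT.tau M.z) (fun i => toQT M (g i))
  | .gen _ => rfl
  | .one => toQT_one M
  | .add s t => (toQT_add M _ _).trans (congrArg₂ (· + ·) (toQT_eval hg s) (toQT_eval hg t))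
  | .neg t => (toQT_neg M _).trans (congrArg Neg.neg (toQT_eval hg t))
  | .mul s t => (toQT_mul M (H0.eval hg s) (H0.eval hg t)).trans
      (congrArg₂ (· * ·) (toQT_eval hg s) (toQT_eval hg t))
  | .tr t => (toQT_algebraMap M _).trans (by
      simp only [Term.eval]
      rw [← toQT_eval hg t]
      rfl)

theorem exists_prod_const {α : Type} [DecidableEq α] (s : Finset α) (c : α → Gam N) :
    ∃ κ : M.K, κ ≠ 0 ∧ ∀ p : α → MvPolynomial σ ℚ,
      (∀ a ∈ s, IsWeightedHomogeneous w (p a) ((c a, 0) : Deg (QI N))) →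
        M.ev (∏ a ∈ s, p a) = κ * ∏ a ∈ s, M.ev (p a) := by
  induction s using Finset.induction with
  | empty => exact ⟨1, one_ne_zero, fun p _ => by simp [M.ev_one]⟩
  | insert a s ha ih =>
    obtain ⟨κ, hκ, h⟩ := ih
    refine ⟨carry M.z (c a) (∑ b ∈ s, c b) * κ,
      mul_ne_zero (carry_ne_zero M.z_ne _ _) hκ, fun p hp => ?_⟩
    have hs : IsWeightedHomogeneous w (∏ b ∈ s, p b) ((∑ b ∈ s, c b, 0) : Deg (QI N)) := by
      have := IsWeightedHomogeneous.prod s p (fun b => ((c b, 0) : Deg (QI N)))
        fun b hb => hp b (Finset.mem_insert_of_mem hb)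
      rwa [show ∑ b ∈ s, ((c b, 0) : Deg (QI N)) = (∑ b ∈ s, c b, 0) from
        Prod.ext (by rw [Prod.fst_sum]) (by rw [Prod.snd_sum]; simp)] at this
    rw [Finset.prod_insert ha, Finset.prod_insert ha,
      M.ev_mul _ _ _ _ (hp a (Finset.mem_insert_self a s)) hs,
      h p fun b hb => hp b (Finset.mem_insert_of_mem hb)]
    ring

theorem minor_eq_zero {x : QT (one1 N σ)} (hx : H0 w x) {e : ℕ} (f : Fin e → Gam N)
    (h : minorDet x f ∈ J) : minorDet (toQT M x) f = 0 := by
  classical
  obtain ⟨κ, hκ, hp⟩ := exists_prod_const M (Finset.univ : Finset (Fin e)) f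
  have hprod : ∀ s : Equiv.Perm (Fin e), IsWeightedHomogeneous w
      (∏ a, (x ^ ((s a : Fin e) : ℕ)).co (f a)) ((∑ a, f a, 0) : Deg (QI N)) := by
    intro s
    have := IsWeightedHomogeneous.prod (Finset.univ : Finset (Fin e))
      (fun a => (x ^ ((s a : Fin e) : ℕ)).co (f a)) (fun a => ((f a, 0) : Deg (QI N)))
      fun a _ => hx.pow _ _
    rwa [show ∑ a, ((f a, 0) : Deg (QI N)) = (∑ a, f a, 0) from
      Prod.ext (by rw [Prod.fst_sum]) (by rw [Prod.snd_sum]; simp)] at this
  have hdet : ∀ {R : Type} [CommRing R] (A : Fin e → Fin e → R),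
      (Matrix.of A).det = ∑ s : Equiv.Perm (Fin e), Equiv.Perm.sign s • ∏ a, A a (s a) := by
    intro R _ A
    rw [← Matrix.det_transpose, Matrix.det_apply]
    rfl
  have hhom : IsWeightedHomogeneous w (minorDet x f) ((∑ a, f a, 0) : Deg (QI N)) := by
    rw [minorDet, hdet]
    refine IsWeightedHomogeneous.sum _ _ _ fun s _ => ?_
    rw [Units.smul_def, zsmul_eq_mul, show ((Equiv.Perm.sign s : ℤ) : MvPolynomial σ ℚ) =
      C ((Equiv.Perm.sign s : ℤ) : ℚ) from (map_intCast (C : ℚ →+* MvPolynomial σ ℚ) _).symm]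
    have := (isWeightedHomogeneous_C w ((Equiv.Perm.sign s : ℤ) : ℚ)).mul (hprod s)
    rwa [zero_add] at this
  have h0 := (M.ev_eq_zero _ _ hhom).2 h
  have key : M.ev (minorDet x f) = κ * minorDet (toQT M x) f := by
    rw [minorDet, minorDet, hdet, hdet, map_sum, Finset.mul_sum]
    refine Finset.sum_congr rfl fun s _ => ?_
    rw [Units.smul_def, Units.smul_def, map_zsmul, hp _ fun a _ => hx.pow _ _, mul_smul_comm]
    simp only [← toQT_pow M hx, toQT_co]
  rw [key] at h0
  exact (mul_eq_zero.1 h0).resolve_left hκ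

theorem not_li_of_minors {K : Type} [Field K] {z : QI N → K} {e : ℕ} (x : QT z)
    (h : ∀ f : Fin e → Gam N, minorDet x f = 0) :
    ¬ LinearIndependent K fun j : Fin e => x ^ (j : ℕ) := by
  classical
  intro hli
  let r : Gam N → (Fin e → K) := fun γ j => (x ^ (j : ℕ)).co γ
  have hspan : Submodule.span K (Set.range r) = ⊤ := by
    by_contra hne
    obtain ⟨φ, hφ0, hφ⟩ := Submodule.exists_le_ker_of_lt_top _ (lt_top_iff_ne_top.2 hne)
    refine hφ0 ?_
    have hsum : ∑ j, φ (Pi.single j 1) • x ^ (j : ℕ) = 0 := by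
      refine QT.ext (funext fun γ => ?_)
      have h1 : φ (r γ) = 0 :=
        LinearMap.mem_ker.1 (hφ (Submodule.subset_span ⟨γ, rfl⟩))
      rw [LinearMap.pi_apply_eq_sum_univ] at h1
      rw [QT.co_zero, Pi.zero_apply, ← h1]
      simp only [show ((∑ j, φ (Pi.single j 1) • x ^ (j : ℕ) : QT z)).co =
        ∑ j, φ (Pi.single j 1) • (x ^ (j : ℕ)).co from map_sum (QT.coEquiv z) _ _]
      simp only [Finset.sum_apply, Pi.smul_apply, smul_eq_mul, r]
      refine Finset.sum_congr rfl fun j _ => ?_
      rw [mul_comm]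
      congr 2
      ext i
      simp [Pi.single_apply, eq_comm]
    refine LinearMap.pi_ext' fun j => LinearMap.ext_ring ?_
    simpa using Fintype.linearIndependent_iff.1 hli _ hsum j
  have hfr : Module.finrank K (Submodule.span K (Set.range r)) = e := by
    rw [hspan, finrank_top, Module.finrank_fin_fun]
  obtain ⟨v, hv, -, hvli⟩ := Submodule.exists_fun_fin_finrank_span_eq K (Set.range r)
  choose f hf using hv
  have hli' : LinearIndependent K fun a : Fin e => r (f (Fin.cast hfr.symm a)) := by
    simp only [hf]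
    exact hvli.comp _ (Fin.cast_injective _)
  exact ((Matrix.linearIndependent_rows_iff_isUnit.1 hli').map Matrix.detMonoidHom).ne_zero
    (h fun a => f (Fin.cast hfr.symm a))

theorem not_li_shift {K A : Type} [Field K] [Ring A] [Algebra K A] {e : ℕ} {x y : A} (c : K)
    (hxy : x = y + algebraMap K A c) (hy : ¬ LinearIndependent K fun j : Fin e => y ^ (j : ℕ)) :
    ¬ LinearIndependent K fun j : Fin e => x ^ (j : ℕ) := by
  intro hx
  refine hy (linearIndependent_iff_card_le_finrank_span.2 ?_)
  let b := fun j : Fin e => y ^ (j : ℕ)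
  have hle : Submodule.span K (Set.range fun j : Fin e => x ^ (j : ℕ)) ≤
      Submodule.span K (Set.range b) := by
    rw [Submodule.span_le]
    rintro _ ⟨j, rfl⟩
    simp only [SetLike.mem_coe, hxy, (Algebra.commutes c y).symm |> fun h => (show Commute y
      (algebraMap K A c) from h).add_pow]
    refine Submodule.sum_mem _ fun m hm => ?_
    have hm' : m < e := by have := Finset.mem_range.1 hm; omega
    rw [← map_pow, ← map_natCast (algebraMap K A), mul_assoc, ← map_mul, ← Algebra.commutes,
      ← Algebra.smul_def]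
    exact Submodule.smul_mem _ _ (Submodule.subset_span ⟨⟨m, hm'⟩, rfl⟩)
  have : Module.Finite K (Submodule.span K (Set.range b)) :=
    Module.Finite.span_of_finite K (Set.finite_range b)
  have h1 := Submodule.finrank_mono hle
  rw [finrank_span_eq_card hx] at h1
  exact h1

theorem eval_co_mem {N : ℕ} {K : Type} [Field K] [Algebra ℚ K] {z : QI N → K}
    {F : IntermediateField ℚ K} (hz : ∀ i, z i ∈ F) {g : Fin 3 → QT z}
    (hg : ∀ i γ, (g i).co γ ∈ F) : ∀ (t : Term) (γ : Gam N), (t.eval (QT.tau z) g).co γ ∈ F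
  | .gen i, γ => hg i γ
  | .one, γ => by
    simp only [Term.eval, QT.co_one]
    rcases eq_or_ne γ 0 with rfl | h
    · rw [Pi.single_eq_same]; exact one_mem _
    · rw [Pi.single_eq_of_ne h]; exact zero_mem _
  | .add s t, γ => add_mem (eval_co_mem hz hg s γ) (eval_co_mem hz hg t γ)
  | .neg t, γ => neg_mem (eval_co_mem hz hg t γ)
  | .mul s t, γ => by
    simp only [Term.eval, QT.co_mul]
    refine sum_mem fun δ _ => mul_mem (mul_mem (eval_co_mem hz hg s δ) (eval_co_mem hz hg t _)) ?_
    refine mul_mem ?_ (prod_mem fun i _ => ?_)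
    · refine prod_mem fun j _ => ?_
      split_ifs
      · exact neg_mem (one_mem _)
      · exact one_mem _
    · split_ifs
      · exact hz i
      · exact one_mem _
  | .tr t, γ => by
    simp only [Term.eval, QT.co_algebraMap]
    rcases eq_or_ne γ 0 with rfl | h
    · rw [Pi.single_eq_same]; exact eval_co_mem hz hg t 0
    · rw [Pi.single_eq_of_ne h]; exact zero_mem _

end

attribute [local instance] Model.instK Model.instA

/-- Every finite list of words has a stage. -/
theorem exists_stage (n L : ℕ) (wd : Fin n → Term) : Nonempty (Stage wd L) := by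
  classical
  obtain ⟨J, hJ, hJ2, hdiv, hlink, hminor, hord⟩ := exists_link n L wd
  obtain ⟨M⟩ := exists_model (stDeg n L) hJ hJ2 hdiv
  have : CharZero M.K := algebraRat.charZero M.K
  have : NoZeroDivisors (QT M.z) := ⟨fun {a b} h => M.dom a b h⟩
  have : Nontrivial (QT M.z) :=
    ⟨⟨0, 1, fun h => zero_ne_one (α := M.K) (by simpa [QT.co_one] using congrArg (fun x => x.co 0) h)⟩⟩
  have : IsDomain (QT M.z) := NoZeroDivisors.to_isDomain _
  let instD : DivisionRing (QT M.z) := divisionRingOfFiniteDimensional M.K (QT M.z)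
  have hgX : ∀ i, H0 (stDeg n L) (gX n L i) := fun i => h0_genel _ fun _ => rfl
  let g : Fin 3 → QT M.z := fun i => toQT M (gX n L i)
  have hev : ∀ k, toQT M ((wd k).eval (QT.tau (one1 _ _)) (gX n L)) =
      (wd k).eval (QT.tau M.z) g := fun k => toQT_eval M hgX (wd k)
  have hyev : ∀ (k : Fin n) (γ : Yc (stN n L)), M.ev (X (Sum.inr (Sum.inl (k, γ)))) =
      ((wd k).eval (QT.tau M.z) g).co γ := by
    intro k γ
    have hh := (weightedHomogeneousSubmodule ℚ (stDeg n L) _).sub_mem
      (isWeightedHomogeneous_X ℚ (stDeg n L) (Sum.inr (Sum.inl (k, γ))))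
      (H0.eval hgX (wd k) γ.1)
    have := (M.ev_eq_zero _ _ hh).2 (hlink k γ)
    rw [map_sub, sub_eq_zero] at this
    rw [this, ← hev, toQT_co]
  refine ⟨{ K := M.K, D := QT M.z, τ := QT.tau M.z, τ_one := QT.tau_one, g := g,
            deg_le := fun k => ?_, big := fun A hA => ?_ }⟩
  · set x := (wd k).eval (QT.tau M.z) g with hx
    refine not_li_shift (y := toQT M (yX n L k)) (QT.tau M.z x) (QT.ext (funext fun γ => ?_))
      (not_li_of_minors _ fun f => minor_eq_zero M (h0_genel _ fun _ => rfl) f (hminor k f))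
    rw [QT.co_add, Pi.add_apply, QT.co_algebraMap, toQT_co, QT.tau_apply, yX, genel]
    by_cases hγ : γ = 0
    · subst hγ
      simp
    · simp only [dif_pos hγ, ne_eq]
      rw [hyev k ⟨γ, hγ⟩, Pi.single_eq_of_ne hγ, add_zero, hx]
  · by_contra hcon
    push Not at hcon
    set q := stN n L with hq
    have hQ : Module.finrank M.K (QT M.z) = Fintype.card (Gam q) := by
      rw [(QT.coEquiv M.z).finrank_eq, Module.finrank_pi]
    have hcard : Fintype.card (Gam q) = 8 * 2 ^ (2 * q - 3) := by
      rw [Fintype.card_fun, ZMod.card, Fintype.card_prod, Fintype.card_fin, Fintype.card_bool,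
        show (8 : ℕ) = 2 ^ 3 from rfl, ← pow_add]
      congr 1
      have : 4 ≤ q := by show 4 ≤ n + 4 + L; omega
      omega
    have hY : Fintype.card (Yc q) = Fintype.card (Gam q) - 1 := by
      simp [Fintype.card_subtype_compl]
    have hpow : 2 ^ 5 ≤ 2 ^ (2 * q - 3) :=
      Nat.pow_le_pow_right (by norm_num) (by show 5 ≤ 2 * (n + 4 + L) - 3; omega)
    have hLQ : L < Fintype.card (Gam q) := by
      have h1 : L ≤ 2 * q - 3 := by show L ≤ 2 * (n + 4 + L) - 3; omega
      have h2 := (2 * q - 3).lt_two_pow_self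
      omega
    have hA' : A ≠ ⊤ := fun h => by
      rw [h, Subalgebra.topEquiv.toLinearEquiv.finrank_eq] at hA
      omega
    have hc : Subalgebra.center M.K (QT M.z) = ⊥ := by
      refine le_bot_iff.1 fun x hx => ?_
      rw [Algebra.mem_bot]
      refine ⟨x.co 0, QT.ext (funext fun γ => ?_)⟩
      rw [QT.co_algebraMap]
      rcases eq_or_ne γ 0 with rfl | h
      · rw [Pi.single_eq_same]
      · rw [Pi.single_eq_of_ne h,
          center_QT M.z_ne x (fun y => Subalgebra.mem_center_iff.1 hx y) γ h]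
    let e : Gam q ≃ Fin (Module.finrank M.K (QT M.z)) := Fintype.equivFinOfCardEq hQ.symm
    let b : Module.Basis (Fin (Module.finrank M.K (QT M.z))) M.K (QT M.z) :=
      (Module.Basis.ofEquivFun (QT.coEquiv M.z)).reindex e
    have hb0 : ∀ x l, b.repr x l = x.co (e.symm l) := fun x l => by
      simp only [b, Module.Basis.repr_reindex_apply, Module.Basis.ofEquivFun_repr_apply]
      rfl
    have hbe : ∀ i, b i = QT.E (e.symm i) := fun i => by
      refine QT.ext (funext fun γ => ?_)
      have h := hb0 (b i) (e γ)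
      rw [b.repr_self, Equiv.symm_apply_apply] at h
      rw [← h, QT.E, Finsupp.single_apply]
      simp only [Pi.single_apply]
      exact if_congr (by rw [← e.symm_apply_eq]; exact eq_comm) rfl rfl
    let E : Finset M.K := Finset.univ.image M.z
    have hzE : ∀ i, M.z i ∈ (E : Set M.K) := fun i => by simp [E]
    have hb : ∀ i j l, b.repr (b i * b j) l ∈ IntermediateField.adjoin ℚ (E : Set M.K) := by
      intro i j l
      rw [hb0, hbe, hbe, QT.E_mul_E, QT.co_smul, Pi.smul_apply, smul_eq_mul]
      refine mul_mem (mul_mem (prod_mem fun k _ => ?_) (prod_mem fun k _ => ?_)) ?_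
      · split_ifs
        · exact neg_mem (one_mem _)
        · exact one_mem _
      · split_ifs
        · exact IntermediateField.subset_adjoin ℚ _ (hzE k)
        · exact one_mem _
      · simp only [QT.E, Pi.single_apply]
        split_ifs
        · exact one_mem _
        · exact zero_mem _
    have hgen : IntermediateField.adjoin ℚ ((E : Set M.K) ∪ Set.range fun p :
        Fin 3 × Fin (Module.finrank M.K (QT M.z)) => b.repr (g p.1) p.2) = ⊤ := by
      set F := IntermediateField.adjoin ℚ ((E : Set M.K) ∪ Set.range fun p :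
        Fin 3 × Fin (Module.finrank M.K (QT M.z)) => b.repr (g p.1) p.2)
      have hzF : ∀ i, M.z i ∈ F := fun i => IntermediateField.subset_adjoin ℚ _ (Or.inl (hzE i))
      have hgF : ∀ i γ, (g i).co γ ∈ F := fun i γ => IntermediateField.subset_adjoin ℚ _
        (Or.inr ⟨(i, e γ), by simp [hb0]⟩)
      refine top_unique ?_
      rw [← M.gen, IntermediateField.adjoin_le_iff]
      rintro _ (⟨i, rfl⟩ | ⟨v, rfl⟩)
      · exact hzF i
      · rcases v with ⟨i, γ⟩ | ⟨k, γ⟩ | c
        · have := hgF i γ.1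
          simp only [g, toQT_co, gX, genel, dif_pos γ.2] at this
          exact this
        · show M.ev _ ∈ F
          rw [hyev]
          exact eval_co_mem hzF hgF (wd k) γ.1
        · show M.ev _ ∈ F
          rw [(M.ev_eq_zero _ _ (isWeightedHomogeneous_X ℚ (stDeg n L) _)).2
            (hJ2 _ (by simp [stDeg]))]
          exact zero_mem _
    have ht := trdeg_bound (k := ℚ) hc b E hb g hgen hA' hcon
    rw [M.trdeg, Nat.cast_le, hQ] at ht
    have hE : E.card ≤ 2 * q := by
      refine Finset.card_image_le.trans ?_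
      simp [Fintype.card_prod, mul_comm, hq]
    have hσ : Fintype.card (stVar n L) =
        3 * Fintype.card (Yc q) + (n * Fintype.card (Yc q) + Fintype.card (Gam q)) := by
      unfold stVar
      simp only [Fintype.card_sum, Fintype.card_prod, Fintype.card_fin]
      rfl
    rw [hσ] at ht
    generalize ord (stDeg n L) J = o at ht hord
    have hord' : o ≤ 2 ^ (2 * q - 3) + n * Fintype.card (Yc q) + Fintype.card (Gam q) := hord
    clear hord
    have ht' : 3 * Fintype.card (Yc q) + (n * Fintype.card (Yc q) + Fintype.card (Gam q)) + 2 * q - o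
        ≤ E.card + Fintype.card (Gam q) + 3 * (Fintype.card (Gam q) / 2) := ht
    clear ht
    rename' ht' => ht
    rename' hord' => hord
    rw [hY] at ht hord
    rw [hcard] at ht hord
    have : 3 * (8 * 2 ^ (2 * q - 3) / 2) ≤ 12 * 2 ^ (2 * q - 3) := by omega
    rw [Nat.mul_sub, Nat.mul_sub, mul_one, mul_one] at ht
    rw [Nat.mul_sub, mul_one] at hord
    have hn : n ≤ n * (8 * 2 ^ (2 * q - 3)) := Nat.le_mul_of_pos_right n (by omega)
    omega

end Vale.Agent.P199.Full
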